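import Vale.Agent.P153.CA.Basic

/-! An arc touching the boundary at most once does not disconnect a domain. -/

open Set Filter Topology Metric Complex MeasureTheory
open scoped ComplexConjugate ENNReal Real

noncomputable section
namespace Vale.Agent.P153.CA

theorem s_arc (h2 : S_bc2) (hj : S_jan) : S_arc := by
  intro Ω γ a b hΩ hc hab hγ hi hm
  have hA : IsCompact (γ '' Icc a b) := isCompact_Icc.image_of_continuousOn hγ
  have hs : γ '' Icc a b ∩ Ωᶜ ⊆ {γ a} := by
    rintro _ ⟨⟨t, ht, rfl⟩, h⟩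
    rcases ht.1.eq_or_lt with e | e
    · rw [e]; rfl
    · exact absurd (hm t ⟨e, ht.2⟩) h
  refine preconn_of_joined fun p hp q hq => ?_
  have h1 : ∀ x ∉ γ '' Icc a b, ∀ t ∈ Icc a b, γ t - x ≠ 0 := fun x hx t ht e =>
    hx ⟨t, ht, sub_eq_zero.1 e⟩
  obtain ⟨L, hL, e⟩ := lift_Icc (g := fun t => (γ t - p) / (γ t - q)) hab
    ((hγ.sub continuousOn_const).div (hγ.sub continuousOn_const) (h1 q hq.2))
    fun t ht => div_ne_zero (h1 p hp.2 t ht) (h1 q hq.2 t ht)
  obtain ⟨l, hl, e'⟩ := descend isCompact_Icc hγ hL.continuousOn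
    fun s hs t ht k => congrArg L (hi hs ht k)
  have := hj _ Ωᶜ p q hA hΩ.isClosed_compl (subsingleton_singleton.anti hs).isPreconnected
    (h2 _ p q hA.isClosed (Or.inl hA.isBounded) hp.2 hq.2 ⟨l, hl, by
      rintro _ ⟨t, ht, rfl⟩
      rw [e' t ht, e t ht]⟩)
    (by rw [compl_compl]; exact joinedIn_of_open hΩ hc hp.1 hq.1)
  rwa [compl_union, compl_compl, inter_comm] at this

end Vale.Agent.P153.CA
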