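import Vale.Agent.P153.CA.Basic

/-! The converse of the Borsuk criterion, for two points. -/

open Set Filter Topology Metric Complex MeasureTheory
open scoped ComplexConjugate ENNReal Real

noncomputable section
namespace Vale.Agent.P153.CA

namespace Bc2

theorem mem_comp (hc : S_bconv) {A : Set ℂ} {p q : ℂ} (hA : IsClosed A) (hp : p ∉ A) (hq : q ∉ A)
    (h : HasLog (fun z => (z - p) / (z - q)) A)
    (hb : Bornology.IsBounded (connectedComponentIn Aᶜ p)) : q ∈ connectedComponentIn Aᶜ p := by
  by_contra hn
  refine one_ne_zero (hc _ p 1 (fun z => z - q) hA.isOpen_compl.connectedComponentIn hb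
    (mem_connectedComponentIn hp) (by fun_prop) (fun z hz e => ?_)
    ((h.mono (frontier_comp hA p)).congr fun z _ => by rw [zpow_one]))
  rw [sub_eq_zero.1 e, closure_eq_self_union_frontier] at hz
  exact hz.elim hn fun h1 => hq (frontier_comp hA p h1)

theorem ext_sub {A : Set ℂ} {R : ℝ} (hR : A ⊆ closedBall 0 R) {p : ℂ}
    (hb : ¬ Bornology.IsBounded (connectedComponentIn Aᶜ p)) :
    {z : ℂ | R < ‖z - 0‖} ⊆ connectedComponentIn Aᶜ p := by
  obtain ⟨w, h1, h2⟩ := not_subset.1 fun h => hb ((isBounded_closedBall (x := 0) (r := R)).subset h)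
  rw [connectedComponentIn_eq h1]
  refine (isPathConnected_ext 0 R).isConnected.isPreconnected.subset_connectedComponentIn
    (by simpa using h2) fun z hz hzA => ?_
  exact absurd (mem_closedBall_iff_norm.1 (hR hzA)) (not_le.2 hz)

end Bc2

open Bc2 in
theorem s_bc2 (hc : S_bconv) : S_bc2 := by
  intro A p q hA hb hp hq h
  have key : ∀ {p q : ℂ}, p ∉ A → q ∈ connectedComponentIn Aᶜ p → JoinedIn Aᶜ p q :=
    fun hp hq => (joinedIn_of_open hA.isOpen_compl.connectedComponentIn
      isPreconnected_connectedComponentIn (mem_connectedComponentIn hp) hq).mono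
        (connectedComponentIn_subset _ _)
  by_cases h1 : Bornology.IsBounded (connectedComponentIn Aᶜ p)
  · exact key hp (mem_comp hc hA hp hq h h1)
  by_cases h2 : Bornology.IsBounded (connectedComponentIn Aᶜ q)
  · exact (key hq (mem_comp hc hA hq hp (h.inv.congr fun z _ => inv_div _ _) h2)).symm
  obtain ⟨R, hR⟩ := (hb.resolve_right fun h3 =>
    h1 (h3.subset (connectedComponentIn_subset _ _))).subset_closedBall 0
  obtain ⟨w, hw⟩ := (isPathConnected_ext 0 R).nonempty
  refine key hp ?_
  rw [connectedComponentIn_eq (ext_sub hR h1 hw), ← connectedComponentIn_eq (ext_sub hR h2 hw)]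
  exact mem_connectedComponentIn hq

end Vale.Agent.P153.CA
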