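import Vale.Agent.P153.CA.Basic

/-! The converse of the Borsuk criterion. -/

open Set Filter Topology Metric Complex MeasureTheory
open scoped ComplexConjugate ENNReal Real

noncomputable section
namespace Vale.Agent.P153.CA

open Vale.Agent.P164 (Pth HP Zf fi)

namespace Bconv

theorem tietze {A : Set ℂ} (hA : IsClosed A) {l : ℂ → ℂ} (hl : ContinuousOn l A) :
    ∃ L : ℂ → ℂ, Continuous L ∧ ∀ z ∈ A, L z = l z := by
  obtain ⟨g, hg⟩ := ContinuousMap.exists_restrict_eq hA
    (⟨A.domRestrict l, hl.domRestrict⟩ : C(A, ℂ))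
  refine ⟨g, g.continuous, fun z hz => ?_⟩
  have := congrArg (fun h : C(A, ℂ) => h ⟨z, hz⟩) hg
  exact this

theorem zero_of_log {a : ℂ} {m : ℤ} {R : ℝ} (hR : 0 < R) {k : ℂ → ℂ} (hk : Continuous k)
    (h : ∀ z, ‖z - a‖ = R → exp (k z) = (z - a) ^ m) : m = 0 := by
  have hc : Continuous fun t : ℝ => a + (R : ℂ) * exp (t * I) := by fun_prop
  have e : ∀ t ∈ (univ : Set ℝ), exp (k (a + (R : ℂ) * exp (t * I))) =
      exp ((m : ℂ) * ((Real.log R : ℝ) + t * I)) := by
    intro t _
    rw [h _ (by simp [abs_of_pos hR]), add_sub_cancel_left, exp_int_mul, exp_add,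
      ← ofReal_exp, Real.exp_log hR]
  have h1 := log_const (X := ℝ) isPreconnected_univ (hk.comp hc).continuousOn
    (l' := fun t : ℝ => (m : ℂ) * ((Real.log R : ℝ) + t * I)) (by fun_prop) e
    (mem_univ 0) (mem_univ (2 * π))
  have h2 : exp (((2 * π : ℝ) : ℂ) * I) = 1 := by
    rw [← exp_two_pi_mul_I]; congr 1; push_cast; ring
  simp only [Function.comp, h2, ofReal_zero, zero_mul, exp_zero, add_zero] at h1
  have h3 : (m : ℂ) * (((2 * π : ℝ) : ℂ) * I) = 0 := by linear_combination h1
  rcases mul_eq_zero.1 h3 with h4 | h4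
  · exact_mod_cast h4
  · rcases mul_eq_zero.1 h4 with h5 | h5
    · have : (2 * π : ℝ) = 0 := by exact_mod_cast h5
      linarith [Real.pi_pos]
    · exact absurd h5 I_ne_zero

end Bconv

theorem s_bconv : S_bconv := by
  classical
  intro U a m f hU hb ha hf h0 ⟨l, hl, he⟩
  obtain ⟨L, hL, hLl⟩ := Bconv.tietze isClosed_frontier hl
  let G : ℂ → ℂ := fun z => if z ∈ closure U then f z * exp (L z) else (z - a) ^ m
  have g1 : ∀ z ∈ closure U, G z = f z * exp (L z) := fun z hz => if_pos hz
  have g2 : ∀ z ∈ Uᶜ, G z = (z - a) ^ m := by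
    intro z hz
    by_cases h : z ∈ closure U
    · have hz' : z ∈ frontier U := ⟨h, by rwa [hU.interior_eq]⟩
      rw [g1 z h, hLl z hz', he z hz']
      field_simp [h0 z h]
    · exact if_neg h
  have hne : ∀ z ∈ Uᶜ, z - a ≠ 0 := fun z hz e => hz (sub_eq_zero.1 e ▸ ha)
  have c1 : ContinuousOn G (closure U) :=
    (hf.mul (continuous_exp.comp hL).continuousOn).congr g1
  have c2 : ContinuousOn G Uᶜ :=
    ContinuousOn.congr ((continuousOn_id.sub continuousOn_const).zpow₀ m
      fun z hz => Or.inl (hne z hz)) g2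
  have cG : Continuous G := by
    rw [← continuousOn_univ]
    have : closure U ∪ Uᶜ = univ := eq_univ_of_forall fun z => by
      by_cases h : z ∈ U
      · exact Or.inl (subset_closure h)
      · exact Or.inr h
    rw [← this]
    exact c1.union_of_isClosed c2 isClosed_closure hU.isClosed_compl
  have nG : ∀ z, G z ≠ 0 := by
    intro z
    by_cases h : z ∈ U
    · rw [g1 z (subset_closure h)]
      exact mul_ne_zero (h0 z (subset_closure h)) (exp_ne_zero _)
    · rw [g2 z h]
      exact zpow_ne_zero _ (hne z h)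
  obtain ⟨k, hk, hke⟩ := hasLog_univ cG nG
  obtain ⟨R, hR, hUR⟩ := hb.subset_ball_lt 0 a
  refine Bconv.zero_of_log hR (continuousOn_univ.1 hk) (a := a) fun z hz => ?_
  rw [hke z trivial, g2 z]
  intro hzU
  have := hUR hzU
  rw [mem_ball, dist_eq_norm, hz] at this
  exact lt_irrefl _ this

end Vale.Agent.P153.CA
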