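import Vale.Agent.P153.CA.Basic

/-! The theorem of Caratheodory. -/

open Set Filter Topology Metric Complex MeasureTheory
open scoped ComplexConjugate ENNReal Real

noncomputable section
namespace Vale.Agent.P153.CA

namespace Car

variable {U V : Set ℂ} {f g : ℂ → ℂ}

theorem lim (hf : UniformContinuousOn f U) {z : ℂ} (hz : z ∈ closure U) :
    ∃ y, Tendsto f (𝓝[U] z) (𝓝 y) := by
  have := mem_closure_iff_nhdsWithin_neBot.1 hz
  exact cauchy_map_iff_exists_tendsto.1
    ((cauchy_nhds.mono nhdsWithin_le_nhds).map_of_le hf inf_le_right)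

theorem ext (hf : UniformContinuousOn f U) (hg : UniformContinuousOn g V) (hm : MapsTo f U V)
    (gf : ∀ z ∈ U, g (f z) = z) {z : ℂ} (hz : z ∈ closure U) :
    extendFrom U f z ∈ closure V ∧ extendFrom V g (extendFrom U f z) = z := by
  have := mem_closure_iff_nhdsWithin_neBot.1 hz
  have h1 := tendsto_extendFrom (lim hf hz)
  have h2 : ∀ᶠ w in 𝓝[U] z, f w ∈ V := eventually_mem_nhdsWithin.mono hm
  have h3 := mem_closure_of_tendsto h1 h2
  refine ⟨h3, tendsto_nhds_unique (((tendsto_extendFrom (lim hg h3)).comp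
    (tendsto_nhdsWithin_iff.2 ⟨h1, h2⟩)).congr' (eventually_mem_nhdsWithin.mono gf))
    (tendsto_id.mono_left nhdsWithin_le_nhds)⟩

end Car

open Car in
theorem s_car (hr : S_rmt) (ht : S_jct) (he : S_equi) (hi : S_iequi) : S_car := by
  intro j o t hj ho
  obtain ⟨h1, h2, h3, h4, h5⟩ := ht j hj
  obtain ⟨f, φ, -, hc, h0, -⟩ := hr _ o h1 h3
    (fun e => NormedSpace.unbounded_univ ℝ ℂ (e ▸ h2)) ho h4
  have uf : UniformContinuousOn f (ball 0 1) := by
    refine Metric.uniformContinuousOn_iff_le.2 fun ε hε => ?_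
    obtain ⟨ρ, hρ, h⟩ := he j o hj ho.1 ε hε
    refine ⟨ρ, hρ, fun z hz z' hz' hd => ?_⟩
    rw [dist_eq_norm] at hd ⊢
    exact h j f φ hj (fun t => by simpa using hρ.le) hc h0 z hz z' hz' hd
  have ug := hi j f φ hj hc
  have hb : closure (ball (0 : ℂ) 1) = closedBall 0 1 := closure_ball 0 one_ne_zero
  obtain ⟨F, hF⟩ : ∃ F, F = extendFrom (ball 0 1) f := ⟨_, rfl⟩
  have e1 : EqOn F f (ball 0 1) := hF ▸ extendFrom_extends uf.continuousOn
  have e2 : ContinuousOn F (closedBall 0 1) :=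
    hF ▸ continuousOn_extendFrom hb.ge fun z hz => lim uf (hb.ge hz)
  have e3 : InjOn F (closedBall 0 1) := hF ▸ LeftInvOn.injOn (f₁' := extendFrom _ φ)
    fun z hz => (ext uf ug hc.mf hc.gf (hb.ge hz)).2
  have e4 : F '' closedBall 0 1 = closure (inside (range j)) := by
    rw [hF, ← hb]
    refine Subset.antisymm (image_subset_iff.2 fun z hz => (ext uf ug hc.mf hc.gf hz).1)
      fun w hw => ⟨_, ext ug uf hc.mg hc.fg hw⟩
  have e5 : F '' ball 0 1 = inside (range j) := e1.image_eq.trans hc.image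
  have e6 : F '' sphere 0 1 = range j := by
    rw [← closedBall_sdiff_ball, e3.image_sdiff_subset ball_subset_closedBall, e4, e5,
      ← h1.frontier_eq, h5 ⟨o, ho⟩]
  obtain ⟨ζ, hζ, e7⟩ : j t ∈ F '' sphere 0 1 := e6 ▸ mem_range_self t
  rw [mem_sphere_zero_iff_norm] at hζ
  have hζ0 : ζ ≠ 0 := norm_ne_zero_iff.1 (hζ ▸ one_ne_zero)
  have m1 : MapsTo (ζ * ·) (closedBall 0 1) (closedBall 0 1) := fun z hz => by
    simpa [hζ] using hz
  have m2 : (ζ * ·) '' ball 0 1 = ball 0 1 :=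
    (_root_.smul_ball hζ0 (0 : ℂ) 1).trans (by simp [hζ])
  have m3 : (ζ * ·) '' sphere 0 1 = sphere 0 1 :=
    (smul_sphere' hζ0 (0 : ℂ) 1).trans (by simp [hζ])
  refine ⟨F ∘ (ζ * ·), ⟨e2.comp (by fun_prop) m1, e3.comp (mul_right_injective₀ hζ0).injOn m1,
    (hc.hf.congr e1).comp (by fun_prop) (mapsTo_iff_image_subset.2 m2.le)⟩,
    by rw [image_comp, m2, e5], by rw [image_comp, m3, e6], ?_, by simpa using e7⟩
  rw [Function.comp, mul_zero, e1 (mem_ball_self one_pos), h0]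

end Vale.Agent.P153.CA
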