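import Vale.Agent.P153.CA.Basic

/-! The normalised maps along a simple curve exist. -/

open Set Filter Topology Metric Complex MeasureTheory
open scoped ComplexConjugate ENNReal Real

noncomputable section
namespace Vale.Agent.P153.CA

open Vale.Agent.P164 (Pth HP Zf fi)

namespace Ch0

variable {η : ℝ → ℂ} {L s : ℝ}

theorem slit (ha : S_arc) (h : Crv η L) (h0 : 0 < s) (hL : s < L) :
    Slit (η '' Ioc 0 s) (η 0).re := by
  have e0 : (((η 0).re : ℝ) : ℂ) = η 0 := Complex.ext (by simp) (by simp [h.im0])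
  have hs : Icc 0 s ⊆ Ico 0 L := Icc_subset_Ico_right hL
  have hc : ContinuousOn η (Icc 0 s) := h.cont.mono hs
  have hsub : ∀ u ∈ Ioc 0 s, η u ∈ HP := fun u hu => h.pos u ⟨hu.1, hu.2.trans_lt hL⟩
  have e1 : η '' Icc 0 s = insert (η 0) (η '' Ioc 0 s) := by
    rw [← image_insert_eq, Ioc_insert_left h0.le]
  refine ⟨image_subset_iff.2 hsub, isPreconnected_Ioc.image _ (hc.mono Ioc_subset_Icc_self),
    (nonempty_Ioc.2 h0).image _, ?_, ?_, ?_⟩
  · rw [e0, ← e1]
    exact isCompact_Icc.image_of_continuousOn hc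
  · rw [e0]
    refine ((hc 0 (left_mem_Icc.2 h0.le)).mono Ioc_subset_Icc_self).mem_closure_image ?_
    rw [closure_Ioc h0.ne]
    exact left_mem_Icc.2 h0.le
  · have := ha HP η 0 s isOpen_HP convex_HP.isPreconnected h0.le hc (h.inj.mono hs) hsub
    have hn : η 0 ∉ HP := fun h' => h.im0.not_gt h'
    rwa [e1, sdiff_insert_of_notMem hn] at this

theorem hyd_empty : Hyd ∅ id id 0 := by
  refine ⟨empty_subset _, Bornology.isBounded_empty, ?_, ⟨0, fun z _ => by simp⟩,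
    by simpa using tendsto_const_nhds⟩
  rw [sdiff_empty]
  exact ⟨isOpen_HP, isOpen_HP, differentiableOn_id, differentiableOn_id, mapsTo_id _, mapsTo_id _,
    fun _ _ => rfl, fun _ _ => rfl⟩

end Ch0

open Ch0 in
theorem s_ch0 (ha : S_arc) (hh : S_hull) (h2 : S_est2) : S_ch0 := by
  intro η L h
  obtain ⟨C, hC, hb⟩ := h2
  have key : ∀ s : ℝ, ∃ (g f : ℂ → ℂ) (a : ℝ), s ∈ Ico 0 L → Hyd (η '' Ioc 0 s) g f a ∧
      ∀ r : ℝ, 0 < r → η '' Ioc 0 s ⊆ closedBall 0 r →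
        ∀ z ∈ HP \ η '' Ioc 0 s, ‖g z - z‖ ≤ C * r := by
    intro s
    rcases le_or_gt s 0 with h0 | h0
    · refine ⟨id, id, 0, fun _ => ?_⟩
      rw [Ioc_eq_empty_of_le h0, image_empty]
      exact ⟨hyd_empty, fun r hr _ z _ => by simpa using by positivity⟩
    · by_cases hL : s < L
      · obtain ⟨g, f, a, h1, h3⟩ := hh _ _ (slit ha h h0 hL)
        refine ⟨g, f, a, fun _ => ⟨h1, fun r hr hs => ?_⟩⟩
        have hs' : η '' Ioc 0 s ⊆ closedBall ((0 : ℝ) : ℂ) r := by rwa [ofReal_zero]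
        exact (hb _ g f a 0 r h1 hr hs' (h3 0 r hr hs')).2.1
      · exact ⟨id, id, 0, fun hs => absurd hs.2 hL⟩
  choose g f a hk using key
  refine ⟨g, f, a, fun s hs => (hk s hs).1, fun S hS => ?_⟩
  obtain ⟨r, hr, hsub⟩ := ((isCompact_Icc.image_of_continuousOn
    (h.cont.mono (Icc_subset_Ico_right hS))).isBounded).subset_closedBall_lt 0 (0 : ℂ)
  refine ⟨C * r, fun s hs => (hk s ⟨hs.1, hs.2.trans_lt hS⟩).2 r hr ?_⟩
  exact (image_mono (Ioc_subset_Icc_self.trans (Icc_subset_Icc_right hs.2))).trans hsub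

end Vale.Agent.P153.CA
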