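import Vale.Agent.P153.CA.Basic

/-! Local growth of the Loewner chain of a simple curve. -/

open Set Filter Topology Metric Complex MeasureTheory
open scoped ComplexConjugate ENNReal Real

noncomputable section
namespace Vale.Agent.P153.CA

open Vale.Agent.P164 (Pth HP Zf fi)

namespace Ch1

variable {η : ℝ → ℂ} {L : ℝ} {g f : ℝ → ℂ → ℂ} {a : ℝ → ℝ}

theorem mem_dom (h : Crv η L) {s u : ℝ} (hs : 0 ≤ s) (h1 : s < u) (h2 : u < L) :
    η u ∈ HP \ η '' Ioc 0 s := by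
  refine ⟨h.pos u ⟨hs.trans_lt h1, h2⟩, ?_⟩
  rintro ⟨t, ht, e⟩
  have := h.inj ⟨ht.1.le, ht.2.trans_lt (h1.trans h2)⟩ ⟨hs.trans h1.le, h2⟩ e
  linarith [ht.2]

theorem not_sphere (h : Crv η L) {s ρ : ℝ} (hs : s ∈ Ico 0 L) (h0 : 0 ≤ ρ) (h1 : ρ ≤ 1) :
    ¬ sphere (η s) ρ ⊆ HP \ η '' Ioc 0 s := by
  have hT : IsPreconnected (η '' Icc 0 s ∪ {z : ℂ | z.im ≤ 0}) :=
    IsPreconnected.union (η 0) ⟨0, left_mem_Icc.2 hs.1, rfl⟩ h.im0.le
      (isPreconnected_Icc.image _ (h.cont.mono (Icc_subset_Ico_right hs.2)))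
      (convex_halfSpace_im_le 0).isPreconnected
  obtain ⟨z, hz, e⟩ := hT.intermediate_value (f := fun z => dist z (η s))
    (Or.inl ⟨s, right_mem_Icc.2 hs.1, rfl⟩)
    (Or.inr (show η s - ((|(η s).im| + 1 : ℝ) : ℂ) * I ∈ {z : ℂ | z.im ≤ 0} by
      simp only [mem_ofPred_eq, sub_im, mul_im, ofReal_re, I_im, ofReal_im, I_re]
      linarith [le_abs_self (η s).im])) (by fun_prop)
    (show ρ ∈ _ from ⟨by simpa using h0, by
      rw [dist_eq_norm, sub_sub_cancel_left, norm_neg, norm_mul, norm_I, norm_real, mul_one]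
      exact le_trans (by linarith [abs_nonneg (η s).im]) (le_abs_self _)⟩)
  intro hsub
  obtain ⟨h2, h3⟩ := hsub (show z ∈ sphere (η s) ρ from e)
  have h4 : 0 < z.im := h2
  rcases hz with ⟨t, ht, rfl⟩ | hz
  · rcases ht.1.eq_or_lt with rfl | h5
    · exact h4.ne' h.im0
    · exact h3 ⟨t, ⟨h5, ht.2⟩, rfl⟩
  · exact h4.not_ge hz

theorem small (h2 : S_t2h) (h : Crv η L) (hc : Chain η L g f a) {S ε : ℝ} (hS : S < L)
    (hε : 0 < ε) : ∃ δ > 0, S + δ < L ∧ ∀ s ∈ Icc 0 S, ∀ u ∈ Ioc s (s + δ),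
      (g s (η u)).im ≤ ε ∧ ∀ v ∈ Ioc s (s + δ), ‖g s (η u) - g s (η v)‖ ≤ ε := by
  obtain ⟨M, hM⟩ := hc.bd S hS
  have hR : 0 < |M| + 1 := by positivity
  generalize hx : 10 * (|M| + 1) / ε = x
  have hx0 : 0 < x := hx ▸ by positivity
  obtain ⟨δ, hδ, hu⟩ := Metric.uniformContinuousOn_iff_le.1
    (isCompact_Icc.uniformContinuousOn_of_continuous
      (h.cont.mono (Icc_subset_Ico_right (show (S + L) / 2 < L by linarith)))) _
    (Real.exp_pos (-x ^ 2))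
  have e1 := min_le_left δ ((L - S) / 2)
  have e2 := min_le_right δ ((L - S) / 2)
  refine ⟨min δ ((L - S) / 2), lt_min hδ (by linarith), by linarith, fun s hs u hu' => ?_⟩
  have hs' : s ∈ Ico 0 L := ⟨hs.1, hs.2.trans_lt hS⟩
  obtain ⟨k1, k2⟩ := h2 _ (η '' Ioc s (s + min δ ((L - S) / 2))) _ _ (η s) (η s)
    (Real.exp (-x ^ 2)) 1 (|M| + 1) (hc.hyd s hs').cf (Real.exp_pos _)
    (Real.exp_lt_one_iff.2 (by nlinarith)) hR (by
      rintro _ ⟨z, ⟨z1, z2⟩, rfl⟩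
      have := dist_triangle (g s z) z (η s)
      rw [dist_eq_norm (g s z) z] at this
      rw [mem_closedBall]
      linarith [hM s hs z z1, mem_ball.1 z2, le_abs_self M]) (by
      rintro _ ⟨t, ht, rfl⟩
      refine ⟨mem_dom h hs.1 ht.1 (by linarith [ht.2, hs.2]), hu t ⟨hs.1.trans ht.1.le, by
        linarith [ht.2, hs.2]⟩ s ⟨hs.1, by linarith [hs.2]⟩ ?_⟩
      rw [Real.dist_eq, abs_of_pos (sub_pos.2 ht.1)]
      linarith [ht.2])
    (isPreconnected_Ioc.image _ (h.cont.mono fun t ht =>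
      ⟨hs.1.trans ht.1.le, by linarith [ht.2, hs.2]⟩))
    fun ρ hρ => not_sphere h hs' ((Real.exp_pos _).trans hρ.1).le hρ.2.le
  have e3 : 10 * (|M| + 1) / x = ε := by rw [← hx]; field_simp
  rw [one_div, ← Real.exp_neg, Real.log_exp, neg_neg, Real.sqrt_sq hx0.le] at k1 k2
  refine ⟨(k1 _ ⟨u, hu', rfl⟩).trans ?_, fun v hv => e3 ▸ k2 _ ⟨u, hu', rfl⟩ _ ⟨v, hv, rfl⟩⟩
  rw [← e3]
  gcongr
  norm_num

theorem lim (h2 : S_t2h) (h : Crv η L) (hc : Chain η L g f a) {s : ℝ} (hs : s ∈ Ico 0 L) :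
    ∃ U : ℝ, Tendsto (fun u => g s (η u)) (𝓝[>] s) (𝓝 U) := by
  have h0 : s ∈ Icc 0 s := right_mem_Icc.2 hs.1
  obtain ⟨x, hx⟩ := CompleteSpace.complete (f := map (fun u => g s (η u)) (𝓝[>] s))
    (Metric.cauchy_iff.2 ⟨inferInstance, fun ε hε => by
      obtain ⟨δ, hδ, -, h3⟩ := small h2 h hc hs.2 (half_pos hε)
      refine ⟨_, image_mem_map (Ioc_mem_nhdsGT (lt_add_of_pos_right s hδ)), ?_⟩
      rintro _ ⟨u, hu, rfl⟩ _ ⟨v, hv, rfl⟩
      rw [dist_eq_norm]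
      exact ((h3 s h0 u hu).2 v hv).trans_lt (half_lt_self hε)⟩)
  have h1 := (continuous_im.tendsto x).comp (show Tendsto _ _ _ from hx)
  have h3 : x.im = 0 := by
    refine le_antisymm (le_of_forall_pos_le_add fun ε hε => ?_) (ge_of_tendsto h1 ?_)
    · obtain ⟨δ, hδ, -, h3⟩ := small h2 h hc hs.2 hε
      rw [zero_add]
      exact le_of_tendsto h1 (mem_of_superset (Ioc_mem_nhdsGT (lt_add_of_pos_right s hδ))
        fun u hu => (h3 s h0 u hu).1)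
    · exact mem_of_superset (Ioo_mem_nhdsGT hs.2) fun u hu =>
        (show 0 < (g s (η u)).im from (hc.hyd s hs).cf.mf (mem_dom h hs.1 hu.1 hu.2)).le
  exact ⟨x.re, by rwa [show (x.re : ℂ) = x from Complex.ext rfl h3.symm]⟩

end Ch1

open Ch1 in
theorem s_ch1 (h2 : S_t2h) : S_ch1 := by
  intro η L g f a h hc
  choose! U hU using fun s => lim h2 h hc (s := s)
  refine ⟨U, fun S hS ε hε => ?_⟩
  obtain ⟨δ, hδ, -, h3⟩ := small h2 h hc hS hε
  refine ⟨δ, hδ, fun s hs u h4 _ h5 => ?_⟩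
  exact le_of_tendsto ((hU s ⟨hs.1, hs.2.trans_lt hS⟩).const_sub (g s (η u))).norm
    (mem_of_superset (Ioc_mem_nhdsGT (lt_add_of_pos_right s hδ))
      fun v hv => (h3 s hs u ⟨h4, h5⟩).2 v hv)

end Vale.Agent.P153.CA
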