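import Vale.Agent.P153.CA.Basic

open Set Filter Topology Metric Complex MeasureTheory
open scoped ComplexConjugate ENNReal Real

noncomputable section
namespace Vale.Agent.P153.CA

open Vale.Agent.P164 (Pth HP Zf fi)

namespace Ch2

variable {η : ℝ → ℂ} {L s u v : ℝ} {g f : ℝ → ℂ → ℂ} {a U : ℝ → ℝ}

theorem mem (h : Crv η L) (hs : 0 ≤ s) (hv : s < v) (hL : v < L) : η v ∈ HP \ η '' Ioc 0 s := by
  refine ⟨h.pos v ⟨hs.trans_lt hv, hL⟩, ?_⟩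
  rintro ⟨t, ht, e⟩
  have := h.inj ⟨ht.1.le, ht.2.trans_lt (hv.trans hL)⟩ ⟨hs.trans hv.le, hL⟩ e
  exact absurd (this ▸ ht.2) (not_le.2 hv)

theorem diff (h : Crv η L) (hs : 0 ≤ s) (hL : u < L) :
    η '' Ioc 0 u \ η '' Ioc 0 s = η '' Ioc s u := by
  ext z
  constructor
  · rintro ⟨⟨t, ht, rfl⟩, h2⟩
    exact ⟨t, ⟨not_le.1 fun h3 => h2 ⟨t, ⟨ht.1, h3⟩, rfl⟩, ht.2⟩, rfl⟩
  · rintro ⟨t, ht, rfl⟩
    exact ⟨⟨t, ⟨hs.trans_lt ht.1, ht.2⟩, rfl⟩, (mem h hs ht.1 (ht.2.trans_lt hL)).2⟩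

theorem lim (h : Grow η L g U) (hs : 0 ≤ s) (hL : s < L) :
    Tendsto (fun v => g s (η v)) (𝓝[>] s) (𝓝 (U s : ℂ)) := by
  refine Metric.tendsto_nhds.2 fun ε hε => ?_
  obtain ⟨δ, hδ, h1⟩ := h s hL (ε / 2) (half_pos hε)
  filter_upwards [Ioo_mem_nhdsGT hL, Ioo_mem_nhdsGT (lt_add_of_pos_right s hδ)] with v a1 a2
  rw [dist_eq_norm]
  exact (h1 s ⟨hs, le_rfl⟩ v a1.1 a1.2 a2.2.le).trans_lt (half_lt_self hε)

theorem cont (h : Crv η L) (ch : Chain η L g f a) (hs : 0 ≤ s) (hv : s < v) (hL : v < L) :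
    ContinuousAt (fun v => g s (η v)) v :=
  ((ch.hyd s ⟨hs, hv.trans hL⟩).cf.cf (mem h hs hv hL)).comp
    (h.cont.continuousAt (Ico_mem_nhds (hs.trans_lt hv) hL))

theorem cpt {k : ℝ → ℂ} {p : ℂ} (hu : s < u) (h1 : ∀ v ∈ Ioc s u, ContinuousAt k v)
    (h2 : Tendsto k (𝓝[>] s) (𝓝 p)) : IsCompact (insert p (k '' Ioc s u)) := by
  have e : insert p (k '' Ioc s u) = Function.update k s p '' Icc s u := by
    rw [← Ioc_insert_left hu.le, image_insert_eq, Function.update_self]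
    congr 1
    exact image_congr fun v hv => (Function.update_of_ne hv.1.ne' _ _).symm
  rw [e]
  refine isCompact_Icc.image_of_continuousOn fun v hv => ?_
  rcases hv.1.eq_or_lt with rfl | h3
  · refine continuousWithinAt_update_same.2 (h2.mono_left (nhdsWithin_mono _ ?_))
    exact fun t ht => lt_of_le_of_ne ht.1.1 (Ne.symm ht.2)
  · exact (continuousWithinAt_update_of_ne h3.ne').2 (h1 v ⟨h3, hv.2⟩).continuousWithinAt

end Ch2

open Ch2 in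
theorem s_ch2 (hh : S_hull) (h1 : S_est) (h2 : S_est2) (hc : S_hcomp) (hu : S_huniq) : S_ch2 := by
  obtain ⟨C, hC, h2⟩ := h2
  refine ⟨C + 1, by positivity, fun η L g f a U cr ch gr s u r hs hsu hL hr hb => ?_⟩
  have hs' := ch.hyd s ⟨hs, hsu.trans hL⟩
  have H := hc _ _ _ _ _ _ _ _ hs' (ch.hyd u ⟨hs.trans hsu.le, hL⟩)
    (image_mono (Ioc_subset_Ioc_right hsu.le))
  rw [diff cr hs hL, image_image] at H
  have hk : ∀ v ∈ Ioc s u, ContinuousAt (fun v => g s (η v)) v := fun v hv =>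
    cont cr ch hs hv.1 (hv.2.trans_lt hL)
  have hl := lim gr hs (hsu.trans hL)
  have ne : ((fun v => g s (η v)) '' Ioc s u).Nonempty := ⟨_, u, ⟨hsu, le_rfl⟩, rfl⟩
  have sl : Slit ((fun v => g s (η v)) '' Ioc s u) (U s) :=
    ⟨H.sub, isPreconnected_Ioc.image _ fun v hv => (hk v hv).continuousWithinAt, ne,
      cpt hsu hk hl, mem_closure_of_tendsto hl
        (mem_of_superset (Ioc_mem_nhdsGT hsu) fun v hv => ⟨v, hv, rfl⟩),
      H.cf.symm.image ▸ convex_HP.isPreconnected.image _ H.cf.hg.continuousOn⟩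
  obtain ⟨g', f', a', H', hR⟩ := hh _ _ sl
  have hA : (fun v => g s (η v)) '' Ioc s u ⊆ closedBall (U s : ℂ) r := by
    rintro _ ⟨v, hv, rfl⟩
    exact mem_closedBall_iff_norm.2 (hb v hv)
  obtain ⟨ea, eg, -⟩ := hu _ _ _ _ _ _ _ H' H
  obtain ⟨b1, b2, b3⟩ := h2 _ _ _ _ _ _ H' hr hA (hR _ _ hr hA)
  obtain ⟨-, b4⟩ := h1 _ _ _ _ _ _ H' hr hA (hR _ _ hr hA)
  have key : ∀ z ∈ HP \ η '' Ioc 0 u,
      g s z ∈ HP \ (fun v => g s (η v)) '' Ioc s u ∧ g' (g s z) = g u z := fun z hz => by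
    have hz' : z ∈ HP \ η '' Ioc 0 s :=
      ⟨hz.1, fun h => hz.2 (image_mono (Ioc_subset_Ioc_right hsu.le) h)⟩
    have h3 : g s z ∈ HP \ (fun v => g s (η v)) '' Ioc s u := by
      refine ⟨hs'.cf.mf hz', ?_⟩
      rintro ⟨v, hv, e⟩
      exact hz.2 ⟨v, ⟨hs.trans_lt hv.1, hv.2⟩,
        hs'.cf.inj (mem cr hs hv.1 (hv.2.trans_lt hL)) hz' e⟩
    refine ⟨h3, (eg h3).trans ?_⟩
    simp only [hs'.cf.gf z hz']
  have b5 : ∀ z ∈ HP \ η '' Ioc 0 u, ‖g u z - g s z‖ ≤ C * r := fun z hz => by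
    rw [← (key z hz).2]
    exact b2 _ (key z hz).1
  have b6 : ‖(U u : ℂ) - g s (η u)‖ ≤ C * r := by
    refine le_of_tendsto ((lim gr (hs.trans hsu.le) hL).sub
      ((cont cr ch hs hsu hL).tendsto.mono_left nhdsWithin_le_nhds)).norm ?_
    filter_upwards [Ioo_mem_nhdsGT hL] with v hv
    exact b5 _ (mem cr (hs.trans hsu.le) hv.1 hv.2)
  refine ⟨by linarith [b3 ne], by nlinarith [sq_nonneg r], ?_, fun z hz =>
    ⟨by linarith [b5 z hz], fun h4 => ?_⟩⟩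
  · have h3 := norm_sub_le_norm_sub_add_norm_sub (U u : ℂ) (g s (η u)) (U s)
    rw [← ofReal_sub, norm_real, Real.norm_eq_abs] at h3
    linarith [hb u ⟨hsu, le_rfl⟩]
  · have h3 := b4 _ h4
    rwa [(key z hz).2, ea] at h3

end Vale.Agent.P153.CA
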