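import Vale.Agent.P153.CA.Basic

/-! The time change of the Loewner chain. -/

open Set Filter Topology Metric Complex MeasureTheory
open scoped ComplexConjugate ENNReal Real

noncomputable section
namespace Vale.Agent.P153.CA

open Vale.Agent.P164 (Pth HP Zf fi)

namespace Ch3

variable {η : ℝ → ℂ} {L C : ℝ} {g f : ℝ → ℂ → ℂ} {a U : ℝ → ℝ}

theorem cont_of_mod {φ : ℝ → ℝ} (h : ∀ S < L, ∀ ε > 0, ∃ δ > 0, ∀ s u, 0 ≤ s → s ≤ S → s < u →
    u < L → u ≤ s + δ → |φ u - φ s| ≤ ε) : ContinuousOn φ (Ico 0 L) := by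
  refine Metric.continuousOn_iff.2 fun b hb ε hε => ?_
  obtain ⟨δ, h1, h2⟩ := h b hb.2 (ε / 2) (half_pos hε)
  refine ⟨δ, h1, fun x hx h3 => ?_⟩
  rw [Real.dist_eq] at h3 ⊢
  obtain ⟨h4, h5⟩ := abs_lt.1 h3
  rcases lt_trichotomy x b with h6 | rfl | h6
  · have := h2 x b hx.1 h6.le h6 hb.2 (by linarith)
    rw [abs_sub_comm] at this
    linarith
  · simpa using hε
  · linarith [h2 b x hb.1 le_rfl h6 hx.2 (by linarith)]

theorem modu (hG : Grow η L g U) (hI : Incr η L g a U C) : ∀ S < L, ∀ ε > 0, ∃ δ > 0,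
    ∀ s u, 0 ≤ s → s ≤ S → s < u → u < L → u ≤ s + δ →
      |a u - a s| ≤ ε ∧ |U u - U s| ≤ ε := by
  intro S hS ε hε
  have c0 := abs_nonneg C
  have c1 := le_abs_self C
  have r0 : 0 < min 1 (ε / (|C| + 1)) := lt_min one_pos (by positivity)
  have r1 : min 1 (ε / (|C| + 1)) ≤ 1 := min_le_left _ _
  have r2 : min 1 (ε / (|C| + 1)) * (|C| + 1) ≤ ε :=
    (le_div_iff₀ (by positivity)).1 (min_le_right _ _)
  obtain ⟨δ, h1, h2⟩ := hG S hS _ r0
  refine ⟨δ, h1, fun s u a1 a2 a3 a4 a5 => ?_⟩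
  obtain ⟨b1, b2, b3, -⟩ := hI s u _ a1 a3 a4 r0 fun v hv =>
    h2 s ⟨a1, a2⟩ v hv.1 (hv.2.trans_lt a4) (hv.2.trans a5)
  generalize min 1 (ε / (|C| + 1)) = r at *
  have r3 : C * r ≤ |C| * r := mul_le_mul_of_nonneg_right c1 r0.le
  have r4 : C * r ^ 2 ≤ |C| * r ^ 2 := mul_le_mul_of_nonneg_right c1 (sq_nonneg r)
  have r5 : |C| * r ^ 2 ≤ |C| * r := mul_le_mul_of_nonneg_left (by nlinarith) c0
  exact ⟨by rw [abs_of_pos (sub_pos.2 b1)]; nlinarith, by nlinarith⟩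

theorem smono (hc : Crv η L) (hch : Chain η L g f a) (hI : Incr η L g a U C) :
    StrictMonoOn a (Ico 0 L) := by
  intro s hs u hu hsu
  obtain ⟨M, hM⟩ := hch.bd s hs.2
  obtain ⟨K, hK⟩ := isCompact_Icc.exists_bound_of_continuousOn
    (hc.cont.mono (Icc_subset_Ico_right hu.2))
  refine (hI s u (max 1 (M + K + ‖(U s : ℂ)‖)) hs.1 hsu hu.2
    (lt_max_of_lt_left one_pos) fun v hv => le_max_of_le_right ?_).1
  have v0 : 0 < v := hs.1.trans_lt hv.1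
  have v1 : v < L := hv.2.trans_lt hu.2
  have h1 := hM s ⟨hs.1, le_rfl⟩ (η v) ⟨hc.pos v ⟨v0, v1⟩, by
    rintro ⟨w, hw, e⟩
    have := hc.inj ⟨hw.1.le, hw.2.trans_lt hs.2⟩ ⟨v0.le, v1⟩ e
    linarith [hw.2, hv.1]⟩
  have h2 := hK v ⟨v0.le, hv.2⟩
  have h3 := norm_add_le (g s (η v) - η v) (η v)
  rw [sub_add_cancel] at h3
  linarith [norm_sub_le (g s (η v)) (U s)]

theorem hyd_id : Hyd ∅ id id 0 where
  sub := empty_subset _
  bA := Bornology.isBounded_empty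
  cf := ⟨by simpa using isOpen_HP, isOpen_HP, differentiableOn_id, differentiableOn_id,
    fun _ h => h.1, fun _ h => ⟨h, id⟩, fun _ _ => rfl, fun _ _ => rfl⟩
  bd := ⟨0, fun z _ => by simp⟩
  cap := by simpa using tendsto_const_nhds

theorem time {S : ℝ} (hS : 0 ≤ S) (h0 : a 0 = 0) (hc : ContinuousOn a (Icc 0 S))
    (hm : StrictMonoOn a (Icc 0 S)) :
    ∃ σ : ℝ → ℝ, Continuous σ ∧ Monotone σ ∧ (∀ t, σ t ∈ Icc 0 S) ∧
      (∀ s ∈ Icc 0 S, σ (a s / 2) = s) ∧ ∀ t ∈ Icc 0 (a S / 2), a (σ t) = 2 * t := by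
  obtain ⟨c, hd⟩ : ∃ c : ℝ → ℝ, c = fun s => max 0 (min s S) := ⟨_, rfl⟩
  have c1 : ∀ s, c s ∈ Icc 0 S := fun s => by
    rw [hd]; exact ⟨le_max_left _ _, max_le hS (min_le_right _ _)⟩
  have c2 : Continuous c := by rw [hd]; fun_prop
  have c3 : Monotone c := fun s t h => by
    rw [hd]; exact max_le_max le_rfl (min_le_min h le_rfl)
  have c4 : ∀ s ∈ Icc 0 S, c s = s := fun s hs => by
    simp only [hd, min_eq_left hs.2, max_eq_right hs.1]
  have c5 : ∀ s t, s ≤ t → s - c s ≤ t - c t := fun s t h => by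
    simp only [hd, max_def, min_def]
    split_ifs <;> linarith
  obtain ⟨b, hb⟩ : ∃ b : ℝ → ℝ, b = fun s => a (c s) / 2 + (s - c s) := ⟨_, rfl⟩
  have b1 : StrictMono b := fun s t h => by
    simp only [hb]
    rcases (c3 h.le).eq_or_lt with e | e
    · rw [e]; linarith
    · linarith [hm (c1 s) (c1 t) e, c5 s t h.le]
  have b2 : Continuous b := by
    rw [hb]
    exact ((hc.comp_continuous c2 c1).div_const 2).add (continuous_id.sub c2)
  have b3 : Function.Surjective b := by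
    refine b2.surjective (tendsto_atTop_mono (fun s => ?_)
      (tendsto_atTop_add_const_right _ (-S) tendsto_id)) (tendsto_atBot_mono (fun s => ?_)
      (tendsto_atBot_add_const_right _ (a S / 2) tendsto_id))
    · have := hm.monotoneOn ⟨le_rfl, hS⟩ (c1 s) (c1 s).1
      simp only [hb, id]
      linarith [(c1 s).2]
    · have := hm.monotoneOn (c1 s) ⟨hS, le_rfl⟩ (c1 s).2
      simp only [hb, id]
      linarith [(c1 s).1]
  have b4 : ∀ s ∈ Icc 0 S, b s = a s / 2 := fun s hs => by simp only [hb, c4 s hs, sub_self, add_zero]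
  have b5 := StrictMono.orderIsoOfSurjective_self_symm_apply b b1 b3
  refine ⟨fun t => c ((b1.orderIsoOfSurjective b b3).symm t),
    c2.comp (b1.orderIsoOfSurjective b b3).symm.continuous,
    c3.comp (b1.orderIsoOfSurjective b b3).symm.monotone, fun t => c1 _, fun s hs => ?_,
    fun t ht => ?_⟩
  · dsimp only
    rw [← b4 s hs, StrictMono.orderIsoOfSurjective_symm_apply_self, c4 s hs]
  · have e := b5 t
    dsimp only
    generalize (b1.orderIsoOfSurjective b b3).symm t = s at e ⊢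
    have hs : s ∈ Icc 0 S := ⟨b1.le_iff_le.1 (by rw [b4 0 ⟨le_rfl, hS⟩, h0, e, zero_div]; exact ht.1),
      b1.le_iff_le.1 (by rw [b4 S ⟨hS, le_rfl⟩, e]; exact ht.2)⟩
    rw [c4 s hs, ← e, b4 s hs]
    ring

end Ch3

open Ch3

theorem s_ch3 (hu : S_huniq) : S_ch3 := by
  intro η L g f a U C hc hch hG hI hL
  have h0 := hch.hyd 0 ⟨le_rfl, hL⟩
  rw [Ioc_self, image_empty] at h0
  obtain ⟨a0, a1, -⟩ := hu _ _ _ _ _ _ _ h0 hyd_id
  have g0 : ∀ z ∈ HP, g 0 z = z := fun z hz => a1 ⟨hz, id⟩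
  have ca : ContinuousOn a (Ico 0 L) := cont_of_mod fun S hS ε hε =>
    let ⟨δ, h1, h2⟩ := modu hG hI S hS ε hε
    ⟨δ, h1, fun s u b1 b2 b3 b4 b5 => (h2 s u b1 b2 b3 b4 b5).1⟩
  have cU : ContinuousOn U (Ico 0 L) := cont_of_mod fun S hS ε hε =>
    let ⟨δ, h1, h2⟩ := modu hG hI S hS ε hε
    ⟨δ, h1, fun s u b1 b2 b3 b4 b5 => (h2 s u b1 b2 b3 b4 b5).2⟩
  have sm := smono hc hch hI
  refine ⟨a0, ?_, g0, ca, sm, cU, fun S hS => ?_⟩
  · refine (eq_of_norm_sub_le_zero (le_of_forall_pos_le_add fun ε hε => ?_)).symm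
    obtain ⟨δ, h1, h2⟩ := hG 0 hL ε hε
    have t1 : Tendsto η (𝓝[>] 0) (𝓝 (η 0)) :=
      (hc.cont 0 ⟨le_rfl, hL⟩).tendsto.mono_left (nhdsWithin_le_of_mem
        (mem_of_superset (Ioo_mem_nhdsGT hL) Ioo_subset_Ico_self))
    rw [zero_add]
    refine le_of_tendsto (t1.sub_const _).norm ?_
    filter_upwards [Ioo_mem_nhdsGT (lt_min hL h1)] with u h3
    have h4 := lt_min_iff.1 h3.2
    have := h2 0 ⟨le_rfl, le_rfl⟩ u h3.1 h4.1 (by linarith [h4.2])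
    rwa [g0 _ (hc.pos u ⟨h3.1, h4.1⟩)] at this
  · have sub : Icc 0 S ⊆ Ico 0 L := Icc_subset_Ico_right hS.2
    obtain ⟨σ, s1, s2, s3, s4, s5⟩ := time hS.1 a0 (ca.mono sub) (sm.mono sub)
    exact ⟨σ, ⟨fun t => U (σ t), cU.comp_continuous s1 fun t => sub (s3 t)⟩, s1, s2, s3, s4, s5,
      fun _ => rfl⟩

end Vale.Agent.P153.CA
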