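import Vale.Agent.P153.CA.Basic

/-! Equicontinuity of the Riemann maps. -/

open Set Filter Topology Metric Complex MeasureTheory
open scoped ComplexConjugate ENNReal Real

noncomputable section
namespace Vale.Agent.P153.CA

namespace Equi

theorem polar (z : ℂ) : ∃ u : ℂ, ‖u‖ = 1 ∧ z = ‖z‖ * u :=
  ⟨exp (arg z * I), norm_exp_ofReal_mul_I _, (norm_mul_exp_arg_mul_I z).symm⟩

theorem arc {z : ℂ} {r : ℝ} (hz : ‖z‖ < 1) (hr : 0 < r) (hr1 : r < 1) :
    IsPreconnected (ball (0 : ℂ) 1 ∩ sphere z r) ∧ (ball (0 : ℂ) 1 ∩ sphere z r).Nonempty := by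
  obtain ⟨u, hu, e⟩ := polar z
  let γ : ℝ → ℂ := fun θ => z - r * u * exp (θ * I)
  have h1 : ∀ θ, ‖γ θ‖ ^ 2 = ‖z‖ ^ 2 + r ^ 2 - 2 * r * ‖z‖ * Real.cos θ := fun θ => by
    have : γ θ = u * (‖z‖ - r * exp (θ * I)) := by
      simp only [γ]; rw [mul_sub, mul_comm u, ← e]; ring
    rw [this, norm_mul, hu, one_mul, Complex.sq_norm, normSq_apply]
    simp only [sub_re, ofReal_re, mul_re, ofReal_im, zero_mul, sub_zero, sub_im, mul_im, add_zero,
      zero_sub, exp_ofReal_mul_I_re, exp_ofReal_mul_I_im]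
    nlinarith [Real.sin_sq_add_cos_sq θ]
  have h2 : ∀ θ, γ θ ∈ sphere z r := fun θ => by
    simp [γ, hu, abs_of_pos hr, norm_exp_ofReal_mul_I]
  have h3 : ∀ θ, γ θ ∈ ball (0 : ℂ) 1 ↔ ‖γ θ‖ ^ 2 < 1 := fun θ => by
    rw [mem_ball_zero_iff, sq_lt_one_iff₀ (norm_nonneg _)]
  have h4 : ball (0 : ℂ) 1 ∩ sphere z r = γ '' {θ | |θ| ≤ π ∧ γ θ ∈ ball (0 : ℂ) 1} := by
    refine Subset.antisymm (fun ζ h => ?_) ?_
    · have u0 : u ≠ 0 := norm_ne_zero_iff.1 (by rw [hu]; exact one_ne_zero)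
      have e1 : γ (arg ((z - ζ) / u)) = ζ := by
        have := norm_mul_exp_arg_mul_I ((z - ζ) / u)
        rw [norm_div, hu, div_one, norm_sub_rev, mem_sphere_iff_norm.1 h.2, eq_div_iff u0] at this
        simp only [γ]
        linear_combination -this
      exact ⟨_, ⟨abs_arg_le_pi _, e1.symm ▸ h.1⟩, e1⟩
    · rintro _ ⟨θ, h, rfl⟩
      exact ⟨h.2, h2 θ⟩
  refine ⟨h4 ▸ IsPreconnected.image (OrdConnected.isPreconnected ⟨fun x hx y hy w hw => ?_⟩) _
    (Continuous.continuousOn (by fun_prop)), γ 0, (h3 0).2 ?_, h2 0⟩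
  · have key : ∀ x, |x| ≤ π ∧ γ x ∈ ball (0 : ℂ) 1 → |w| ≤ |x| →
        |w| ≤ π ∧ γ w ∈ ball (0 : ℂ) 1 := fun x hx h => by
      refine ⟨h.trans hx.1, (h3 w).2 (lt_of_le_of_lt ?_ ((h3 x).1 hx.2))⟩
      have := Real.cos_le_cos_of_nonneg_of_le_pi (abs_nonneg w) hx.1 h
      rw [Real.cos_abs, Real.cos_abs] at this
      rw [h1, h1]
      have h5 : 0 ≤ 2 * r * ‖z‖ := by positivity
      nlinarith
    rcases le_total 0 w with h | h
    · exact key y hy (by rw [abs_of_nonneg h]; exact hw.2.trans (le_abs_self y))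
    · exact key x hx (by rw [abs_of_nonpos h]; exact (neg_le_neg hw.1).trans (neg_le_abs x))
  · rw [h1, Real.cos_zero]
    nlinarith [norm_nonneg z]

end Equi

theorem s_equi (hu : S_ulc) (hp : S_sep) (hl : S_la) (hh : S_short) (ht : S_jct) : S_equi := by
  intro j0 o hj0 ho ε hε
  obtain ⟨d, hd, hb⟩ := Metric.isOpen_iff.1 hj0.toLoop.isCompact.isClosed.isOpen_compl o ho
  set e := min (ε / 2) (d / 4) with he
  have e0 : 0 < e := by positivity
  have e1 : e ≤ ε / 2 := min_le_left _ _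
  have e2 : e ≤ d / 4 := min_le_right _ _
  obtain ⟨ρ1, hρ1, hu'⟩ := hu j0 hj0 e e0
  obtain ⟨R, hR, hR'⟩ := hj0.toLoop.isCompact.isBounded.subset_closedBall_lt 0 0
  set l := min ρ1 e with hl0
  have l0 : 0 < l := by positivity
  have l1 : l ≤ ρ1 := min_le_left _ _
  have l2 : l ≤ e := min_le_right _ _
  set r1 := 1 / 4 * Real.exp (-(5 * (R + 1) / l) ^ 2) with hr1
  have r0 : 0 < r1 := by positivity
  have r2 : r1 < 1 / 4 := mul_lt_of_lt_one_right (by norm_num)
    (Real.exp_lt_one_iff.2 (neg_neg_of_pos (by positivity)))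
  have r3 : 5 * (R + 1) / √(Real.log (1 / 4 / r1)) = l := by
    rw [hr1, div_mul_cancel_left₀ (by norm_num), ← Real.exp_neg, neg_neg, Real.log_exp,
      Real.sqrt_sq (by positivity)]
    field_simp
  refine ⟨min (min l r1) 1, by positivity, fun j f φ hj hn hc h0 z hz z' hz' hzz => ?_⟩
  have p1 : min (min l r1) 1 ≤ l := (min_le_left _ _).trans (min_le_left _ _)
  have p2 : min (min l r1) 1 ≤ r1 := (min_le_left _ _).trans (min_le_right _ _)
  have p3 : min (min l r1) 1 ≤ 1 := min_le_right _ _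
  obtain ⟨v1, -, v2, -, v3⟩ := ht j hj
  have v4 := v3 ⟨_, hc.mf (mem_ball_self one_pos)⟩
  have v5 : inside (range j) ⊆ closedBall 0 (R + 1) := inside_subset (by
    rintro _ ⟨t, rfl⟩
    have a1 := mem_closedBall_zero_iff.1 (hR' (mem_range_self t))
    have a2 := norm_le_norm_sub_add (j t) (j0 t)
    exact mem_closedBall_zero_iff.2 (by linarith [hn t]))
  obtain ⟨r, hr, ha⟩ := hl (ball 0 1) f z 0 r1 (1 / 4) (R + 1) isOpen_ball hc.hf hc.inj r0 r2
    (by linarith) (by rintro _ ⟨w, hw, rfl⟩; exact v5 (hc.mf hw.1))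
  rw [r3] at ha
  have hr0 : 0 < r := r0.trans hr.1
  obtain ⟨s1, s2⟩ := hh _ _ f φ z r l hc hr0 l0.le ha
  obtain ⟨c1, ζ0, c2⟩ := Equi.arc (mem_ball_zero_iff.1 hz) hr0 (by linarith [hr.2])
  have c3 := fun w hw => s1 _ subset_rfl c1 w hw ζ0 c2
  have key : ∀ ζ ∈ ball (0 : ℂ) 1, ‖ζ - z‖ < r → ‖f ζ - f ζ0‖ ≤ e := by
    intro ζ h1 h2
    by_cases hs : ‖z‖ + r < 1
    · have h3 : closedBall z r ⊆ ball 0 1 := closedBall_subset_ball' (by simpa [add_comm] using hs)
      have h4 := closure_ball z hr0.ne'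
      refine (norm_le_of_forall_mem_frontier_norm_le (f := fun w => f w - f ζ0) (U := ball z r)
        isBounded_ball (DifferentiableOn.diffContOnCl
          (h4 ▸ (hc.hf.mono h3).sub_const _)) (fun w hw => ?_)
        (subset_closure (mem_ball_iff_norm.2 h2))).trans l2
      rw [frontier_ball z hr0.ne'] at hw
      exact c3 w ⟨h3 (sphere_subset_closedBall hw), hw⟩
    by_contra h3
    obtain ⟨w, a1, a2⟩ := s2 (fun h => hs (by
      obtain ⟨u, b1, b2⟩ := Equi.polar z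
      have b3 := mem_ball_zero_iff.1 (h (a := z + r * u) (by simp [b1, abs_of_pos hr0]))
      rwa [show z + r * u = ((‖z‖ + r : ℝ) : ℂ) * u by push_cast; rw [add_mul, ← b2], norm_mul,
        b1, mul_one, norm_real, Real.norm_of_nonneg (by positivity)] at b3)) ζ0 c2
    obtain ⟨t, rfl⟩ := v4 ▸ a1
    have a3 : e < ‖f 0 - f ζ0‖ := by
      have b1 : d ≤ dist (j0 t) o := not_lt.1 fun h => hb h (mem_range_self t)
      have b2 := dist_triangle4 (j0 t) (j t) (f ζ0) o
      rw [dist_comm (j0 t) (j t), dist_comm (j t) (f ζ0), dist_comm (f ζ0) o, dist_eq_norm (j t),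
        dist_eq_norm (f ζ0), dist_eq_norm o] at b2
      rw [h0]
      linarith [hn t]
    obtain ⟨S, T, -, b1, -, -, b2, b3, b4⟩ := hu' j hj.toLoop
      (fun t => (hn t).trans (p1.trans l1)) (f ζ0)
    have b5 : f '' (ball 0 1 ∩ sphere z r) ⊆ closedBall (f ζ0) l := by
      rintro _ ⟨w, hw, rfl⟩; exact mem_closedBall_iff_norm.2 (c3 w hw)
    have b6 := hp _ _ _ S f φ (f ζ0) e hc v2 inter_subset_left
      (b5.trans (closedBall_subset_closedBall l2)) b1 (b3.trans ball_subset_closedBall)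
      (disjoint_left.2 fun x hx h => h.1 (b2 ▸ Or.inl hx)) (fun x hx => by
        have b7 : x ∈ frontier (inside (range j)) := by
          rw [v1.frontier_eq]
          exact ⟨closure_mono (by rintro _ ⟨w, hw, rfl⟩; exact hc.mf hw.1) hx.1, hx.2⟩
        rw [v4, ← b2] at b7
        exact b7.resolve_right fun h => disjoint_left.1 b4 h
          (closedBall_subset_closedBall l1 (closure_minimal b5 isClosed_closedBall hx.1)))
      ζ h1 0 (mem_ball_self one_pos) (not_le.1 h3) a3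
    obtain ⟨γ, hγ⟩ := b6
    obtain ⟨s, b7⟩ := intermediate_value_univ (f := fun s => ‖γ s - z‖) 0 1 (by fun_prop)
      (show r ∈ Icc _ _ from ⟨by simpa using h2.le, by
        simp only [Path.target, zero_sub, norm_neg]; linarith [hr.2]⟩)
    exact (hγ s).2 ⟨(hγ s).1, mem_sphere_iff_norm.2 b7⟩
  have k1 := key z hz (by simpa using hr0)
  have k2 := key z' hz' (by rw [norm_sub_rev]; linarith [hr.1])
  have k3 := norm_sub_le_norm_sub_add_norm_sub (f z) (f ζ0) (f z')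
  rw [norm_sub_rev (f ζ0)] at k3
  linarith

end Vale.Agent.P153.CA
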