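import Vale.Agent.P153.CA.Basic

/-! The expansion at infinity of the normalised map of a hull. -/

open Set Filter Topology Metric Complex MeasureTheory
open scoped ComplexConjugate ENNReal Real

noncomputable section
namespace Vale.Agent.P153.CA

open Vale.Agent.P164 (Pth HP Zf fi)

namespace Est

theorem core {q : ℂ → ℂ} {b : ℝ} (hq : DifferentiableOn ℂ q (ball 0 2)) (h0 : q 0 = b)
    (hs : ∀ w : ℂ, ‖w‖ = 1 → 0 ≤ w.im * (w * q w).im) :
    0 ≤ b ∧ ∀ w : ℂ, ‖w‖ ≤ 1 / 2 → ‖q w - b‖ ≤ 6 * b * ‖w‖ := by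
  set P : ℂ → ℂ := fun w => (1 - w ^ 2) * q w with hP
  have hd : DifferentiableOn ℂ P (ball 0 2) := DifferentiableOn.mul (by fun_prop) hq
  have h1 : ∀ w ∈ closedBall (0 : ℂ) 1, 0 ≤ (P w).re := by
    intro w hw
    have hE : DiffContOnCl ℂ (fun w => exp (-P w)) (ball 0 1) := by
      refine DifferentiableOn.diffContOnCl ?_
      rw [closure_ball _ one_ne_zero]
      exact (hd.mono (closedBall_subset_ball one_lt_two)).neg.cexp
    have := Complex.norm_le_of_forall_mem_frontier_norm_le isBounded_ball hE (C := 1) (z := w)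
      (fun z hz => ?_) (by rwa [closure_ball _ one_ne_zero])
    · rw [norm_exp, Real.exp_le_one_iff, neg_re] at this
      linarith
    · rw [frontier_ball _ one_ne_zero, mem_sphere_zero_iff_norm] at hz
      rw [norm_exp, Real.exp_le_one_iff, neg_re]
      have e : P z = (conj z - z) * (z * q z) := by
        have : conj z * z = 1 := by rw [conj_mul', hz]; simp
        simp only [hP]
        linear_combination (-q z) * this
      have := hs z hz
      rw [e, mul_re]
      simp only [sub_re, conj_re, sub_self, zero_mul, sub_im, conj_im]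
      linarith
  have hP0 : P 0 = b := by simp [hP, h0]
  have hb : 0 ≤ b := by simpa [hP0] using h1 0 (mem_closedBall_self zero_le_one)
  refine ⟨hb, fun w hw => ?_⟩
  have h2 : ‖b - P w‖ ≤ 4 * b * ‖w‖ := by
    refine le_of_forall_pos_le_add fun ε hε => ?_
    have := Complex.borelCaratheodory_zero (f := fun w => b - P w) (M := b + ε / 2) (R := 1)
      (z := w) (by positivity) ((hd.mono (ball_subset_ball one_le_two)).const_sub _)
      (fun z hz => by
        have := h1 z (ball_subset_closedBall hz)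
        simp only [mem_ofPred_eq, sub_re, ofReal_re]
        linarith) one_pos (mem_ball_zero_iff.2 (by linarith)) (by simp [hP0])
    refine this.trans ?_
    rw [div_le_iff₀ (by linarith)]
    have h3 := norm_nonneg w
    nlinarith [mul_nonneg (mul_nonneg hb h3) (sub_nonneg.2 hw), mul_nonneg hε.le (sub_nonneg.2 hw)]
  have h3 : 3 / 4 ≤ ‖1 - w ^ 2‖ := by
    have := norm_sub_norm_le (1 : ℂ) (w ^ 2)
    rw [norm_one, norm_pow] at this
    nlinarith [norm_nonneg w]
  have h4 : (1 - w ^ 2) * (q w - b) = w ^ 2 * b - (b - P w) := by simp only [hP]; ring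
  have h5 : ‖1 - w ^ 2‖ * ‖q w - b‖ ≤ ‖w‖ ^ 2 * b + 4 * b * ‖w‖ := by
    rw [← norm_mul, h4]
    refine (norm_sub_le _ _).trans ?_
    rw [norm_mul, norm_pow, norm_real, Real.norm_of_nonneg hb]
    linarith
  have h6 := norm_nonneg w
  nlinarith [mul_nonneg (mul_nonneg hb h6) (sub_nonneg.2 hw),
    mul_nonneg (sub_nonneg.2 h3) (norm_nonneg (q w - b))]

theorem tend (x : ℂ) {ρ : ℝ} (hρ : 0 < ρ) :
    Tendsto (fun w : ℂ => x + ρ / w) (𝓝[≠] 0) (cocompact ℂ) := by
  rw [← Metric.cobounded_eq_cocompact, ← tendsto_norm_atTop_iff_cobounded]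
  have h1 : Tendsto (fun w : ℂ => ρ * ‖w⁻¹‖ + -‖x‖) (𝓝[≠] 0) atTop :=
    tendsto_atTop_add_const_right _ _ (Tendsto.const_mul_atTop hρ
      (tendsto_norm_atTop_iff_cobounded.2 tendsto_inv₀_nhdsNE_zero))
  refine tendsto_atTop_mono (fun w => ?_) h1
  have := norm_sub_le (x + ρ / w) x
  rw [add_sub_cancel_left, div_eq_mul_inv, norm_mul, norm_real, Real.norm_of_nonneg hρ.le] at this
  rw [div_eq_mul_inv]
  linarith

end Est

theorem s_est (hi : S_imle) : S_est := by
  intro A g f a x r hH hr hA hR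
  have hρ : 0 < 2 * r := by positivity
  have hρ' : ((2 * r : ℝ) : ℂ) ≠ 0 := ofReal_ne_zero.2 hρ.ne'
  set T : ℂ → ℂ := fun w => x + (2 * r : ℝ) / w with hT
  classical
  set φ : ℂ → ℂ := fun w => if w = 0 then 0 else g (T w) - T w with hφ
  have hφ0 : φ 0 = 0 := by simp [hφ]
  have hn : ∀ w : ℂ, ‖T w - x‖ = 2 * r / ‖w‖ := fun w => by
    rw [hT, add_sub_cancel_left, norm_div, norm_real, Real.norm_of_nonneg hρ.le]
  have hd : DifferentiableOn ℂ φ (ball 0 2) := by
    refine (differentiableOn_compl_singleton_and_continuousAt_iff (c := 0)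
      (ball_mem_nhds _ two_pos)).1 ⟨?_, ?_⟩
    · have h1 : DifferentiableOn ℂ T (ball 0 2 \ {0}) :=
        (DifferentiableOn.div (by fun_prop) differentiableOn_id fun w hw => hw.2).const_add _
      refine ((hR.hol.comp h1 fun w hw => ?_).sub h1).congr fun w hw => if_neg hw.2
      have h2 := mem_ball_zero_iff.1 hw.1
      rw [mem_ofPred_eq, hn, lt_div_iff₀ (norm_pos_iff.2 hw.2)]
      nlinarith
    · rw [← continuousWithinAt_compl_self, ContinuousWithinAt, hφ0]
      refine (hR.inf.comp (Est.tend x hρ)).congr' ?_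
      filter_upwards [self_mem_nhdsWithin] with w hw
      exact (if_neg hw).symm
  have hq := (differentiableOn_dslope (c := 0) (ball_mem_nhds _ two_pos)).2 hd
  have hq1 : ∀ w : ℂ, w ≠ 0 → w * dslope φ 0 w = g (T w) - T w := fun w hw => by
    have := sub_smul_dslope φ 0 w
    rw [sub_zero, hφ0, sub_zero, smul_eq_mul] at this
    rw [this]
    exact if_neg hw
  have h0 : dslope φ 0 0 = (a / (2 * r) : ℝ) := by
    have t1 : Tendsto (fun t : ℝ => -(t : ℂ) * I) (𝓝[>] 0) (𝓝[≠] 0) := by
      refine tendsto_nhdsWithin_iff.2 ⟨?_, ?_⟩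
      · have : Continuous fun t : ℝ => -(t : ℂ) * I := by fun_prop
        simpa using (this.tendsto 0).mono_left nhdsWithin_le_nhds
      · filter_upwards [self_mem_nhdsWithin] with t ht
        exact mul_ne_zero (neg_ne_zero.2 (ofReal_ne_zero.2 (ne_of_gt ht))) I_ne_zero
    have t2 := (Est.tend x hρ).comp t1
    have t3 : Tendsto (fun t : ℝ => T (-(t : ℂ) * I)) (𝓝[>] 0) (cocompact ℂ ⊓ 𝓟 HP) := by
      refine tendsto_inf.2 ⟨t2, tendsto_principal.2 ?_⟩
      filter_upwards [self_mem_nhdsWithin] with t ht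
      have ht' : (t : ℂ) ≠ 0 := ofReal_ne_zero.2 (ne_of_gt ht)
      have : T (-(t : ℂ) * I) = x + ((2 * r / t : ℝ) : ℂ) * I := by
        simp only [hT]
        push_cast
        field_simp
        linear_combination (-2 * r : ℂ) * I_mul_I
      change 0 < (T _).im
      rw [this, add_im, ofReal_im, zero_add, mul_I_im, ofReal_re]
      exact div_pos hρ ht
    have t4 := ((hH.cap.comp t3).sub ((hR.inf.comp t2).const_mul (x : ℂ))).div_const ((2 * r : ℝ) : ℂ)
    have t5 := (hq.continuousOn.continuousAt (ball_mem_nhds _ two_pos)).tendsto.comp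
      (t1.mono_right nhdsWithin_le_nhds)
    rw [mul_zero, sub_zero, ← ofReal_div] at t4
    refine tendsto_nhds_unique t5 (t4.congr' ?_)
    filter_upwards [t1.eventually self_mem_nhdsWithin] with t ht
    have ht' : -(t : ℂ) * I ≠ 0 := ht
    have := hq1 _ ht'
    simp only [Function.comp_apply]
    change (T _ * (g (T _) - T _) - x * (g (T _) - T _)) / _ = _
    rw [← this]
    simp only [hT]
    generalize -(t : ℂ) * I = w at ht'
    field_simp
    ring
  have hout : ∀ z : ℂ, 0 < z.im → r < ‖z - x‖ → (g z - z).im ≤ 0 := fun z hz hz' => by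
    have := hi A g f a hH z ⟨hz, fun h => by
      have := hA h
      rw [mem_closedBall, dist_eq_norm] at this
      linarith⟩
    rw [sub_im]
    linarith
  obtain ⟨hb, hc⟩ := Est.core hq h0 fun w hw => by
    have hw0 : w ≠ 0 := by rw [← norm_pos_iff, hw]; exact one_pos
    have h1 : r < ‖T w - x‖ := by rw [hn, hw]; linarith
    have h2 : (T w).im = -(2 * r) * w.im := by
      simp only [hT]
      rw [div_eq_mul_inv, inv_eq_conj hw, add_im, ofReal_im, im_ofReal_mul, conj_im]
      ring
    rw [hq1 w hw0]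
    rcases lt_trichotomy w.im 0 with h | h | h
    · exact mul_nonneg_of_nonpos_of_nonpos h.le (hout _ (by rw [h2]; nlinarith) h1)
    · rw [h, zero_mul]
    · have := hout (conj (T w)) (by rw [conj_im, h2]; nlinarith) (by
        rw [← conj_ofReal x, ← map_sub, norm_conj]; exact h1)
      rw [hR.sym _ h1, ← map_sub, conj_im] at this
      exact mul_nonneg h.le (by linarith)
  refine ⟨by simpa [div_nonneg_iff, hρ.le, not_le.2 hρ] using hb, fun z hz => ?_⟩
  have hz0 : 0 < ‖z - x‖ := by linarith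
  have hz1 : z - x ≠ 0 := norm_pos_iff.1 hz0
  set w : ℂ := (2 * r : ℝ) / (z - x) with hw
  have hwn : ‖w‖ = 2 * r / ‖z - x‖ := by
    rw [hw, norm_div, norm_real, Real.norm_of_nonneg hρ.le]
  have hTw : T w = z := by
    simp only [hT, hw]
    field_simp
    ring
  have h1 := hq1 w (div_ne_zero hρ' hz1)
  have h2 := hc w (by rw [hwn, div_le_iff₀ hz0]; linarith)
  have h3 : g z - z - a / (z - x) = w * (dslope φ 0 w - (a / (2 * r) : ℝ)) := by
    rw [mul_sub, h1, hTw, hw, ofReal_div]
    field_simp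
  rw [h3, norm_mul]
  refine (mul_le_mul_of_nonneg_left h2 (norm_nonneg _)).trans (le_of_eq ?_)
  rw [hwn]
  field_simp
  ring

end Vale.Agent.P153.CA
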