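import Vale.Agent.P153.CA.Basic

/-! Bounds for the capacity and the displacement of a normalised map. -/

open Set Filter Topology Metric Complex MeasureTheory
open scoped ComplexConjugate ENNReal Real

noncomputable section
namespace Vale.Agent.P153.CA

open Vale.Agent.P164 (Pth HP Zf fi)

namespace Est2

variable {A : Set ℂ} {g f : ℂ → ℂ} {a x r : ℝ}

theorem out (hr : 0 < r) (hA : A ⊆ closedBall (x : ℂ) r) {z : ℂ} (hz : z ∈ HP)
    (h : 4 * r ≤ ‖z - x‖) : z ∈ HP \ A := ⟨hz, fun hzA => by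
  have := hA hzA
  rw [mem_closedBall, dist_eq_norm] at this
  linarith⟩

theorem cap_le (H : Hyd A g f a) (hr : 0 < r) (hA : A ⊆ closedBall (x : ℂ) r)
    (he : ∀ z : ℂ, 4 * r ≤ ‖z - x‖ → ‖g z - z - a / (z - x)‖ ≤ 12 * a * r / ‖z - x‖ ^ 2) :
    a ≤ 1152 * r ^ 2 := by
  have e : (x : ℂ) + ((24 * r : ℝ) : ℂ) * I - x = ((24 * r : ℝ) : ℂ) * I := by ring
  have hn : ‖(x : ℂ) + ((24 * r : ℝ) : ℂ) * I - x‖ = 24 * r := by
    rw [e, norm_mul, norm_I, mul_one, norm_real, Real.norm_of_nonneg (by positivity)]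
  have him : ((x : ℂ) + ((24 * r : ℝ) : ℂ) * I).im = 24 * r := by simp
  have h1 := he _ (by rw [hn]; linarith)
  have h2 : 0 < (g ((x : ℂ) + ((24 * r : ℝ) : ℂ) * I)).im :=
    H.cf.mf (out hr hA (show 0 < Complex.im _ by rw [him]; positivity) (by rw [hn]; linarith))
  have h3 := (le_abs_self _).trans ((abs_im_le_norm _).trans h1)
  have h4 : (a : ℂ) / (((24 * r : ℝ) : ℂ) * I) = ((-(a / (24 * r)) : ℝ) : ℂ) * I := by
    have : (r : ℂ) ≠ 0 := ofReal_ne_zero.2 hr.ne'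
    push_cast
    field_simp
    simp
  rw [hn, e, h4, sub_im, sub_im, him] at h3
  simp only [mul_im, ofReal_re, I_im, ofReal_im, I_re, mul_one, mul_zero, add_zero] at h3
  have h6 : 12 * a * r / (24 * r) ^ 2 = a / (24 * r) / 2 := by field_simp; ring
  rw [h6] at h3
  have h7 : a / (24 * r) < 48 * r := by linarith
  rw [div_lt_iff₀ (by positivity)] at h7
  nlinarith

theorem far (hr : 0 < r) (ha : 0 ≤ a)
    (he : ∀ z : ℂ, 4 * r ≤ ‖z - x‖ → ‖g z - z - a / (z - x)‖ ≤ 12 * a * r / ‖z - x‖ ^ 2)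
    {z : ℂ} (h : 4 * r ≤ ‖z - x‖) : ‖g z - z‖ ≤ a / r := by
  have h1 := norm_add_le (g z - z - a / (z - x)) (a / (z - x))
  rw [sub_add_cancel, norm_div, norm_real, Real.norm_of_nonneg ha] at h1
  have h2 : a / ‖z - x‖ ≤ a / (4 * r) := by gcongr
  have h3 : 12 * a * r / ‖z - x‖ ^ 2 ≤ 12 * a * r / (4 * r) ^ 2 := by gcongr
  have h4 : 12 * a * r / (4 * r) ^ 2 + a / (4 * r) = a / r := by field_simp; ring
  linarith [he z h]

theorem near (H : Hyd A g f a) (hr : 0 < r)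
    (hf : ∀ z : ℂ, 4 * r ≤ ‖z - x‖ → ‖g z - z‖ ≤ 1152 * r) {z : ℂ} (hz : z ∈ HP \ A)
    (h : ‖z - x‖ ≤ 4 * r) : ‖g z - x‖ ≤ 1157 * r := by
  by_contra hc
  obtain ⟨C, hC⟩ := H.bd
  have hC0 : 0 ≤ C := (norm_nonneg _).trans (hC z hz)
  have hw : 0 < (g z).im := H.cf.mf hz
  have hm : ∀ t : ℝ, 0 ≤ t → g z + t * I ∈ HP := fun t ht => by
    show 0 < Complex.im _
    simp only [add_im, mul_im, ofReal_re, I_im, ofReal_im, I_re, mul_one, mul_zero, add_zero]
    linarith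
  have hco : ContinuousOn (fun t : ℝ => ‖f (g z + t * I) - x‖) (Icc 0 (C + 4 * r)) :=
    ((H.cf.hg.continuousOn.comp (by fun_prop) fun t ht => hm t ht.1).sub
      continuousOn_const).norm
  have hd : ∀ t : ℝ, 0 ≤ t → ‖g z + t * I - x‖ ≤
      ‖g (f (g z + t * I)) - f (g z + t * I)‖ + ‖f (g z + t * I) - x‖ := fun t ht => by
    rw [H.cf.fg _ (hm t ht)]
    exact norm_sub_le_norm_sub_add_norm_sub _ _ _
  have h1 : 4 * r ≤ ‖f (g z + ((C + 4 * r : ℝ) : ℂ) * I) - x‖ := by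
    have h2 := hd (C + 4 * r) (by positivity)
    have h3 := hC _ (H.cf.mg (hm (C + 4 * r) (by positivity)))
    have h4 := (le_abs_self _).trans (abs_im_le_norm (g z + ((C + 4 * r : ℝ) : ℂ) * I - x))
    simp only [sub_im, add_im, mul_im, ofReal_re, I_im, ofReal_im, I_re, mul_one, mul_zero,
      add_zero, sub_zero] at h4
    linarith
  obtain ⟨t, ht, e⟩ := intermediate_value_Icc (show (0 : ℝ) ≤ C + 4 * r by positivity) hco
    (show 4 * r ∈ Icc _ _ from ⟨by simpa [H.cf.gf z hz] using h, h1⟩)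
  have h2 := hd t ht.1
  have h3 := hf _ (le_of_eq (Eq.symm e))
  have h4 : ‖g z - x‖ ≤ ‖g z + t * I - x‖ := by
    refine le_of_sq_le_sq ?_ (norm_nonneg _)
    rw [Complex.sq_norm, Complex.sq_norm, normSq_apply, normSq_apply]
    simp only [sub_re, add_re, mul_re, sub_im, add_im, mul_im, ofReal_re, I_im, ofReal_im, I_re,
      mul_one, mul_zero, add_zero, sub_zero]
    nlinarith [ht.1]
  change ‖f (g z + t * I) - x‖ = 4 * r at e
  linarith

theorem pos (H : Hyd A g f a) (hr : 0 < r) (hA : A ⊆ closedBall (x : ℂ) r)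
    (hf : ∀ z : ℂ, 4 * r ≤ ‖z - x‖ → g z = z) {w : ℂ} (hw : w ∈ HP) : f w = w := by
  have hn : ‖(x : ℂ) + ((5 * r : ℝ) : ℂ) * I - x‖ = 5 * r := by
    rw [add_sub_cancel_left, norm_mul, norm_I, mul_one, norm_real,
      Real.norm_of_nonneg (by positivity)]
  have h0 : (x : ℂ) + ((5 * r : ℝ) : ℂ) * I ∈ HP := by
    show 0 < Complex.im _
    simpa using hr
  have ho : IsOpen {z : ℂ | 4 * r < ‖z - x‖} := isOpen_lt continuous_const (by fun_prop)
  refine (H.cf.hg.analyticOnNhd isOpen_HP).eqOn_of_preconnected_of_eventuallyEq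
    (analyticOnNhd_id (s := HP)) convex_HP.isPreconnected h0 ?_ hw
  filter_upwards [isOpen_HP.mem_nhds h0, ho.mem_nhds (show 4 * r < _ by rw [hn]; linarith)]
    with z h1 h2
  have h3 := H.cf.gf z (out hr hA h1 (le_of_lt h2))
  rwa [hf z (le_of_lt h2)] at h3

end Est2

theorem s_est2 (he : S_est) : S_est2 := by
  refine ⟨1200, by norm_num, fun A g f a x r H hr hA hR => ?_⟩
  obtain ⟨ha, h⟩ := he A g f a x r H hr hA hR
  have h1 := Est2.cap_le H hr hA h
  have h2 : ∀ z : ℂ, 4 * r ≤ ‖z - x‖ → ‖g z - z‖ ≤ 1152 * r := fun z hz =>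
    (Est2.far hr ha h hz).trans (by rw [div_le_iff₀ hr]; linarith)
  refine ⟨by nlinarith, fun z hz => ?_, fun ⟨w, hw⟩ => lt_of_le_of_ne ha fun e => ?_⟩
  · rcases le_total (4 * r) ‖z - x‖ with h3 | h3
    · linarith [h2 z h3]
    · have h4 := Est2.near H hr h2 hz h3
      have h5 := norm_sub_le_norm_sub_add_norm_sub (g z) x z
      rw [norm_sub_rev (x : ℂ) z] at h5
      linarith
  · have h3 := Est2.pos H hr hA (fun z hz => ?_) (H.sub hw)
    · exact (H.cf.mg (H.sub hw)).2 (h3.symm ▸ hw)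
    · have h4 := Est2.far hr ha h hz
      rw [← e, zero_div] at h4
      exact sub_eq_zero.1 (norm_le_zero_iff.1 h4)

end Vale.Agent.P153.CA
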