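import Vale.Agent.P153.CA.Basic

/-! The exterior map of a doubled slit. -/

open Set Filter Topology Metric Complex MeasureTheory
open scoped ComplexConjugate ENNReal Real

noncomputable section
namespace Vale.Agent.P153.CA

open Vale.Agent.P164 (Pth HP Zf fi)

namespace Ext

variable {A : Set ℂ} {p : ℝ}

theorem conj_mem {z : ℂ} : conj z ∈ dbl A p ↔ z ∈ dbl A p := by
  have e : conj z = (p : ℂ) ↔ z = p :=
    ⟨fun h => by rw [← conj_conj z, h, conj_ofReal], fun h => by rw [h, conj_ofReal]⟩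
  simp only [dbl, mem_ofPred_eq, conj_conj, e]
  tauto

theorem p_mem : (p : ℂ) ∈ dbl A p := Or.inl rfl

theorem ne_p {z : ℂ} (h : z ∉ dbl A p) : z - p ≠ 0 := fun e => h (Or.inl (sub_eq_zero.1 e))

theorem cpt (h : Slit A p) : IsCompact (dbl A p) := by
  have e : dbl A p = insert (p : ℂ) A ∪ conj '' insert (p : ℂ) A := by
    ext z
    constructor
    · rintro (h | h | h)
      exacts [Or.inl (Or.inl h), Or.inl (Or.inr h), Or.inr ⟨_, Or.inr h, conj_conj z⟩]
    · rintro ((h | h) | ⟨w, h | h, rfl⟩)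
      exacts [Or.inl h, Or.inr (Or.inl h), conj_mem.2 (Or.inl h), conj_mem.2 (Or.inr (Or.inl h))]
  rw [e]
  exact h.cpt.union (h.cpt.image continuous_conj)

theorem con (h : Slit A p) : IsPreconnected (dbl A p)ᶜ := by
  have ho := (cpt h).isClosed.isOpen_compl
  have e1 : (dbl A p)ᶜ ∩ HP = HP \ A := by
    ext z
    refine ⟨fun hz => ⟨hz.2, fun hA => hz.1 (Or.inr (Or.inl hA))⟩, fun hz => ⟨?_, hz.1⟩⟩
    have h0 : 0 < z.im := hz.1
    rintro (e | e | e)
    · simp [e] at h0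
    · exact hz.2 e
    · have : 0 < (conj z).im := h.sub e
      rw [conj_im] at this
      linarith
  have h1 : IsPreconnected ((dbl A p)ᶜ ∩ closure HP) :=
    (e1 ▸ h.com).subset_closure (inter_subset_inter_right _ subset_closure) ho.inter_closure
  have h2 : ((p + 1 : ℝ) : ℂ) ∈ (dbl A p)ᶜ ∩ closure HP := by
    refine ⟨?_, by simp [closure_HP]⟩
    rintro (e | e | e)
    · have := ofReal_injective e
      linarith
    · simpa [HP] using h.sub e
    · simpa [HP] using h.sub e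
  have e2 : (dbl A p)ᶜ = (dbl A p)ᶜ ∩ closure HP ∪ conj '' ((dbl A p)ᶜ ∩ closure HP) := by
    ext z
    constructor
    · intro hz
      rcases le_total 0 z.im with h0 | h0
      · exact Or.inl ⟨hz, by simpa [closure_HP] using h0⟩
      · exact Or.inr ⟨conj z, ⟨fun h' => hz (conj_mem.1 h'), by simpa [closure_HP] using h0⟩,
          conj_conj z⟩
    · rintro (hz | ⟨w, hw, rfl⟩)
      exacts [hz.1, fun h' => hw.1 (conj_mem.1 h')]
  rw [e2]
  exact h1.union _ h2 ⟨_, h2, conj_ofReal _⟩ (h1.image _ continuous_conj.continuousOn)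

/-- The inverted domain. -/
def Om (A : Set ℂ) (p : ℝ) : Set ℂ := {w | w = 0 ∨ (p : ℂ) + w⁻¹ ∉ dbl A p}

theorem inv_mem {z : ℂ} (h : z ∉ dbl A p) : (z - p)⁻¹ ∈ Om A p := Or.inr (by simpa using h)

theorem t1 (p : ℝ) : Tendsto (fun w : ℂ => (p : ℂ) + w⁻¹) (𝓝[≠] 0) (cocompact ℂ) := by
  rw [← Metric.cobounded_eq_cocompact]
  exact (tendsto_const_add_cobounded _).comp tendsto_inv₀_nhdsNE_zero

theorem t2 (p : ℝ) : Tendsto (fun z : ℂ => (z - p)⁻¹) (cocompact ℂ) (𝓝 0) := by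
  rw [← Metric.cobounded_eq_cocompact]
  exact tendsto_inv₀_cobounded.comp (tendsto_sub_const_cobounded _)

theorem om_open (h : Slit A p) : IsOpen (Om A p) := by
  refine isOpen_iff_mem_nhds.2 fun w hw => ?_
  by_cases h0 : w = 0
  · subst h0
    have h1 := eventually_nhdsWithin_iff.1 ((t1 p).eventually (cpt h).compl_mem_cocompact)
    filter_upwards [h1] with w hw
    exact or_iff_not_imp_left.2 hw
  · have hc : ContinuousAt (fun w : ℂ => (p : ℂ) + w⁻¹) w :=
      continuousAt_const.add (continuousAt_inv₀ h0)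
    filter_upwards [hc.eventually ((cpt h).isClosed.isOpen_compl.mem_nhds (hw.resolve_left h0))]
      with w hw using Or.inr hw

theorem om_con (h : Slit A p) : IsPreconnected (Om A p) := by
  have h1 : IsPreconnected ((fun z : ℂ => (z - p)⁻¹) '' (dbl A p)ᶜ) :=
    (con h).image _ (ContinuousOn.inv₀ (by fun_prop) fun z hz => ne_p hz)
  refine h1.subset_closure (by rintro _ ⟨z, hz, rfl⟩; exact inv_mem hz) ?_
  rintro w (rfl | hw)
  · refine mem_closure_of_tendsto (t2 p) ?_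
    filter_upwards [(cpt h).compl_mem_cocompact] with z hz using ⟨z, hz, rfl⟩
  · exact subset_closure ⟨_, hw, by simp⟩

theorem not_mem {z : ℂ} (h : z ∈ dbl A p) (h0 : z - p ≠ 0) : (z - p)⁻¹ ∉ Om A p := by
  rintro (e | e)
  · exact h0 (inv_eq_zero.1 e)
  · exact e (by simpa using h)

theorem full_aux {B : Set ℂ} (h1 : IsPreconnected B) (h2 : B ⊆ dbl A p) (h3 : ∀ z ∈ B, z.im ≠ 0)
    (h4 : (p : ℂ) ∈ closure B) {w : ℂ} (hw : (p : ℂ) + w⁻¹ ∈ B) :
    ∃ S, IsPreconnected S ∧ w ∈ S ∧ Disjoint S (Om A p) ∧ ¬ Bornology.IsBounded S := by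
  have h0 : ∀ z ∈ B, z - p ≠ 0 := fun z hz e => h3 z hz (by simp [sub_eq_zero.1 e])
  refine ⟨(fun z : ℂ => (z - p)⁻¹) '' B, h1.image _ (ContinuousOn.inv₀ (by fun_prop) h0),
    ⟨_, hw, by simp⟩, disjoint_left.2 ?_, fun hb => ?_⟩
  · rintro _ ⟨z, hz, rfl⟩
    exact not_mem (h2 hz) (h0 z hz)
  · obtain ⟨R, hR, hs⟩ := hb.subset_ball_lt 0 0
    obtain ⟨z, hz, hd⟩ := Metric.mem_closure_iff.1 h4 R⁻¹ (inv_pos.2 hR)
    have h5 := hs ⟨z, hz, rfl⟩
    rw [mem_ball_zero_iff, norm_inv] at h5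
    rw [dist_comm, dist_eq_norm] at hd
    exact absurd ((inv_lt_comm₀ (norm_pos_iff.2 (h0 z hz)) hR).1 h5) (not_lt.2 hd.le)

theorem om_full (h : Slit A p) : Full (Om A p) := by
  intro w hw
  simp only [Om, mem_ofPred_eq, not_or, not_not] at hw
  rcases hw.2 with e | e | e
  · exact absurd (inv_eq_zero.1 (by simpa using e)) hw.1
  · exact full_aux h.con (fun z hz => Or.inr (Or.inl hz)) (fun z hz => (h.sub hz).ne') h.clo e
  · refine full_aux (B := conj '' A) (h.con.image _ continuous_conj.continuousOn) ?_ ?_ ?_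
      ⟨_, e, conj_conj _⟩
    · rintro _ ⟨z, hz, rfl⟩
      exact conj_mem.2 (Or.inr (Or.inl hz))
    · rintro _ ⟨z, hz, rfl⟩
      rw [conj_im]
      exact neg_ne_zero.2 (h.sub hz).ne'
    · have := map_mem_closure (f := conj) (t := conj '' A) continuous_conj h.clo
        (mapsTo_image _ _)
      rwa [conj_ofReal] at this

theorem om_ne (h : Slit A p) : Om A p ≠ univ := by
  obtain ⟨a, ha⟩ := h.ne
  have h0 : 0 < a.im := h.sub ha
  refine (ne_univ_iff_exists_notMem _).2 ⟨_, not_mem (Or.inr (Or.inl ha)) fun e => ?_⟩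
  simp [sub_eq_zero.1 e] at h0

theorem om_conj {w : ℂ} (h : w ∈ Om A p) : conj w ∈ Om A p := by
  rcases h with rfl | h
  · exact Or.inl (map_zero _)
  · refine Or.inr fun h' => h (conj_mem.1 ?_)
    simpa using h'

theorem cf_conj {U V : Set ℂ} {f g : ℂ → ℂ} (h : Cf U V f g) (hU : ∀ z ∈ U, conj z ∈ U)
    (hV : ∀ z ∈ V, conj z ∈ V) : Cf U V (conj ∘ f ∘ conj) (conj ∘ g ∘ conj) := by
  refine ⟨h.oU, h.oV, fun z hz => ?_, fun z hz => ?_, fun z hz => hV _ (h.mf (hU z hz)),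
    fun z hz => hU _ (h.mg (hV z hz)), fun z hz => by simp [h.gf _ (hU z hz)],
    fun z hz => by simp [h.fg _ (hV z hz)]⟩
  · have := (h.hf.differentiableAt (h.oU.mem_nhds (hU z hz))).conj_conj
    rw [conj_conj] at this
    exact this.differentiableWithinAt
  · have := (h.hg.differentiableAt (h.oV.mem_nhds (hV z hz))).conj_conj
    rw [conj_conj] at this
    exact this.differentiableWithinAt

theorem cf_inv (h : Slit A p) : Cf (dbl A p)ᶜ (Om A p \ {0}) (fun z => (z - p)⁻¹)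
    fun w => p + w⁻¹ :=
  ⟨(cpt h).isClosed.isOpen_compl, (om_open h).sdiff isClosed_singleton,
    DifferentiableOn.inv (by fun_prop) fun _ hz => ne_p hz,
    (differentiableOn_id.inv fun _ hw => hw.2).const_add _,
    fun _ hz => ⟨inv_mem hz, inv_ne_zero (ne_p hz)⟩, fun _ hw => hw.1.resolve_left hw.2,
    fun _ _ => by simp, fun _ _ => by simp⟩

theorem expand {Ω : Set ℂ} {φ : ℂ → ℂ} {d : ℝ} (ho : IsOpen Ω) (h0 : (0 : ℂ) ∈ Ω)
    (hφ : DifferentiableOn ℂ φ Ω) (hz : φ 0 = 0) (hn : ∀ w ∈ Ω, w ≠ 0 → φ w ≠ 0) (hd : 0 < d)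
    (hder : HasDerivAt φ d 0) (hs : ∀ w ∈ Ω, φ (conj w) = conj (φ w)) :
    ∃ (b : ℝ) (k l : ℂ → ℂ), ContinuousAt k 0 ∧ ContinuousAt l 0 ∧ l 0 = d ∧
      (∀ w, φ w = w * l w) ∧ ∀ w ∈ Ω, w ≠ 0 → d / φ w = w⁻¹ + b + w * k w := by
  have hN := ho.mem_nhds h0
  have hd0 : (d : ℂ) ≠ 0 := by exact_mod_cast hd.ne'
  set l := dslope φ 0 with hl
  have l0 : l 0 = d := by rw [hl, dslope_same, hder.deriv]
  have l1 : ∀ w, φ w = w * l w := fun w => by
    have := sub_smul_dslope φ 0 w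
    rw [hz, sub_zero, sub_zero, smul_eq_mul] at this
    exact this.symm
  have l2 : DifferentiableOn ℂ l Ω := (differentiableOn_dslope hN).2 hφ
  have l3 : ∀ w ∈ Ω, l w ≠ 0 := fun w hw e => by
    by_cases hw0 : w = 0
    · exact hd0 (by rw [← l0]; rw [hw0] at e; exact e)
    · exact hn w hw hw0 (by rw [l1, e, mul_zero])
  have l4 : ∀ w ∈ Ω, l (conj w) = conj (l w) := fun w hw => by
    by_cases hw0 : w = 0
    · rw [hw0, map_zero, l0, conj_ofReal]
    · have := hs w hw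
      rw [l1, l1 w, map_mul] at this
      exact mul_left_cancel₀ ((map_ne_zero _).2 hw0) this
  set h : ℂ → ℂ := fun w => d / l w with hh
  have h1 : DifferentiableOn ℂ h Ω := (differentiableOn_const _).div l2 l3
  have h2 : h 0 = 1 := by simp only [hh, l0, div_self hd0]
  set q := dslope h 0 with hq
  have q1 : DifferentiableOn ℂ q Ω := (differentiableOn_dslope hN).2 h1
  have q2 : (q 0).im = 0 := by
    have a1 := (h1.differentiableAt hN).hasDerivAt
    have a2 := a1.conj_conj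
    rw [map_zero] at a2
    have a3 : h =ᶠ[𝓝 0] conj ∘ h ∘ conj := by
      filter_upwards [hN] with w hw
      simp [hh, l4 w hw]
    rw [hq, dslope_same]
    exact conj_eq_iff_im.1 ((a2.congr_of_eventuallyEq a3).unique a1)
  refine ⟨(q 0).re, dslope q 0, l, continuousAt_dslope_same.2 (q1.differentiableAt hN),
    (l2.differentiableAt hN).continuousAt, l0, l1, fun w hw hw0 => ?_⟩
  have e1 := sub_smul_dslope h 0 w
  have e2 := sub_smul_dslope q 0 w
  have e3 : (((q 0).re : ℝ) : ℂ) = q 0 := Complex.ext rfl (by simp [q2])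
  rw [h2, sub_zero, smul_eq_mul, ← hq] at e1
  rw [sub_zero, smul_eq_mul] at e2
  have e4 : d / φ w = h w * w⁻¹ := by
    rw [l1 w, hh]
    have := l3 w hw
    field_simp
  rw [e3, e2, e4, ← sub_add_cancel (h w) 1, ← e1]
  field_simp
  ring

end Ext

open Ext in
theorem s_ext (hr : S_rmt) (ho : S_rot) : S_ext := by
  intro A p h
  have hO := om_open h
  have h0 : (0 : ℂ) ∈ Om A p := Or.inl rfl
  obtain ⟨f, φ, d, hc, hf0, hd, hder⟩ := hr (Om A p) 0 hO (om_con h) (om_ne h) h0 (om_full h)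
  have hb0 : (0 : ℂ) ∈ ball (0 : ℂ) 1 := mem_ball_self one_pos
  have hφ0 : φ 0 = 0 := by rw [← hf0, hc.gf 0 hb0, hf0]
  have hd0 : (d : ℂ) ≠ 0 := by exact_mod_cast hd.ne'
  have hs : ∀ w ∈ Om A p, φ (conj w) = conj (φ w) := by
    obtain ⟨c, -, -, h2⟩ := ho _ _ _ _ _ hc (cf_conj hc (fun z hz => by simpa using hz)
      fun z hz => om_conj hz) (by simp [hf0])
    have a1 := hder.conj_conj.const_mul c
    rw [map_zero, conj_ofReal] at a1
    have a2 : c * d = 1 * d := by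
      rw [one_mul]
      exact (a1.congr_of_eventuallyEq (eventually_of_mem (hO.mem_nhds h0) h2)).unique hder
    intro w hw
    rw [h2 _ (om_conj hw), mul_right_cancel₀ hd0 a2]
    simp
  have hn : ∀ w ∈ Om A p, w ≠ 0 → φ w ≠ 0 := fun w hw hw0 e =>
    hw0 (by rw [← hc.fg w hw, e, hf0])
  have hc2 : Cf (Om A p \ {0}) (ball 0 1 \ {0}) φ f :=
    ⟨hO.sdiff isClosed_singleton, isOpen_ball.sdiff isClosed_singleton, hc.hg.mono sdiff_subset,
      hc.hf.mono sdiff_subset, fun w hw => ⟨hc.mg hw.1, hn w hw.1 hw.2⟩,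
      fun z hz => ⟨hc.mf hz.1, fun e => hz.2 (by
        rw [← hc.gf z hz.1, show f z = 0 from e, hφ0]; rfl)⟩,
      fun w hw => hc.fg w hw.1, fun z hz => hc.gf z hz.1⟩
  obtain ⟨b, k, l, hk, hl, l0, l1, he⟩ := expand hO h0 hc.hg hφ0 hn hd hder hs
  have hev := (cpt h).compl_mem_cocompact
  have t3 : Tendsto (fun z : ℂ => z * (z - p)⁻¹) (cocompact ℂ) (𝓝 1) := by
    have := ((t2 p).const_mul (p : ℂ)).const_add 1
    rw [mul_zero, add_zero] at this
    refine this.congr' ?_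
    filter_upwards [hev] with z hz
    have := ne_p hz
    field_simp
    ring
  refine ⟨_, _, d, b - p, k 0, hd, (cf_inv h).trans hc2, fun z hz => ?_, fun R => ?_, ?_, ?_⟩
  · rw [← hs _ (inv_mem hz)]
    simp
  · have hR : 0 < |R| + |p| + 1 := by positivity
    obtain ⟨ε, hε, h1⟩ := Metric.continuousAt_iff.1 (hc.cf hb0) _ (inv_pos.2 hR)
    refine ⟨ε, hε, fun z hz hzR => ?_⟩
    by_contra hn'
    have h2 := h1 (x := φ (z - p)⁻¹) (by rw [dist_zero_right]; exact not_le.1 hn')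
    rw [hc.fg _ (inv_mem hz), hf0, dist_zero_right, norm_inv,
      inv_lt_inv₀ (norm_pos_iff.2 (ne_p hz)) hR] at h2
    have h3 := norm_sub_le z (p : ℂ)
    rw [norm_real, Real.norm_eq_abs] at h3
    linarith [le_abs_self R]
  · have := t3.mul (hl.tendsto.comp (t2 p))
    rw [one_mul, l0] at this
    refine this.congr fun z => ?_
    rw [l1, Function.comp_apply, mul_assoc]
  · have := t3.mul (hk.tendsto.comp (t2 p))
    rw [one_mul] at this
    refine this.congr' ?_
    filter_upwards [hev] with z hz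
    rw [he _ (inv_mem hz) (inv_ne_zero (ne_p hz)), Function.comp_apply, inv_inv]
    push_cast
    ring

end Vale.Agent.P153.CA
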