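import Vale.Agent.P153.CA.Basic

/-! Holomorphic logarithms on full domains. -/

open Set Filter Topology Metric Complex MeasureTheory
open scoped ComplexConjugate ENNReal Real

noncomputable section
namespace Vale.Agent.P153.CA

open Vale.Agent.P164 (Pth HP Zf fi)

namespace Hlog

/-- The exhausting open sets. -/
def G (Ω : Set ℂ) (x : ℂ) (n : ℕ) : Set ℂ :=
  {z | ‖z‖ < n + 1 + ‖x‖ ∧ infDist x Ωᶜ / (n + 2) < infDist z Ωᶜ}

theorem G_open (Ω : Set ℂ) (x : ℂ) (n : ℕ) : IsOpen (G Ω x n) :=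
  (isOpen_lt continuous_norm continuous_const).inter
    (isOpen_lt continuous_const (continuous_infDist_pt _))

theorem G_mono (Ω : Set ℂ) (x : ℂ) {m n : ℕ} (h : m ≤ n) : G Ω x m ⊆ G Ω x n := by
  intro z hz
  have h1 : (m : ℝ) ≤ n := by exact_mod_cast h
  refine ⟨by linarith [hz.1], lt_of_le_of_lt ?_ hz.2⟩
  exact div_le_div_of_nonneg_left infDist_nonneg (by positivity) (by linarith)

theorem pos {Ω : Set ℂ} (ho : IsOpen Ω) (hne : Ω ≠ univ) {z : ℂ} (hz : z ∈ Ω) :
    0 < infDist z Ωᶜ :=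
  (ho.isClosed_compl.notMem_iff_infDist_pos (nonempty_compl.2 hne)).1 (fun h => h hz)

theorem x_mem {Ω : Set ℂ} (ho : IsOpen Ω) (hne : Ω ≠ univ) {x : ℂ} (hx : x ∈ Ω) (n : ℕ) :
    x ∈ G Ω x n := by
  have h := pos ho hne hx
  have h0 : (0 : ℝ) ≤ n := n.cast_nonneg
  refine ⟨by linarith, div_lt_self h (by linarith)⟩

theorem ex_mem {Ω : Set ℂ} (ho : IsOpen Ω) (hne : Ω ≠ univ) (x : ℂ) {z : ℂ} (hz : z ∈ Ω) :
    ∃ n, z ∈ G Ω x n := by
  have h := pos ho hne hz
  obtain ⟨n, hn⟩ := exists_nat_gt (max ‖z‖ (infDist x Ωᶜ / infDist z Ωᶜ))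
  have h1 := (le_max_left _ _).trans_lt hn
  have h2 := (le_max_right _ _).trans_lt hn
  refine ⟨n, by linarith [norm_nonneg x], ?_⟩
  rw [div_lt_iff₀ h] at h2
  rw [div_lt_iff₀ (by positivity)]
  nlinarith

theorem clos {Ω : Set ℂ} (ho : IsOpen Ω) (hne : Ω ≠ univ) {x : ℂ} (hx : x ∈ Ω) (n : ℕ)
    {A : Set ℂ} (hA : A ⊆ G Ω x n) : IsCompact (closure A) ∧ closure A ⊆ Ω := by
  constructor
  · refine Bornology.IsBounded.isCompact_closure
      ((isBounded_ball (x := (0 : ℂ)) (r := n + 1 + ‖x‖)).subset fun z hz => ?_)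
    simpa using (hA hz).1
  · have hc : IsClosed {z : ℂ | infDist x Ωᶜ / (n + 2) ≤ infDist z Ωᶜ} :=
      isClosed_le continuous_const (continuous_infDist_pt _)
    intro z hz
    have h1 : infDist x Ωᶜ / (n + 2) ≤ infDist z Ωᶜ :=
      closure_minimal (fun w hw => (hA hw).2.le) hc hz
    by_contra hn
    rw [infDist_zero_of_mem (show z ∈ Ωᶜ from hn)] at h1
    have := pos ho hne hx
    have : 0 < infDist x Ωᶜ / (n + 2) := by positivity
    linarith

theorem cover {Ω : Set ℂ} (ho : IsOpen Ω) (hc : IsPreconnected Ω) (hne : Ω ≠ univ) {x : ℂ}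
    (hx : x ∈ Ω) : Ω ⊆ ⋃ n, connectedComponentIn (G Ω x n) x := by
  refine hc.subset_of_closure_inter_subset
    (isOpen_iUnion fun n => (G_open Ω x n).connectedComponentIn)
    ⟨x, hx, mem_iUnion.2 ⟨0, mem_connectedComponentIn (x_mem ho hne hx 0)⟩⟩ ?_
  rintro z ⟨hz, hzΩ⟩
  obtain ⟨N, hN⟩ := ex_mem ho hne x hzΩ
  obtain ⟨w, hw1, hw2⟩ := mem_closure_iff.1 hz _ (G_open Ω x N).connectedComponentIn
    (mem_connectedComponentIn hN)
  obtain ⟨n, hn⟩ := mem_iUnion.1 hw2
  have a1 := connectedComponentIn_mono _ (G_mono Ω x (le_max_left n N)) hn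
  have a2 := connectedComponentIn_mono _ (G_mono Ω x (le_max_right n N)) hw1
  refine mem_iUnion.2 ⟨max n N, ?_⟩
  rw [connectedComponentIn_eq a1, ← connectedComponentIn_eq a2]
  exact mem_connectedComponentIn (G_mono Ω x (le_max_right n N) hN)

theorem loc {A : Set ℂ} {F k : ℂ → ℂ} {x : ℂ} (ho : IsOpen A) (hc : IsPreconnected A)
    (hx : x ∈ A) (hF : DifferentiableOn ℂ F A) (h0 : ∀ z ∈ A, F z ≠ 0)
    (hk : ∀ z ∈ A, HasDerivAt k (deriv F z / F z) z) :
    ∃ l : ℂ → ℂ, ContinuousOn l A ∧ (∀ z ∈ A, exp (l z) = F z) ∧ l x = log (F x) := by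
  have hd : ∀ z ∈ A, HasDerivAt (fun z => F z * exp (-k z)) 0 z := by
    intro z hz
    have h1 := ((hF.differentiableAt (ho.mem_nhds hz)).hasDerivAt).mul (hk z hz).neg.cexp
    have e : deriv F z * exp (-k z) + F z * (exp (-k z) * -(deriv F z / F z)) = 0 := by
      have := h0 z hz
      field_simp
      ring
    rw [← e]
    exact h1
  have hcst : ∀ z ∈ A, F z * exp (-k z) = F x * exp (-k x) := fun z hz =>
    ho.is_const_of_deriv_eq_zero hc (fun w hw => (hd w hw).differentiableAt.differentiableWithinAt)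
      (fun w hw => (hd w hw).deriv) hz hx
  refine ⟨fun z => k z - k x + log (F x), fun z hz => ?_, fun z hz => ?_, by simp⟩
  · exact (((hk z hz).continuousAt.sub continuousAt_const).add
      continuousAt_const).continuousWithinAt
  · have h1 := hcst z hz
    rw [exp_neg, exp_neg] at h1
    rw [exp_add, exp_sub, exp_log (h0 x hx)]
    have e1 := exp_ne_zero (k z)
    have e2 := exp_ne_zero (k x)
    field_simp at h1 ⊢
    linear_combination -h1

end Hlog

theorem s_hlog (hp : S_primK) : S_hlog := by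
  intro Ω F ho hc hfull hne hF h0
  rcases Ω.eq_empty_or_nonempty with rfl | ⟨x, hx⟩
  · exact ⟨fun _ => 0, continuousOn_empty _, fun _ h => h.elim⟩
  let A : ℕ → Set ℂ := fun n => connectedComponentIn (Hlog.G Ω x n) x
  have Ao : ∀ n, IsOpen (A n) := fun n => (Hlog.G_open Ω x n).connectedComponentIn
  have Ac : ∀ n, IsPreconnected (A n) := fun n => isPreconnected_connectedComponentIn
  have Ax : ∀ n, x ∈ A n := fun n => mem_connectedComponentIn (Hlog.x_mem ho hne hx n)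
  have Am : ∀ m n, m ≤ n → A m ⊆ A n := fun m n h =>
    connectedComponentIn_mono _ (Hlog.G_mono Ω x h)
  have Ak := fun n => Hlog.clos ho hne hx n (A := A n) (connectedComponentIn_subset _ _)
  have AΩ : ∀ n, A n ⊆ Ω := fun n => subset_closure.trans (Ak n).2
  have hl : ∀ n, ∃ l : ℂ → ℂ, ContinuousOn l (A n) ∧ (∀ z ∈ A n, exp (l z) = F z) ∧
      l x = log (F x) := by
    intro n
    obtain ⟨k, hk⟩ := hp Ω (A n) (fun z => deriv F z / F z) ho hfull (Ao n) (Ac n) (Ak n).1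
      (Ak n).2 ((hF.deriv ho).div hF h0)
    exact Hlog.loc (Ao n) (Ac n) (Ax n) (hF.mono (AΩ n)) (fun z hz => h0 z (AΩ n hz)) hk
  choose l l1 l2 l3 using hl
  have hcomp : ∀ m n, m ≤ n → ∀ z ∈ A m, l m z = l n z := by
    intro m n h z hz
    have := log_const (Ac m) (l1 m) ((l1 n).mono (Am m n h))
      (fun w hw => by rw [l2 m w hw, l2 n w (Am m n h hw)]) hz (Ax m)
    rw [l3, l3, sub_self] at this
    exact sub_eq_zero.1 this
  have hcomp' : ∀ m n, ∀ z ∈ A m, z ∈ A n → l m z = l n z := fun m n z h1 h2 =>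
    (hcomp m _ (le_max_left m n) z h1).trans (hcomp n _ (le_max_right m n) z h2).symm
  have hex : ∀ z, ∃ n, z ∈ Ω → z ∈ A n := by
    intro z
    by_cases hz : z ∈ Ω
    · obtain ⟨n, hn⟩ := mem_iUnion.1 (Hlog.cover ho hc hne hx hz)
      exact ⟨n, fun _ => hn⟩
    · exact ⟨0, fun h => absurd h hz⟩
  choose N hN using hex
  refine ⟨fun z => l (N z) z, fun z hz => ?_, fun z hz => l2 _ z (hN z hz)⟩
  have h1 : ContinuousAt (l (N z)) z := (l1 _).continuousAt ((Ao _).mem_nhds (hN z hz))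
  refine (h1.congr ?_).continuousWithinAt
  filter_upwards [(Ao _).mem_nhds (hN z hz)] with w hw
  exact hcomp' _ _ w hw (hN w (AΩ _ hw))

end Vale.Agent.P153.CA
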