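import Vale.Agent.P153.CA.Basic

/-! The normalised conformal map of the complement of a slit. -/

open Set Filter Topology Metric Complex MeasureTheory
open scoped ComplexConjugate ENNReal Real

noncomputable section
namespace Vale.Agent.P153.CA

open Vale.Agent.P164 (Pth HP Zf fi)

namespace Hull

theorem im_jou (ζ : ℂ) : (ζ + ζ⁻¹).im = ζ.im * (1 - (normSq ζ)⁻¹) := by
  rw [add_im, inv_im]
  ring

theorem jou_ne {ζ : ℂ} (h : ζ ∈ ball (0 : ℂ) 1 \ {0}) (h0 : ζ.im ≠ 0) : (ζ + ζ⁻¹).im ≠ 0 := by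
  rw [im_jou]
  refine mul_ne_zero h0 fun h1 => ?_
  have h2 : normSq ζ = 1 := inv_eq_one.mp (sub_eq_zero.mp h1).symm
  have h3 := mem_ball_zero_iff.mp h.1
  rw [normSq_eq_norm_sq] at h2
  nlinarith [norm_nonneg ζ]

theorem jou_inj {a b : ℂ} (ha : a ∈ ball (0 : ℂ) 1 \ {0}) (hb : b ∈ ball (0 : ℂ) 1 \ {0})
    (h : a + a⁻¹ = b + b⁻¹) : a = b := by
  have ha0 : a ≠ 0 := ha.2
  have hb0 : b ≠ 0 := hb.2
  have h1 : (a - b) * (a * b - 1) = 0 := by
    field_simp at h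
    linear_combination h
  rcases mul_eq_zero.mp h1 with h2 | h2
  · exact sub_eq_zero.mp h2
  · have h3 := congrArg norm (sub_eq_zero.mp h2)
    rw [norm_mul, norm_one] at h3
    have h4 := mul_lt_one_of_nonneg_of_lt_one_left (norm_nonneg a) (mem_ball_zero_iff.mp ha.1)
      (mem_ball_zero_iff.mp hb.1).le
    exact absurd h3 h4.ne

theorem jou_onto {v : ℂ} (hv : v.im ≠ 0) : ∃ ζ ∈ ball (0 : ℂ) 1 \ {0}, ζ + ζ⁻¹ = v := by
  obtain ⟨s, hs⟩ := IsAlgClosed.exists_pow_nat_eq (v ^ 2 - 4) two_pos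
  obtain ⟨ζ, hζ⟩ : ∃ ζ : ℂ, ζ = (v + s) / 2 := ⟨_, rfl⟩
  have h1 : ζ * ((v - s) / 2) = 1 := by
    rw [hζ]
    linear_combination (-1 / 4 : ℂ) * hs
  have h0 : ζ ≠ 0 := left_ne_zero_of_mul_eq_one h1
  have h2 : ζ + ζ⁻¹ = v := by
    rw [← eq_inv_of_mul_eq_one_right h1, hζ]
    ring
  rcases lt_trichotomy ‖ζ‖ 1 with h3 | h3 | h3
  · exact ⟨ζ, ⟨mem_ball_zero_iff.mpr h3, h0⟩, h2⟩
  · refine absurd ?_ hv
    rw [← h2, im_jou, normSq_eq_norm_sq, h3]
    simp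
  · refine ⟨ζ⁻¹, ⟨mem_ball_zero_iff.mpr ?_, inv_ne_zero h0⟩, by rw [inv_inv, add_comm, h2]⟩
    rw [norm_inv]
    exact inv_lt_one_of_one_lt₀ h3

theorem ev_big {P : ℂ → Prop} (h : ∀ᶠ z in cocompact ℂ, P z) :
    ∃ R : ℝ, 1 ≤ R ∧ ∀ z, R < ‖z‖ → P z := by
  obtain ⟨S, hS, h1⟩ := mem_cocompact.mp h
  obtain ⟨R, hR⟩ := hS.isBounded.exists_norm_le
  exact ⟨max R 1, le_max_right _ _, fun z hz =>
    h1 fun h2 => absurd ((le_max_left _ _).trans_lt hz) (not_lt.mpr (hR z h2))⟩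

theorem conj_cocompact : Tendsto (fun z : ℂ => conj z) (cocompact ℂ) (cocompact ℂ) := by
  rw [← cobounded_eq_cocompact, ← tendsto_norm_atTop_iff_cobounded]
  simp only [norm_conj]
  exact tendsto_norm_cobounded_atTop

theorem lim_real {F : ℂ → ℂ} {L : ℂ} (h : Tendsto F (cocompact ℂ) (𝓝 L))
    (hs : ∀ᶠ z in cocompact ℂ, F (conj z) = conj (F z)) : L = (L.re : ℂ) := by
  have h1 : Tendsto (fun z => conj (F z)) (cocompact ℂ) (𝓝 (conj L)) :=
    (continuous_conj.tendsto L).comp h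
  have h2 := tendsto_nhds_unique ((h.comp conj_cocompact).congr' hs) h1
  exact (conj_eq_iff_re.mp h2.symm).symm

theorem lim_zero {F : ℂ → ℂ} {L : ℂ} (h : Tendsto (fun z => z * F z) (cocompact ℂ) (𝓝 L)) :
    Tendsto F (cocompact ℂ) (𝓝 0) := by
  have h1 : Tendsto (fun z : ℂ => z⁻¹) (cocompact ℂ) (𝓝 0) := by
    rw [← cobounded_eq_cocompact]
    exact tendsto_inv₀_cobounded
  have h2 := h1.mul h
  rw [zero_mul] at h2
  refine h2.congr' ((isCompact_singleton (x := (0 : ℂ))).compl_mem_cocompact |> fun h3 =>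
    Filter.mem_of_superset h3 fun z hz => ?_)
  exact inv_mul_cancel_left₀ hz _

variable {A : Set ℂ} {p : ℝ}

theorem conj_dbl {z : ℂ} (hz : z ∉ dbl A p) : conj z ∉ dbl A p := by
  rintro (h | h | h)
  · exact hz (Or.inl (by rw [← conj_conj z, h, conj_ofReal]))
  · exact hz (Or.inr (Or.inr h))
  · exact hz (Or.inr (Or.inl (by rwa [conj_conj] at h)))

theorem diff_eq (hA : Slit A p) : HP \ A = HP ∩ (dbl A p)ᶜ := by
  ext z
  refine and_congr_right fun hz => ⟨?_, fun h h1 => h (Or.inr (Or.inl h1))⟩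
  have h0 : 0 < z.im := hz
  rintro h (h1 | h1 | h1)
  · rw [h1, ofReal_im] at h0
    exact lt_irrefl _ h0
  · exact h h1
  · have h2 : 0 < (conj z).im := hA.sub h1
    rw [conj_im] at h2
    linarith

theorem dbl_sub (hA : Slit A p) {x r : ℝ} (h : A ⊆ closedBall (x : ℂ) r) {z : ℂ}
    (hz : r < ‖z - x‖) : z ∉ dbl A p := by
  have h1 : ∀ w ∈ closedBall (x : ℂ) r, ‖w - x‖ ≤ r := fun w hw => mem_closedBall_iff_norm.mp hw
  rintro (h2 | h2 | h2)
  · exact absurd (h1 _ (closure_minimal h isClosed_closedBall hA.clo)) (not_le.mpr (h2 ▸ hz))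
  · exact absurd (h1 _ (h h2)) (not_le.mpr hz)
  · have h3 := h1 _ (h h2)
    rw [← conj_ofReal x, ← map_sub, norm_conj] at h3
    exact absurd h3 (not_le.mpr hz)

theorem bdd (hA : Slit A p) : Bornology.IsBounded A := hA.cpt.isBounded.subset (subset_insert _ _)

theorem ev_out (hA : Slit A p) : ∀ᶠ z in cocompact ℂ, z ∉ dbl A p := by
  obtain ⟨r, hr⟩ := (bdd hA).subset_closedBall ((0 : ℝ) : ℂ)
  refine Filter.mem_of_superset (isCompact_closedBall ((0 : ℝ) : ℂ) r).compl_mem_cocompact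
    fun z hz => dbl_sub hA hr ?_
  exact not_le.mp fun h => hz (mem_closedBall_iff_norm.mpr h)

theorem im_pos (hA : Slit A p) {g : ℂ → ℂ} (hc : ContinuousOn g (HP \ A))
    (hne : ∀ z ∈ HP \ A, (g z).im ≠ 0) (hi : Tendsto (fun z => g z - z) (cocompact ℂ) (𝓝 0)) :
    ∀ z ∈ HP \ A, 0 < (g z).im := by
  obtain ⟨R, hR, h1⟩ := ev_big ((ev_out hA).and (hi.eventually (ball_mem_nhds 0 one_pos)))
  have h2 : R < ‖((R + 1 : ℝ) : ℂ) * I‖ := by
    rw [norm_mul, norm_I, mul_one, norm_real, Real.norm_of_nonneg (by linarith)]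
    linarith
  obtain ⟨h3, h4⟩ := h1 _ h2
  have h5 : (((R + 1 : ℝ) : ℂ) * I).im = R + 1 := by simp
  have h6 : ((R + 1 : ℝ) : ℂ) * I ∈ HP \ A := by
    rw [diff_eq hA]
    exact ⟨show 0 < (_ : ℂ).im by rw [h5]; linarith, h3⟩
  have h7 := (abs_le.mp ((abs_im_le_norm _).trans (mem_ball_zero_iff.mp h4).le)).1
  rw [sub_im, h5] at h7
  intro z hz
  by_contra h8
  obtain ⟨w, hw, h9⟩ := hA.com.intermediate_value hz h6 (f := fun z => (g z).im)
    (continuous_im.comp_continuousOn hc) (show (0 : ℝ) ∈ Icc _ _ from ⟨not_lt.mp h8, by linarith⟩)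
  exact hne w hw h9

theorem norm_bd {c d ε R : ℝ} {ζ z : ℂ} (hc : 0 < c) (hε : 0 < ε) (h1 : ε ≤ ‖ζ‖) (h2 : ‖ζ‖ ≤ 1)
    (h3 : ‖z‖ ≤ R) : ‖c * (ζ + ζ⁻¹) - d - z‖ ≤ c * (1 + ε⁻¹) + |d| + R := by
  refine (norm_sub_le _ _).trans (add_le_add ((norm_sub_le _ _).trans (add_le_add ?_ ?_)) h3)
  · rw [norm_mul, norm_real, Real.norm_of_nonneg hc.le]
    refine mul_le_mul_of_nonneg_left ((norm_add_le _ _).trans (add_le_add h2 ?_)) hc.le
    rw [norm_inv]
    exact inv_anti₀ hε h1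
  · rw [norm_real, Real.norm_eq_abs]

end Hull

open Hull in
theorem s_hull (he : S_ext) (hv : S_inv) : S_hull := by
  intro A p hA
  obtain ⟨Φ, Ψ, c, d, e, hc, hF, hs, hlo, h1, h2⟩ := he A p hA
  obtain ⟨g, hg⟩ : ∃ g : ℂ → ℂ, ∀ z, g z = c * (Φ z + (Φ z)⁻¹) - d := ⟨_, fun _ => rfl⟩
  have hc0 : (c : ℂ) ≠ 0 := ofReal_ne_zero.mpr hc.ne'
  have hsub : HP \ A ⊆ (dbl A p)ᶜ := by
    rw [diff_eq hA]
    exact inter_subset_right
  have hlim : Tendsto (fun z => z * (g z - z)) (cocompact ℂ) (𝓝 (c * c + e)) :=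
    ((h1.const_mul (c : ℂ)).add h2).congr fun z => by rw [hg]; ring
  have hsym : ∀ z, z ∉ dbl A p → g (conj z) = conj (g z) := fun z hz => by
    rw [hg, hg, hs z hz]
    simp only [map_sub, map_mul, map_add, map_inv₀, conj_ofReal]
  have hre := lim_real hlim ((ev_out hA).mono fun z hz => by
    rw [hsym z hz, map_mul, map_sub])
  have hinf := lim_zero hlim
  have hd : DifferentiableOn ℂ g (dbl A p)ᶜ := by
    rw [funext hg]
    exact ((hF.hf.add (hF.hf.inv fun z hz => (hF.mf hz).2)).const_mul _).sub_const _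
  have hinj : InjOn g (dbl A p)ᶜ := fun z hz z' hz' h => by
    rw [hg, hg, sub_left_inj, mul_right_inj' hc0] at h
    exact hF.inj hz hz' (jou_inj (hF.mf hz) (hF.mf hz') h)
  have hpos := im_pos hA (hd.continuousOn.mono hsub) (fun z hz => by
    rw [hg, sub_im, ofReal_im, sub_zero, im_ofReal_mul]
    refine mul_ne_zero hc.ne' (jou_ne (hF.mf (hsub hz)) fun h0 => ?_)
    have h3 : conj z = z := hF.inj (conj_dbl (hsub hz)) (hsub hz)
      ((hs z (hsub hz)).trans (conj_eq_iff_im.mpr h0))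
    exact absurd (conj_eq_iff_im.mp h3) (ne_of_gt hz.1)) hinf
  have him : g '' (HP \ A) = HP := by
    refine Subset.antisymm (image_subset_iff.mpr hpos) fun w hw => ?_
    have hw0 : 0 < w.im := hw
    obtain ⟨ζ, hζ, h3⟩ := jou_onto (v := (w + d) / c) (by
      rw [div_ofReal_im, add_im, ofReal_im, add_zero]
      exact (div_pos hw0 hc).ne')
    have h4 : Ψ ζ ∉ dbl A p := hF.mg hζ
    have h5 : g (Ψ ζ) = w := by
      rw [hg, hF.fg ζ hζ, h3, mul_div_cancel₀ _ hc0, add_sub_cancel_right]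
    have h6 := hsym _ h4
    refine ⟨Ψ ζ, ?_, h5⟩
    rw [diff_eq hA]
    refine ⟨?_, h4⟩
    rcases lt_trichotomy 0 (Ψ ζ).im with h7 | h7 | h7
    · exact h7
    · rw [conj_eq_iff_im.mpr h7.symm, h5] at h6
      exact absurd (conj_eq_iff_im.mp h6.symm) hw0.ne'
    · have h8 := hpos (conj (Ψ ζ)) (by
        rw [diff_eq hA]
        exact ⟨show 0 < (_ : ℂ).im by rw [conj_im]; linarith, conj_dbl h4⟩)
      rw [h6, h5, conj_im] at h8
      linarith
  have hcf := hv (HP \ A) g (by rw [diff_eq hA]; exact isOpen_HP.inter hF.oU) (hd.mono hsub)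
    (hinj.mono hsub)
  rw [him] at hcf
  refine ⟨g, _, (c * c + e).re, ⟨hA.sub, bdd hA, hcf, ?_, ?_⟩, fun x r _ hr =>
    ⟨hd.mono fun z hz => dbl_sub hA hr hz, fun z hz => hsym z (dbl_sub hA hr hz), hinf⟩⟩
  · obtain ⟨R, hR, h3⟩ := ev_big (hinf.eventually (ball_mem_nhds 0 one_pos))
    obtain ⟨ε, hε, h4⟩ := hlo R
    refine ⟨c * (1 + ε⁻¹) + |d| + R, fun z hz => ?_⟩
    rcases lt_or_ge R ‖z‖ with h5 | h5
    · have h6 : 0 ≤ c * (1 + ε⁻¹) + |d| := by positivity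
      have h7 := (mem_ball_zero_iff.mp (h3 z h5)).le
      linarith
    · rw [hg]
      exact norm_bd hc hε (h4 z (hsub hz) h5) (mem_ball_zero_iff.mp (hF.mf (hsub hz)).1).le h5
  · rw [← hre]
    exact hlim.mono_left inf_le_left

end Vale.Agent.P153.CA
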