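import Vale.Agent.P153.CA.Basic

/-! Uniform continuity of the inverse of the Riemann map of a Jordan domain. -/

open Set Filter Topology Metric Complex MeasureTheory
open scoped ComplexConjugate ENNReal Real

noncomputable section
namespace Vale.Agent.P153.CA

open Vale.Agent.P164 (Pth HP Zf fi)

theorem s_iequi (hc : S_loc) (h2 : S_t2d) (ht : S_jct) : S_iequi := by
  have _ := ht
  intro j f φ hj hf
  rw [Metric.uniformContinuousOn_iff]
  intro ε hε
  obtain ⟨d, d0, hd⟩ := Metric.isOpen_iff.1 hf.oV (f 0) (hf.mf (mem_ball_self one_pos))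
  have hne : j 0 ≠ j (1 / 2) := fun e => by
    have := hj.inj (by norm_num) (by norm_num) e
    norm_num at this
  have b0 : 0 < dist (j 0) (j (1 / 2)) := dist_pos.2 hne
  obtain ⟨r2, r0, ra, rb⟩ : ∃ r2 : ℝ, 0 < r2 ∧ r2 ≤ d / 2 ∧ r2 ≤ dist (j 0) (j (1 / 2)) / 2 :=
    ⟨min (d / 2) (dist (j 0) (j (1 / 2)) / 2), by positivity, min_le_left _ _, min_le_right _ _⟩
  obtain ⟨r1, s0, s1, s2⟩ : ∃ r1 : ℝ, 0 < r1 ∧ r1 < r2 ∧ 50 / √(Real.log (r2 / r1)) < ε := by
    refine ⟨r2 / Real.exp ((50 / ε + 1) ^ 2), by positivity,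
      div_lt_self r0 (Real.one_lt_exp_iff.2 (by positivity)), ?_⟩
    rw [div_div_cancel₀ r0.ne', Real.log_exp, Real.sqrt_sq (by positivity),
      div_lt_iff₀ (by positivity), mul_add, mul_div_cancel₀ _ hε.ne']
    linarith
  obtain ⟨ρ, ρ0, hρ⟩ := hc j hj r1 s0
  refine ⟨min ρ (min r1 (ε * r1 / 4)), by positivity, fun z hz z' hz' h => ?_⟩
  simp only [lt_min_iff] at h
  by_cases hJ : Disjoint (ball z r1) (range j)
  · have h3 := inside_of_preconn (convex_ball z r1).isPreconnected hJ (mem_ball_self s0) hz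
    have h4 := Complex.dist_le_div_mul_dist_of_mapsTo_ball (R₂ := 2) (hf.hg.mono h3)
      (fun w hw => by
        have a1 := mem_ball_zero_iff.1 (hf.mg (h3 hw))
        have a2 := mem_ball_zero_iff.1 (hf.mg hz)
        rw [mem_closedBall, dist_eq_norm]
        linarith [norm_sub_le (φ w) (φ z)]) (mem_ball'.2 h.2.1)
    rw [dist_comm] at h4
    refine h4.trans_lt ?_
    rw [dist_comm, div_mul_eq_mul_div, div_lt_iff₀ s0]
    nlinarith [h.2.2, mul_pos hε s0]
  obtain ⟨w, w1, w2⟩ := not_disjoint_iff.1 hJ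
  obtain ⟨γ, hγ⟩ := hρ z hz z' hz' (by rw [← dist_eq_norm]; exact h.1.le)
  have far : ∃ v ∈ range j, r2 ≤ dist v z := by
    by_contra hn
    push Not at hn
    have a1 := hn _ ⟨0, rfl⟩
    have a2 := hn _ ⟨1 / 2, rfl⟩
    linarith [dist_triangle_right (j 0) (j (1 / 2)) z]
  obtain ⟨v, v1, v2⟩ := far
  have hw : d ≤ dist w (f 0) := not_lt.1 fun a => (hd a).1 w2
  rw [dist_eq_norm]
  refine (h2 _ (range γ) φ f z r1 r2 hf.symm s0 s1 ?_ ?_ (isPreconnected_range γ.continuous)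
    (fun t ht hs => ?_) z γ.source_mem_range z' γ.target_mem_range).trans_lt s2
  · rw [← dist_eq_norm]
    linarith [dist_triangle_right w (f 0) z, mem_ball.1 w1, dist_triangle w z (f 0),
      dist_comm z (f 0)]
  · rintro _ ⟨t, rfl⟩
    exact ⟨(hγ t).1, ball_subset_closedBall (hγ t).2⟩
  · obtain ⟨u, u1, u2⟩ := hj.toLoop.isPreconnected.intermediate_value w2 v1
      (f := fun u => dist u z) (by fun_prop) ⟨((mem_ball.1 w1).trans ht.1).le, ht.2.le.trans v2⟩
    exact (hs (mem_sphere.2 u2)).1 u1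

end Vale.Agent.P153.CA
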