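import Vale.Agent.P153.CA.Basic

/-! Monotonicity, composition and uniqueness of the normalised maps. -/

open Set Filter Topology Metric Complex MeasureTheory
open scoped ComplexConjugate ENNReal Real

noncomputable section
namespace Vale.Agent.P153.CA

open Vale.Agent.P164 (Pth HP Zf fi)

namespace Imle

theorem inHP : ∀ᶠ z in cocompact ℂ ⊓ 𝓟 HP, z ∈ HP := mem_inf_of_right (mem_principal_self _)

theorem far {A : Set ℂ} (hA : Bornology.IsBounded A) :
    ∀ᶠ z in cocompact ℂ ⊓ 𝓟 HP, z ∈ HP \ A := by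
  have h1 : Aᶜ ∈ cocompact ℂ := by
    rw [← Metric.cobounded_eq_cocompact]
    exact Bornology.isBounded_def.1 hA
  filter_upwards [inHP, mem_inf_of_left h1] with z h2 h3 using ⟨h2, h3⟩

theorem move {k : ℂ → ℂ} {C : ℝ} (h : ∀ᶠ z in cocompact ℂ ⊓ 𝓟 HP, k z ∈ HP ∧ ‖k z - z‖ ≤ C) :
    Tendsto k (cocompact ℂ ⊓ 𝓟 HP) (cocompact ℂ ⊓ 𝓟 HP) := by
  refine tendsto_inf.2 ⟨?_, tendsto_principal.2 (h.mono fun z hz => hz.1)⟩
  have h1 : Tendsto (fun z : ℂ => ‖z‖ + -C) (cocompact ℂ ⊓ 𝓟 HP) atTop :=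
    tendsto_atTop_add_const_right _ _ (tendsto_norm_cocompact_atTop.mono_left inf_le_left)
  have h2 : Tendsto (fun z => ‖k z‖) (cocompact ℂ ⊓ 𝓟 HP) atTop :=
    tendsto_atTop_mono' _ (h.mono fun z hz => by
      have := norm_sub_norm_le z (k z)
      rw [norm_sub_rev] at this
      show ‖z‖ + -C ≤ ‖k z‖
      linarith [hz.2]) h1
  conv => arg 3; rw [← Metric.cobounded_eq_cocompact]
  exact tendsto_norm_atTop_iff_cobounded.1 h2

theorem inv0 : Tendsto (fun z : ℂ => z⁻¹) (cocompact ℂ ⊓ 𝓟 HP) (𝓝 0) := by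
  refine Tendsto.mono_left ?_ inf_le_left
  rw [← Metric.cobounded_eq_cocompact]
  exact tendsto_inv₀_cobounded

theorem ne0 {z : ℂ} (hz : z ∈ HP) : z ≠ 0 := by
  rintro rfl
  exact lt_irrefl (0 : ℝ) hz

variable {A : Set ℂ} {g f : ℂ → ℂ} {a : ℝ}

theorem tf (h : Hyd A g f a) : Tendsto f (cocompact ℂ ⊓ 𝓟 HP) (cocompact ℂ ⊓ 𝓟 HP) := by
  obtain ⟨C, hC⟩ := h.bd
  refine move (C := C) (inHP.mono fun w hw => ⟨(h.cf.mg hw).1, ?_⟩)
  have := hC _ (h.cf.mg hw)
  rwa [h.cf.fg w hw, norm_sub_rev] at this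

theorem g0 (h : Hyd A g f a) : Tendsto (fun z => g z - z) (cocompact ℂ ⊓ 𝓟 HP) (𝓝 0) := by
  have := h.cap.mul inv0
  rw [mul_zero] at this
  refine this.congr' (inHP.mono fun z hz => ?_)
  have := ne0 hz
  field_simp

theorem f0 (h : Hyd A g f a) : Tendsto (fun w => w - f w) (cocompact ℂ ⊓ 𝓟 HP) (𝓝 0) :=
  ((g0 h).comp (tf h)).congr' (inHP.mono fun w hw => by
    simp only [Function.comp_apply, h.cf.fg w hw])

theorem f1 (h : Hyd A g f a) : Tendsto (fun w => w / f w) (cocompact ℂ ⊓ 𝓟 HP) (𝓝 1) := by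
  have := ((f0 h).mul (inv0.comp (tf h))).const_add 1
  rw [mul_zero, add_zero] at this
  refine this.congr' (inHP.mono fun w hw => ?_)
  have := ne0 (h.cf.mg hw).1
  simp only [Function.comp_apply]
  field_simp
  ring

theorem nrm (u : ℂ) : ‖exp (-I * u)‖ = Real.exp u.im := by
  rw [norm_exp]
  simp

instance neBot : (cocompact ℂ ⊓ 𝓟 HP).NeBot := by
  rw [← Metric.cobounded_eq_cocompact, inf_principal_neBot_iff]
  intro U hU
  obtain ⟨R, hR⟩ := (Bornology.isBounded_compl_iff.2 hU).subset_closedBall 0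
  refine ⟨(|R| + 1 : ℝ) * I, ?_, ?_⟩
  · by_contra hc
    have := hR hc
    rw [mem_closedBall, dist_zero_right, norm_mul, norm_I, mul_one, norm_real,
      Real.norm_of_nonneg (by positivity)] at this
    linarith [le_abs_self R]
  · show 0 < (((|R| + 1 : ℝ) : ℂ) * I).im
    rw [mul_I_im, ofReal_re]
    positivity

theorem ident {m m' : ℂ → ℂ} {b : ℝ} (h : Hyd ∅ m m' b) (h1 : ∀ w ∈ HP, (m w).im = w.im) :
    b = 0 ∧ ∀ w ∈ HP, m w = w := by
  have hd : DifferentiableOn ℂ (fun w => m w - w) HP := by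
    have := h.cf.hf
    rw [diff_empty] at this
    exact this.sub differentiableOn_id
  obtain ⟨c, hc⟩ := (hd.analyticOnNhd isOpen_HP).eq_const_of_im_eq_const (c₀ := 0)
    (fun w hw => by rw [sub_im, h1 w hw, sub_self]) isOpen_HP
    (convex_HP.isConnected ⟨I, by show 0 < I.im; simp⟩)
  have h2 : c = 0 := tendsto_nhds_unique (tendsto_const_nhds.congr'
    (inHP.mono fun w hw => (hc w hw).symm)) (g0 h)
  subst h2
  refine ⟨?_, fun w hw => sub_eq_zero.1 (hc w hw)⟩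
  exact ofReal_eq_zero.1 (tendsto_nhds_unique h.cap (tendsto_const_nhds.congr'
    (inHP.mono fun w hw => by simp only [hc w hw, mul_zero])))

end Imle

open Imle

theorem s_imle (hm : S_max) : S_imle := by
  intro A g f a h z hz
  have hd : DifferentiableOn ℂ (fun w => exp (-I * (w - f w))) HP :=
    ((differentiableOn_id.sub h.cf.hg).const_mul _).cexp
  have := hm HP _ 1 isOpen_HP hd (fun ζ hζ ε hε => ?_) (fun ε hε => ?_) (g z) (h.cf.mf hz)
  · rw [nrm, h.cf.gf z hz, Real.exp_le_one_iff, sub_im] at this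
    linarith
  · rw [frontier_HP] at hζ
    have h1 : Tendsto (fun w : ℂ => Real.exp w.im) (𝓝 ζ) (𝓝 1) := by
      have := (Real.continuous_exp.comp continuous_im).tendsto ζ
      rwa [Function.comp_apply, show ζ.im = 0 from hζ, Real.exp_zero] at this
    filter_upwards [self_mem_nhdsWithin, mem_nhdsWithin_of_mem_nhds
      (h1.eventually (gt_mem_nhds (lt_add_of_pos_right 1 hε)))] with w hw h2
    rw [nrm, sub_im]
    have h3 : 0 < (f w).im := (h.cf.mg hw).1
    exact (Real.exp_le_exp.2 (by linarith)).trans h2.le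
  · have h1 := (((f0 h).const_mul (-I)).cexp).norm
    rw [mul_zero, exp_zero, norm_one] at h1
    exact (h1.eventually (gt_mem_nhds (lt_add_of_pos_right 1 hε))).mono fun w hw => hw.le

theorem s_hcomp : S_hcomp := by
  intro A A' g f g' f' a a' h h' hA
  have s1 : A' \ A ⊆ HP \ A := diff_subset_diff_left h'.sub
  have s2 : HP \ A' ⊆ HP \ A := diff_subset_diff_right hA
  have e : HP \ g '' (A' \ A) = g '' (HP \ A') := by
    ext w
    constructor
    · rintro ⟨h1, h2⟩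
      refine ⟨f w, ⟨(h.cf.mg h1).1, fun h3 => h2 ⟨f w, ⟨h3, (h.cf.mg h1).2⟩, h.cf.fg w h1⟩⟩,
        h.cf.fg w h1⟩
    · rintro ⟨z, hz, rfl⟩
      refine ⟨h.cf.mf (s2 hz), ?_⟩
      rintro ⟨u, hu, e⟩
      exact hz.2 (h.cf.inj (s1 hu) (s2 hz) e ▸ hu.1)
  obtain ⟨C, hC⟩ := h.bd
  obtain ⟨C', hC'⟩ := h'.bd
  refine ⟨image_subset_iff.2 fun z hz => h.cf.mf (s1 hz), ?_,
    e ▸ (h.cf.restrict h'.cf.oU s2).symm.trans h'.cf, ⟨C' + C, ?_⟩, ?_⟩
  · obtain ⟨R, hR⟩ := h'.bA.subset_closedBall 0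
    refine (isBounded_closedBall (x := (0 : ℂ)) (r := R + C)).subset ?_
    rintro _ ⟨z, hz, rfl⟩
    have h1 := hR hz.1
    have h2 := hC z (s1 hz)
    have h3 := norm_sub_norm_le (g z) z
    rw [mem_closedBall, dist_zero_right] at h1 ⊢
    linarith
  · rw [e]
    rintro _ ⟨z, hz, rfl⟩
    rw [h.cf.gf z (s2 hz), show g' z - g z = (g' z - z) - (g z - z) by ring]
    exact (norm_sub_le _ _).trans (add_le_add (hC' z hz) (hC z (s2 hz)))
  · have := (f1 h).mul ((h'.cap.sub h.cap).comp (tf h))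
    rw [one_mul, ← ofReal_sub] at this
    refine this.congr' (inHP.mono fun w hw => ?_)
    have := ne0 (h.cf.mg hw).1
    simp only [Function.comp_apply, h.cf.fg w hw]
    field_simp
    ring

theorem s_huniq (hi : S_imle) (hc : S_hcomp) : S_huniq := by
  intro A g f g' f' a a' h h'
  have k1 := hc A A g f g' f' a a' h h' Subset.rfl
  have k2 := hc A A g' f' g f a' a h' h Subset.rfl
  rw [diff_self, image_empty] at k1 k2
  obtain ⟨e1, e2⟩ := ident k1 fun w hw => by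
    have w1 : w ∈ HP \ ∅ := ⟨hw, notMem_empty w⟩
    have h1 := hi _ _ _ _ k2 (g' (f w)) ⟨k1.cf.mf w1, notMem_empty _⟩
    rw [k1.cf.gf w w1] at h1
    exact le_antisymm (hi _ _ _ _ k1 w w1) h1
  refine ⟨by linarith, fun z hz => ?_, fun w hw => ?_⟩
  · have := e2 (g z) (h.cf.mf hz)
    rw [h.cf.gf z hz] at this
    exact this.symm
  · rw [← h'.cf.gf _ (h.cf.mg hw), e2 w hw]

end Vale.Agent.P153.CA
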