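import Vale.Agent.P153.CA.Basic

/-! An injective holomorphic map is conformal onto its image. -/

open Set Filter Topology Metric Complex MeasureTheory
open scoped ComplexConjugate ENNReal Real

noncomputable section
namespace Vale.Agent.P153.CA

open Vale.Agent.P164 (Pth HP Zf fi)

namespace Inv

theorem not_const {G : Set ℂ} {f : ℂ → ℂ} (hG : IsOpen G) (hi : InjOn f G) {z : ℂ} (hz : z ∈ G) :
    ¬ ∀ᶠ w in 𝓝 z, f w = f z := by
  intro h
  have h1 : ∀ᶠ w in 𝓝[≠] z, False := by
    filter_upwards [nhdsWithin_le_nhds h, nhdsWithin_le_nhds (hG.mem_nhds hz),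
      self_mem_nhdsWithin] with w h1 h2 h3 using h3 (hi h2 hz h1)
  exact h1.exists.elim fun _ h => h

theorem open_im {G : Set ℂ} {f : ℂ → ℂ} (hG : IsOpen G) (hf : DifferentiableOn ℂ f G)
    (hi : InjOn f G) {U : Set ℂ} (hU : IsOpen U) (hUG : U ⊆ G) : IsOpen (f '' U) := by
  rw [isOpen_iff_mem_nhds]
  rintro _ ⟨z, hz, rfl⟩
  have ha : AnalyticAt ℂ f z := hf.analyticAt (hG.mem_nhds (hUG hz))
  rcases ha.eventually_constant_or_nhds_le_map_nhds with h | h
  · exact absurd h (not_const hG hi (hUG hz))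
  · exact h (image_mem_map (hU.mem_nhds hz))

theorem inv_cont {G : Set ℂ} {f : ℂ → ℂ} (hG : IsOpen G) (hf : DifferentiableOn ℂ f G)
    (hi : InjOn f G) {w : ℂ} (hw : w ∈ f '' G) : ContinuousAt (Function.invFunOn f G) w := by
  obtain ⟨z, hz, rfl⟩ := hw
  rw [ContinuousAt, hi.leftInvOn_invFunOn hz, (nhds_basis_opens z).tendsto_right_iff]
  rintro N ⟨hzN, hN⟩
  filter_upwards [(open_im hG hf hi (hN.inter hG) inter_subset_right).mem_nhds
    ⟨z, ⟨hzN, hz⟩, rfl⟩]
  rintro _ ⟨y, hy, rfl⟩
  rw [hi.leftInvOn_invFunOn hy.2]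
  exact hy.1

theorem der_ne {G : Set ℂ} {f : ℂ → ℂ} (hG : IsOpen G) (hf : DifferentiableOn ℂ f G)
    (hi : InjOn f G) {z : ℂ} (hz : z ∈ G) : ∀ᶠ w in 𝓝[≠] z, deriv f w ≠ 0 := by
  have ha : AnalyticAt ℂ f z := hf.analyticAt (hG.mem_nhds hz)
  rcases ha.deriv.eventually_eq_zero_or_eventually_ne_zero with h | h
  · exfalso
    obtain ⟨r, hr, hb⟩ := Metric.mem_nhds_iff.1 (h.and (hG.mem_nhds hz))
    refine not_const hG hi hz ?_
    filter_upwards [ball_mem_nhds z hr] with w hw
    exact isOpen_ball.is_const_of_deriv_eq_zero (convex_ball z r).isPreconnected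
      (hf.mono fun y hy => (hb hy).2) (fun y hy => (hb hy).1) hw (mem_ball_self hr)
  · exact h

theorem inv_diff {G : Set ℂ} {f : ℂ → ℂ} (hG : IsOpen G) (hf : DifferentiableOn ℂ f G)
    (hi : InjOn f G) {w : ℂ} (hw : w ∈ f '' G) :
    DifferentiableAt ℂ (Function.invFunOn f G) w := by
  have hV : IsOpen (f '' G) := open_im hG hf hi hG subset_rfl
  have hc := inv_cont hG hf hi hw
  refine (analyticAt_of_differentiable_on_punctured_nhds_of_continuousAt ?_ hc).differentiableAt
  have hz : Function.invFunOn f G w ∈ G := Function.invFunOn_mem hw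
  have h1 := der_ne hG hf hi hz
  rw [eventually_nhdsWithin_iff] at h1
  filter_upwards [nhdsWithin_le_nhds (hc.eventually h1), nhdsWithin_le_nhds (hV.mem_nhds hw),
    self_mem_nhdsWithin] with v h2 hv hne
  have hy : Function.invFunOn f G v ∈ G := Function.invFunOn_mem hv
  have hd : deriv f (Function.invFunOn f G v) ≠ 0 := by
    refine h2 fun e => hne ?_
    have e' : Function.invFunOn f G v = Function.invFunOn f G w := e
    have := congrArg f e'
    rwa [Function.invFunOn_eq hv, Function.invFunOn_eq hw] at this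
  refine (HasDerivAt.of_local_left_inverse (inv_cont hG hf hi hv)
    (hf.differentiableAt (hG.mem_nhds hy)).hasDerivAt hd ?_).differentiableAt
  filter_upwards [hV.mem_nhds hv] with u hu using Function.invFunOn_eq hu

end Inv

theorem s_inv : S_inv := fun _ _ hU hf hi =>
  { oU := hU
    oV := Inv.open_im hU hf hi hU subset_rfl
    hf := hf
    hg := fun _ hw => (Inv.inv_diff hU hf hi hw).differentiableWithinAt
    mf := fun _ hz => mem_image_of_mem _ hz
    mg := fun _ hw => Function.invFunOn_mem hw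
    gf := fun _ hz => hi.leftInvOn_invFunOn hz
    fg := fun _ hw => Function.invFunOn_eq hw }

end Vale.Agent.P153.CA
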