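import Vale.Agent.P153.CA.Basic

/-! Janiszewski's theorem. -/

open Set Filter Topology Metric Complex MeasureTheory
open scoped ComplexConjugate ENNReal Real

noncomputable section
namespace Vale.Agent.P153.CA

open Vale.Agent.P164 (Pth HP Zf fi)

namespace Jan

theorem glue {f : ℂ → ℂ} {A B : Set ℂ} (hA : IsClosed A) (hB : IsClosed B)
    (hc : IsPreconnected (A ∩ B)) (h : HasLog f A) (h' : HasLog f B) : HasLog f (A ∪ B) := by
  classical
  obtain ⟨l, h1, h2⟩ := h
  obtain ⟨l', h1', h2'⟩ := h'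
  obtain ⟨c, hc1, hc2⟩ : ∃ c : ℂ, exp c = 1 ∧ ∀ z ∈ A ∩ B, l z - c = l' z := by
    rcases (A ∩ B).eq_empty_or_nonempty with e | ⟨x, hx⟩
    · exact ⟨0, exp_zero, fun z hz => by rw [e] at hz; exact hz.elim⟩
    · have e : ∀ z ∈ A ∩ B, exp (l z) = exp (l' z) := fun z hz => by rw [h2 z hz.1, h2' z hz.2]
      refine ⟨l x - l' x, by rw [exp_sub, e x hx, div_self (exp_ne_zero _)], fun z hz => ?_⟩
      rw [log_const hc (h1.mono inter_subset_left) (h1'.mono inter_subset_right) e hx hz]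
      ring
  refine ⟨fun z => if z ∈ A then l z - c else l' z, ?_, fun z hz => ?_⟩
  · refine ContinuousOn.union_of_isClosed ?_ ?_ hA hB
    · exact (h1.sub continuousOn_const).congr fun z hz => if_pos hz
    · refine h1'.congr fun z hz => ?_
      by_cases hzA : z ∈ A
      · simp only [if_pos hzA]; exact hc2 z ⟨hzA, hz⟩
      · simp only [if_neg hzA]
  · by_cases hzA : z ∈ A
    · simp only [if_pos hzA]
      rw [exp_sub, hc1, div_one, h2 z hzA]
    · simp only [if_neg hzA]
      exact h2' z (hz.resolve_left hzA)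

end Jan

theorem s_jan (hd : S_bdir) (h2 : S_bc2) : S_jan := by
  intro A B p q hA hB hc ⟨α, hα⟩ ⟨β, hβ⟩
  obtain ⟨R, hR⟩ := (hA.union (isCompact_range β.continuous)).isBounded.subset_ball 0
  set B' : Set ℂ := B ∪ (ball 0 R)ᶜ with hB'
  have c' : IsClosed B' := hB.union isOpen_ball.isClosed_compl
  have e : A ∩ B' = A ∩ B := by
    ext z
    exact ⟨fun h => ⟨h.1, h.2.resolve_right fun h' => h' (hR (Or.inl h.1))⟩,
      fun h => ⟨h.1, Or.inl h.2⟩⟩
  have hβ' : ∀ t, β t ∉ B' := fun t h => h.elim (hβ t) fun h' => h' (hR (Or.inr ⟨t, rfl⟩))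
  have lA := hd.1 A (range α) p q hA.isClosed (isPreconnected_range α.continuous)
    (disjoint_left.2 (by rintro _ ⟨t, rfl⟩; exact hα t)) ⟨0, α.source⟩ ⟨1, α.target⟩
  have lB := hd.1 B' (range β) p q c' (isPreconnected_range β.continuous)
    (disjoint_left.2 (by rintro _ ⟨t, rfl⟩; exact hβ' t)) ⟨0, β.source⟩ ⟨1, β.target⟩
  refine (h2 (A ∪ B') p q (hA.isClosed.union c') (Or.inr (isBounded_ball.subset (s := _)
    (t := ball (0 : ℂ) R) fun z hz => by_contra fun h => hz (Or.inr (Or.inr h)))) ?_ ?_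
    (Jan.glue hA.isClosed c' (e ▸ hc) lA lB)).mono
    (compl_subset_compl.2 (union_subset_union_right _ subset_union_left))
  · rintro (h | h)
    · exact hα 0 (α.source.symm ▸ h)
    · exact hβ' 0 (β.source.symm ▸ h)
  · rintro (h | h)
    · exact hα 1 (α.target.symm ▸ h)
    · exact hβ' 1 (β.target.symm ▸ h)

end Vale.Agent.P153.CA
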