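import Vale.Agent.P153.CA.Basic

/-! The Jordan curve theorem. -/

open Set Filter Topology Metric Complex MeasureTheory
open scoped ComplexConjugate ENNReal Real

noncomputable section
namespace Vale.Agent.P153.CA

namespace Jct

theorem per_log {j L : ℝ → ℂ} (hj : JLoop j) (hL : Continuous L) (hp : ∀ t, L (t + 1) = L t)
    {F : ℂ → ℂ} (h : ∀ t, exp (L t) = F (j t)) : HasLog F (range j) := by
  obtain ⟨l, h1, h2⟩ := descend (K := Icc 0 (0 + 1)) isCompact_Icc hj.cont.continuousOn
    hL.continuousOn fun s _ t _ e => by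
      obtain ⟨k, rfl⟩ := hj.eq_iff e
      simpa using (Function.Periodic.int_mul (f := L) (c := 1) hp k) t
  rw [hj.toLoop.range_Icc 0]
  refine ⟨l, h1, ?_⟩
  rintro _ ⟨t, ht, rfl⟩
  rw [h2 t ht, h]

theorem deg {j : ℝ → ℂ} (hj : Loop j) {a : ℂ} (ha : a ∉ range j) : ∃ (L : ℝ → ℂ) (n : ℤ),
    Continuous L ∧ (∀ t, exp (L t) = j t - a) ∧ ∀ t, L (t + 1) = L t + n * (2 * π * I) := by
  obtain ⟨L, h1, h2⟩ := lift_real (g := fun t => j t - a) (hj.cont.sub continuous_const)
    fun t h => ha ⟨t, sub_eq_zero.1 h⟩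
  have e : ∀ t, exp (L (t + 1)) = exp (L t) := fun t => by rw [h2, h2, hj.per t]
  obtain ⟨n, hn⟩ := exp_eq_exp_iff_exists_int.1 (e 0)
  refine ⟨L, n, h1, h2, fun t => ?_⟩
  have := log_const (l := fun t => L (t + 1)) (l' := L) isPreconnected_univ
    (h1.comp (continuous_add_const 1)).continuousOn h1.continuousOn (fun t _ => e t)
    (mem_univ t) (mem_univ 0)
  linear_combination this + hn

theorem isOpen_comp {J : Set ℂ} (hJ : IsClosed J) (a : ℂ) : IsOpen (connectedComponentIn Jᶜ a) :=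
  hJ.isOpen_compl.connectedComponentIn

theorem no_log (hc : S_bconv) {J : Set ℂ} (hJ : IsClosed J) {a : ℂ} (ha : a ∈ inside J) :
    ¬ HasLog (fun z => z - a) (frontier (connectedComponentIn Jᶜ a)) := fun h =>
  one_ne_zero (hc _ a 1 (fun _ => 1) (isOpen_comp hJ a) ha.2 (mem_connectedComponentIn ha.1)
    continuousOn_const (fun _ _ => one_ne_zero) (h.congr fun z _ => by simp))

theorem same (hc : S_bconv) {j : ℝ → ℂ} (hj : JLoop j) {p q : ℂ} (hp : p ∈ inside (range j))
    (hq : q ∈ inside (range j)) : q ∈ connectedComponentIn (range j)ᶜ p := by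
  have hJ := hj.toLoop.isCompact.isClosed
  obtain ⟨Lp, np, a1, a2, a3⟩ := deg hj.toLoop hp.1
  obtain ⟨Lq, nq, b1, b2, b3⟩ := deg hj.toLoop hq.1
  by_contra h
  have h0 : nq ≠ 0 := by
    rintro rfl
    exact no_log hc hJ hq ((per_log hj b1 (by simpa using b3) b2).mono (frontier_comp hJ q))
  have h1 : ∀ z ∈ closure (connectedComponentIn (range j)ᶜ p), z - q ≠ 0 := by
    intro z hz e
    rw [sub_eq_zero.1 e, closure_eq_self_union_frontier] at hz
    exact hz.elim h fun h2 => hq.1 (frontier_comp hJ p h2)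
  refine h0 (hc _ p nq (fun z => (z - q) ^ np) (isOpen_comp hJ p) hp.2
    (mem_connectedComponentIn hp.1)
    ((continuousOn_id.sub continuousOn_const).zpow₀ _ fun z hz => Or.inl (h1 z hz))
    (fun z hz => zpow_ne_zero _ (h1 z hz)) (HasLog.mono ?_ (frontier_comp hJ p)))
  refine per_log (L := fun t => nq * Lp t - np * Lq t) hj (by fun_prop)
    (fun t => by rw [a3, b3]; ring) fun t => ?_
  rw [exp_sub, exp_int_mul, exp_int_mul, a2, b2]

theorem eq_comp (hc : S_bconv) {j : ℝ → ℂ} (hj : JLoop j) {p : ℂ} (hp : p ∈ inside (range j)) :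
    inside (range j) = connectedComponentIn (range j)ᶜ p :=
  Subset.antisymm (fun _ hq => same hc hj hp hq)
    (inside_of_preconn isPreconnected_connectedComponentIn
      (disjoint_left.2 fun _ h => connectedComponentIn_subset _ _ h)
      (mem_connectedComponentIn hp.1) hp)

theorem full {J : Set ℂ} (hJ : IsCompact J) (hc : IsPreconnected J) : Full (inside J) := by
  intro w hw
  have key : ∀ v, v ∉ J → v ∉ inside J → Disjoint (connectedComponentIn Jᶜ v) (inside J) ∧
      ¬ Bornology.IsBounded (connectedComponentIn Jᶜ v) := fun v h1 h2 =>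
    ⟨disjoint_left.2 fun z h3 h4 => h2 ⟨h1, connectedComponentIn_eq h3 ▸ h4.2⟩,
      fun h => h2 ⟨h1, h⟩⟩
  by_cases h : w ∈ J
  swap
  · exact ⟨_, isPreconnected_connectedComponentIn, mem_connectedComponentIn h, key w h hw⟩
  obtain ⟨r, hr⟩ := hJ.isBounded.subset_closedBall 0
  obtain ⟨v, hv⟩ := (isPathConnected_ext 0 r).nonempty
  have hv' : r < ‖v‖ := by simpa using hv
  have h1 : v ∉ J := fun h => hv'.not_ge (by simpa using hr h)
  have h2 : v ∉ inside J := fun h => hv'.not_ge (by simpa using inside_subset hr h)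
  obtain ⟨h3, h4⟩ := key v h1 h2
  have hne : (frontier (connectedComponentIn Jᶜ v)).Nonempty := by
    rw [nonempty_frontier_iff]
    exact ⟨⟨v, mem_connectedComponentIn h1⟩, fun e =>
      connectedComponentIn_subset Jᶜ v (e ▸ mem_univ w) h⟩
  obtain ⟨x, hx⟩ := hne
  refine ⟨J ∪ closure (connectedComponentIn Jᶜ v),
    hc.union x (frontier_comp hJ.isClosed v hx) (frontier_subset_closure hx)
      isPreconnected_connectedComponentIn.closure, Or.inl h, ?_,
    fun hb => h4 (hb.subset (subset_closure.trans subset_union_right))⟩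
  refine disjoint_left.2 fun z hz hi => hz.elim hi.1 fun h5 => ?_
  rw [closure_eq_self_union_frontier] at h5
  exact h5.elim (fun h6 => disjoint_left.1 h3 h6 hi) fun h6 => hi.1 (frontier_comp hJ.isClosed v h6)

theorem front (hc : S_bconv) {j : ℝ → ℂ} (hj : JLoop j) {a : ℂ} (ha : a ∈ inside (range j))
    (t : ℝ) : j t ∈ closure (connectedComponentIn (range j)ᶜ a) := by
  have hJ := hj.toLoop.isCompact.isClosed
  by_contra h
  have h1 : ∀ᶠ s in 𝓝 t, j s ∉ closure (connectedComponentIn (range j)ᶜ a) :=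
    hj.cont.continuousAt.eventually (isClosed_closure.isOpen_compl.mem_nhds h)
  obtain ⟨e, he, h2⟩ := Metric.eventually_nhds_iff.1 h1
  obtain ⟨L, n, a1, a2, -⟩ := deg hj.toLoop ha.1
  obtain ⟨l, h3, h4⟩ := descend (K := Icc (t + e / 2) (t + 1 - e / 2)) isCompact_Icc
    hj.cont.continuousOn a1.continuousOn fun s hs u hu e1 => by
      obtain ⟨k, rfl⟩ := hj.eq_iff e1
      have b1 : (k : ℝ) < 1 := by linarith [hs.2, hu.1]
      have b2 : (-1 : ℝ) < k := by linarith [hs.1, hu.2]
      have b3 : k < 1 := by exact_mod_cast b1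
      have b4 : -1 < k := by exact_mod_cast b2
      obtain rfl : k = 0 := by omega
      simp
  refine no_log hc hJ ha (HasLog.mono (A := j '' Icc (t + e / 2) (t + 1 - e / 2)) ⟨l, h3, ?_⟩ ?_)
  · rintro _ ⟨s, hs, rfl⟩
    rw [h4 s hs, a2]
  · intro z hz
    have h5 := frontier_comp hJ a hz
    rw [hj.toLoop.range_Icc (t - e / 2)] at h5
    obtain ⟨s, hs, rfl⟩ := h5
    refine ⟨s, ⟨?_, by linarith [hs.2]⟩, rfl⟩
    by_contra h6
    refine h2 (y := s) ?_ (frontier_subset_closure hz)
    rw [Real.dist_eq, abs_lt]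
    constructor <;> linarith [hs.1, not_le.1 h6]

end Jct

theorem s_jct (hc : S_bconv) : S_jct := by
  intro j hj
  have hK := hj.toLoop.isCompact
  obtain ⟨r, hr⟩ := hK.isBounded.subset_closedBall 0
  have hb := isBounded_closedBall.subset (inside_subset hr)
  have hf := Jct.full hK hj.toLoop.isPreconnected
  rcases (inside (range j)).eq_empty_or_nonempty with h | ⟨a, ha⟩
  · exact ⟨h ▸ isOpen_empty, hb, h ▸ isPreconnected_empty, hf, fun h1 => (h1.ne_empty h).elim⟩
  have e := Jct.eq_comp hc hj ha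
  have ho : IsOpen (inside (range j)) := e ▸ Jct.isOpen_comp hK.isClosed a
  refine ⟨ho, hb, e ▸ isPreconnected_connectedComponentIn, hf, fun _ => Subset.antisymm ?_ ?_⟩
  · rw [e]; exact frontier_comp hK.isClosed a
  · rintro _ ⟨t, rfl⟩
    rw [ho.frontier_eq]
    exact ⟨by rw [e]; exact Jct.front hc hj ha t, fun h => h.1 ⟨t, rfl⟩⟩

end Vale.Agent.P153.CA
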