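import Vale.Agent.P153.CA.Basic

/-! The length-area argument. -/

open Set Filter Topology Metric Complex MeasureTheory
open scoped ComplexConjugate ENNReal Real

noncomputable section
namespace Vale.Agent.P153.CA

open Vale.Agent.P164 (Pth HP Zf fi)

namespace La

theorem det_hol (c : ℂ) :
    |((ContinuousLinearMap.toSpanSingleton ℂ c).restrictScalars ℝ).det| = ‖c‖ ^ 2 := by
  rw [ContinuousLinearMap.det, ← LinearMap.det_toMatrix basisOneI, Matrix.det_fin_two]
  simp only [LinearMap.toMatrix_apply, coe_basisOneI, coe_basisOneI_repr]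
  simp only [Complex.sq_norm, normSq_apply]
  simp [abs_of_nonneg (add_nonneg (mul_self_nonneg c.re) (mul_self_nonneg c.im))]

theorem area {U : Set ℂ} {g : ℂ → ℂ} (hU : IsOpen U) (hg : DifferentiableOn ℂ g U)
    (hi : InjOn g U) : ∫⁻ w in U, ENNReal.ofReal (‖deriv g w‖ ^ 2) = volume (g '' U) := by
  simpa only [det_hol] using lintegral_abs_det_fderiv_eq_addHaar_image volume hU.measurableSet
    (fun z hz => ((hg.differentiableAt (hU.mem_nhds hz)).hasDerivAt.hasFDerivAt.restrictScalars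
      ℝ).hasFDerivWithinAt) hi

theorem polar {F : ℂ → ℝ≥0∞} (hF : Measurable F) (p : ℂ) {r1 r2 : ℝ} (h : 0 < r1) :
    ∫⁻ ρ in Ioo r1 r2, ∫⁻ θ in Ioo (-π) π, F (circleMap p ρ θ) * ENNReal.ofReal ρ ≤
      ∫⁻ w in ball p r2, F w := by
  have hcm : ∀ q : ℝ × ℝ, p + Complex.polarCoord.symm q = circleMap p q.1 q.2 := fun q => by
    rw [Complex.polarCoord_symm_apply, circleMap, exp_mul_I, ofReal_cos, ofReal_sin]
  have hc : Continuous fun q : ℝ × ℝ => circleMap p q.1 q.2 := by
    unfold circleMap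
    fun_prop
  have hm : Measurable fun q : ℝ × ℝ => F (circleMap p q.1 q.2) * ENNReal.ofReal q.1 :=
    (hF.comp hc.measurable).mul (ENNReal.measurable_ofReal.comp measurable_fst)
  rw [← lintegral_indicator measurableSet_ball, ← lintegral_add_left_eq_self _ p,
    ← Complex.lintegral_comp_polarCoord_symm, polarCoord_target,
    ← lintegral_prod _ hm.aemeasurable, Measure.prod_restrict, ← Measure.volume_eq_prod,
    ← lintegral_indicator (measurableSet_Ioi.prod measurableSet_Ioo),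
    ← lintegral_indicator (measurableSet_Ioo.prod measurableSet_Ioo)]
  refine lintegral_mono fun q => ?_
  by_cases h3 : q ∈ Ioo r1 r2 ×ˢ Ioo (-π) π
  · have h0 : 0 < q.1 := h.trans h3.1.1
    rw [indicator_of_mem h3, indicator_of_mem (show q ∈ Ioi (0 : ℝ) ×ˢ Ioo (-π) π from
      ⟨h0, h3.2⟩), indicator_of_mem, hcm, smul_eq_mul, mul_comm]
    rw [mem_ball, dist_eq_norm, add_sub_cancel_left, Complex.norm_polarCoord_symm, abs_of_pos h0]
    exact h3.1.2
  · rw [indicator_of_notMem h3]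
    exact zero_le

theorem cs {G : ℝ → ℝ} {ρ c : ℝ} (hρ : 0 < ρ) (hc : 0 < c)
    (h : ENNReal.ofReal c ≤ ∫⁻ θ in Ioo (-π) π, ENNReal.ofReal (G θ) * ENNReal.ofReal ρ) :
    ENNReal.ofReal (c ^ 2 / (2 * π) * ρ⁻¹) ≤
      ∫⁻ θ in Ioo (-π) π, ENNReal.ofReal (G θ ^ 2) * ENNReal.ofReal ρ := by
  have hπ := Real.pi_pos
  have h1 : ENNReal.ofReal (c / π) * ∫⁻ θ in Ioo (-π) π, ENNReal.ofReal (G θ) * ENNReal.ofReal ρ ≤
      (ENNReal.ofReal ρ * ∫⁻ θ in Ioo (-π) π, ENNReal.ofReal (G θ ^ 2) * ENNReal.ofReal ρ) +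
        ENNReal.ofReal (c ^ 2 / (2 * π)) := by
    have e : ENNReal.ofReal (c ^ 2 / (2 * π)) =
        ∫⁻ _ in Ioo (-π) π, ENNReal.ofReal ((c / (2 * π)) ^ 2) := by
      rw [setLIntegral_const, Real.volume_Ioo, ← ENNReal.ofReal_mul (by positivity)]
      congr 1
      field_simp
      ring
    rw [e, ← lintegral_const_mul' _ _ ENNReal.ofReal_ne_top,
      ← lintegral_const_mul' _ _ ENNReal.ofReal_ne_top, ← lintegral_add_right _ measurable_const]
    refine lintegral_mono fun θ => ?_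
    beta_reduce
    rw [← ENNReal.ofReal_mul' hρ.le, ← ENNReal.ofReal_mul' hρ.le,
      ← ENNReal.ofReal_mul (by positivity), ← ENNReal.ofReal_mul hρ.le,
      ← ENNReal.ofReal_add (by positivity) (by positivity)]
    refine ENNReal.ofReal_le_ofReal ?_
    have : c / π = 2 * (c / (2 * π)) := by field_simp
    rw [this]
    nlinarith [sq_nonneg (G θ * ρ - c / (2 * π))]
  have h2 := (mul_le_mul_right h _).trans h1
  have e : c / π * c = c ^ 2 / (2 * π) + c ^ 2 / (2 * π) := by field_simp; ring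
  rw [← ENNReal.ofReal_mul (by positivity), e, ENNReal.ofReal_add (by positivity) (by positivity),
    ENNReal.add_le_add_iff_right ENNReal.ofReal_ne_top] at h2
  rw [← div_eq_mul_inv, ENNReal.ofReal_div_of_pos hρ]
  exact ENNReal.div_le_of_le_mul' h2

end La

open La in
theorem s_la : S_la := by
  intro Ω g p c r1 r2 R hΩ hg hi h1 h12 hR him
  by_contra hn
  push Not at hn
  have hπ := Real.pi_pos
  have hl : 0 < Real.log (r2 / r1) := Real.log_pos ((one_lt_div h1).2 h12)
  have hs := Real.sqrt_pos.2 hl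
  have hm : Measurable fun w => ENNReal.ofReal (Ω.indicator (fun w => ‖deriv g w‖) w ^ 2) :=
    (((measurable_deriv g).norm.indicator hΩ.measurableSet).pow_const 2).ennreal_ofReal
  have k1 := polar hm p (r2 := r2) h1
  have k2 : ∫⁻ w in ball p r2, ENNReal.ofReal (Ω.indicator (fun w => ‖deriv g w‖) w ^ 2) =
      volume (g '' (Ω ∩ ball p r2)) := by
    rw [← area (hΩ.inter isOpen_ball) (hg.mono inter_subset_left) (hi.mono inter_subset_left),
      ← Measure.restrict_restrict hΩ.measurableSet, ← lintegral_indicator hΩ.measurableSet]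
    refine lintegral_congr fun w => ?_
    by_cases h : w ∈ Ω <;> simp [h]
  have k3 : ∫⁻ ρ in Ioo r1 r2, ENNReal.ofReal ((5 * R / √(Real.log (r2 / r1))) ^ 2 / (2 * π) * ρ⁻¹) ≤
      ∫⁻ ρ in Ioo r1 r2, ∫⁻ θ in Ioo (-π) π, ENNReal.ofReal
        (Ω.indicator (fun w => ‖deriv g w‖) (circleMap p ρ θ) ^ 2) * ENNReal.ofReal ρ := by
    refine setLIntegral_mono' measurableSet_Ioo fun ρ hρ => cs (h1.trans hρ.1) (by positivity)
      ((hn ρ hρ).le.trans_eq (lintegral_congr fun θ => ?_))
    by_cases h : circleMap p ρ θ ∈ Ω <;> simp [h]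
  have hc : ContinuousOn (fun ρ : ℝ => (5 * R / √(Real.log (r2 / r1))) ^ 2 / (2 * π) * ρ⁻¹)
      (Icc r1 r2) :=
    continuousOn_const.mul (continuousOn_id.inv₀ fun ρ hρ => (h1.trans_le hρ.1).ne')
  rw [← ofReal_integral_eq_lintegral_ofReal (hc.integrableOn_Icc.mono_set Ioo_subset_Icc_self)
    (ae_restrict_of_forall_mem measurableSet_Ioo fun ρ hρ => by
      have := h1.trans hρ.1
      positivity), ← integral_Ioc_eq_integral_Ioo, ← intervalIntegral.integral_of_le h12.le,
    intervalIntegral.integral_const_mul, integral_inv_of_pos h1 (h1.trans h12)] at k3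
  have k4 := ((k3.trans k1).trans_eq k2).trans (measure_mono him)
  rw [Complex.volume_closedBall, ← ENNReal.ofReal_pow hR.le, ← ENNReal.ofReal_coe_nnreal,
    ← ENNReal.ofReal_mul (by positivity), ENNReal.ofReal_le_ofReal_iff (by positivity),
    div_pow, Real.sq_sqrt hl.le, NNReal.coe_real_pi] at k4
  have e : (5 * R) ^ 2 / Real.log (r2 / r1) / (2 * π) * Real.log (r2 / r1) =
      R ^ 2 * (25 / (2 * π)) := by field_simp; norm_num
  rw [e, mul_le_mul_iff_right₀ (by positivity), div_le_iff₀ (by positivity)] at k4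
  nlinarith [Real.pi_lt_d2]

end Vale.Agent.P153.CA
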