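import Vale.Agent.P153.CA.Basic

/-! Close points of a Jordan domain are joined by a small path. -/

open Set Filter Topology Metric Complex MeasureTheory
open scoped ComplexConjugate ENNReal Real

noncomputable section
namespace Vale.Agent.P153.CA

open Vale.Agent.P164 (Pth HP Zf fi)

theorem s_loc (hu : S_ulc) (hj : S_jan) (ht : S_jct) : S_loc := by
  intro j hJ ε hε
  obtain ⟨ρ, hρ, h⟩ := hu j hJ ε hε
  refine ⟨min ρ (ε / 2), lt_min hρ (half_pos hε), fun z hz z' hz' hzz => ?_⟩
  obtain ⟨S, T, -, -, hT, hT', hST, hS, hd⟩ := h j hJ.toLoop (fun t => by simpa using hρ.le) z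
  obtain ⟨o1, -, o2, -⟩ := ht j hJ
  have e : range j ∩ (T ∪ (ball z ε)ᶜ) = T := by
    rw [← hST]
    refine Subset.antisymm ?_ fun x hx => ⟨Or.inr hx, Or.inl hx⟩
    rintro x ⟨h1 | h1, h2 | h2⟩
    exacts [h2, absurd (hS h1) h2, h1, h1]
  have h1 : JoinedIn (closedBall z (min ρ (ε / 2))) z z' :=
    JoinedIn.of_segment_subset ((convex_closedBall _ _).segment_subset
      (mem_closedBall_self (lt_min hρ (half_pos hε)).le)
      (by rwa [mem_closedBall, dist_comm, dist_eq_norm]))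
  obtain ⟨γ, hγ⟩ := hj (range j) (T ∪ (ball z ε)ᶜ) z z' hJ.toLoop.isCompact
    (hT.isClosed.union isOpen_ball.isClosed_compl) (e.symm ▸ hT')
    ((joinedIn_of_open o1 o2 hz hz').mono fun x hx => hx.1)
    (h1.mono fun x hx => by
      rintro (h2 | h2)
      · exact disjoint_left.1 hd h2 (closedBall_subset_closedBall (min_le_left _ _) hx)
      · exact h2 (closedBall_subset_ball ((min_le_right _ _).trans_lt (half_lt_self hε)) hx))
  refine ⟨γ, fun t => ⟨inside_of_preconn (isPreconnected_range γ.continuous)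
    (disjoint_left.2 ?_) ⟨0, γ.source⟩ hz ⟨t, rfl⟩, not_not.1 fun h2 => hγ t (Or.inr (Or.inr h2))⟩⟩
  rintro _ ⟨s, rfl⟩ h2
  exact hγ s (Or.inl h2)

end Vale.Agent.P153.CA
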