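import Vale.Agent.P153.CA.Basic
import Vale.Agent.P116.KoBase
import Vale.Agent.P128.Cau

/-! Primitives on relatively compact connected subsets of a full domain. -/

open Set Filter Topology Metric Complex MeasureTheory
open scoped ComplexConjugate ENNReal Real

noncomputable section
namespace Vale.Agent.P153.CA

namespace PrimK

theorem slit {a b : ℂ} (h : ‖b - a‖ < ‖a‖) : b / a ∈ slitPlane := by
  have h0 : 0 < ‖a‖ := (norm_nonneg _).trans_lt h
  have e : b / a = 1 + (b - a) / a := by field_simp [norm_pos_iff.1 h0]; ring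
  rw [e]
  exact mem_slitPlane_of_norm_lt_one (by rwa [norm_div, div_lt_one h0])

theorem uniq {S : Set ℂ} (hS : IsPreconnected S) {l l' : ℂ → ℂ} (h : ContinuousOn l S)
    (h' : ContinuousOn l' S) (e : ∀ x ∈ S, exp (l x) = exp (l' x)) {x y : ℂ} (hx : x ∈ S)
    (hy : y ∈ S) (e0 : l y = l' y) : l x = l' x := by
  have := log_const hS h h' e hx hy
  linear_combination this + e0

theorem prim {A V N : Set ℂ} {ψ : ℂ → ℂ} (hA : IsOpen A) (hc : IsPreconnected (closure A))
    (hV : IsOpen V) (hd : ∀ z ∈ closure A, z ∉ V) (hN : IsCompact N) (hNV : N ⊆ V)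
    (hψ : Continuous ψ) (hl : ∀ ζ ∈ V, HasLog (fun z => z - ζ) (closure A)) {z0 : ℂ}
    (h0 : z0 ∈ closure A) :
    ∃ k : ℂ → ℂ, ∀ z ∈ A, HasDerivAt k (∫ ζ in N, ψ ζ / (z - ζ)) z := by
  have ne : ∀ z ∈ closure A, ∀ ζ ∈ V, z - ζ ≠ 0 := fun z h ζ h' =>
    sub_ne_zero.2 fun e => hd z h (e ▸ h')
  have hl' : ∀ ζ, ∃ l : ℂ → ℂ, ζ ∈ V → ContinuousOn l (closure A) ∧
      (∀ z ∈ closure A, exp (l z) = (z - ζ) / (z0 - ζ)) ∧ l z0 = 0 := fun ζ => by
    by_cases h : ζ ∈ V
    · obtain ⟨l, h1, h2⟩ := hl ζ h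
      exact ⟨fun z => l z - l z0, fun _ => ⟨h1.sub continuousOn_const,
        fun z hz => by rw [exp_sub, h2 z hz, h2 z0 h0], sub_self _⟩⟩
    · exact ⟨0, fun h' => (h h').elim⟩
  choose l hl using hl'
  have c1 : ∀ z ∈ closure A, ContinuousOn (fun ζ => l ζ z) V := by
    intro z hz ζ hζ
    obtain ⟨d, hd0, hb⟩ := Metric.isOpen_iff.1 hV ζ hζ
    have s1 : ∀ ζ' ∈ ball ζ d, ∀ x ∈ closure A, (x - ζ') / (x - ζ) ∈ slitPlane :=
      fun ζ' h x hx => slit (by
        have h1 : d ≤ dist x ζ := not_lt.1 fun e => hd x hx (hb e)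
        rw [sub_sub_sub_cancel_left, norm_sub_rev, ← dist_eq_norm, ← dist_eq_norm]
        exact (mem_ball.1 h).trans_le h1)
    have e : ∀ ζ' ∈ ball ζ d, l ζ' z =
        l ζ z + log ((z - ζ') / (z - ζ)) - log ((z0 - ζ') / (z0 - ζ)) := fun ζ' h => by
      refine uniq (l' := fun z => l ζ z + log ((z - ζ') / (z - ζ)) - log ((z0 - ζ') / (z0 - ζ)))
        hc (hl ζ' (hb h)).1 (((hl ζ hζ).1.add (ContinuousOn.clog
          (ContinuousOn.div (by fun_prop) (by fun_prop) fun x hx => ne x hx ζ hζ)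
          (s1 ζ' h))).sub continuousOn_const) (fun x hx => ?_) hz h0 ?_
      · rw [exp_sub, exp_add, (hl ζ' (hb h)).2.1 x hx, (hl ζ hζ).2.1 x hx,
          exp_log (slitPlane_ne_zero (s1 ζ' h x hx)), exp_log (slitPlane_ne_zero (s1 ζ' h z0 h0))]
        have := ne x hx ζ hζ
        have := ne z0 h0 ζ hζ
        have := ne z0 h0 ζ' (hb h)
        field_simp
      · simp [(hl ζ' (hb h)).2.2, (hl ζ hζ).2.2]
    have h2 : ContinuousAt (fun ζ' => l ζ z + log ((z - ζ') / (z - ζ)) -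
        log ((z0 - ζ') / (z0 - ζ))) ζ :=
      (continuousAt_const.add (ContinuousAt.clog (f := fun ζ' => (z - ζ') / (z - ζ)) (by fun_prop)
        (s1 ζ (mem_ball_self hd0) z hz))).sub
        (ContinuousAt.clog (f := fun ζ' => (z0 - ζ') / (z0 - ζ)) (by fun_prop)
          (s1 ζ (mem_ball_self hd0) z0 h0))
    exact (h2.congr (eventually_of_mem (ball_mem_nhds ζ hd0) fun ζ' h =>
      (e ζ' h).symm)).continuousWithinAt
  have mN := hN.measurableSet
  have iψ : IntegrableOn ψ N := hψ.continuousOn.integrableOn_compact hN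
  refine ⟨fun z => ∫ ζ in N, ψ ζ * l ζ z, fun z hz => ?_⟩
  obtain ⟨d, hd0, hb⟩ := Metric.isOpen_iff.1 hA z hz
  have hb' : ball z d ⊆ closure A := hb.trans subset_closure
  have hz' := subset_closure hz
  have far0 : ∀ ζ ∈ V, d ≤ ‖z - ζ‖ := fun ζ h => by
    rw [← dist_eq_norm, dist_comm]
    exact not_lt.1 fun e => hd ζ (hb' e) h
  have s2 : ∀ x ∈ ball z d, ∀ ζ ∈ V, (x - ζ) / (z - ζ) ∈ slitPlane := fun x hx ζ h => slit (by
    rw [sub_sub_sub_cancel_right, ← dist_eq_norm]
    exact (mem_ball.1 hx).trans_le (far0 ζ h))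
  have e : ∀ x ∈ ball z d, ∀ ζ ∈ V, l ζ x = l ζ z + log ((x - ζ) / (z - ζ)) := fun x hx ζ h => by
    refine uniq (l' := fun x => l ζ z + log ((x - ζ) / (z - ζ))) (convex_ball z d).isPreconnected
      ((hl ζ h).1.mono hb') (continuousOn_const.add (ContinuousOn.clog (by fun_prop)
        fun y hy => s2 y hy ζ h)) (fun y hy => ?_) hx (mem_ball_self hd0) ?_
    · rw [exp_add, (hl ζ h).2.1 y (hb' hy), (hl ζ h).2.1 z hz',
        exp_log (slitPlane_ne_zero (s2 y hy ζ h))]
      have := ne z hz' ζ h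
      field_simp
    · simp [div_self (ne z hz' ζ h)]
  have sub : ball z (d / 2) ⊆ ball z d := ball_subset_ball (by linarith)
  have far : ∀ x ∈ ball z (d / 2), ∀ ζ ∈ N, d / 2 ≤ ‖x - ζ‖ := fun x hx ζ h' => by
    have h1 := far0 ζ (hNV h')
    have h2 := norm_sub_le_norm_sub_add_norm_sub z x ζ
    rw [← dist_eq_norm z x, dist_comm] at h2
    linarith [mem_ball.1 hx]
  have cF : ∀ x ∈ ball z d, ContinuousOn (fun ζ => ψ ζ * log ((x - ζ) / (z - ζ))) N := fun x h =>
    hψ.continuousOn.mul (ContinuousOn.clog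
      (ContinuousOn.div (by fun_prop) (by fun_prop) fun ζ h' => ne z hz' ζ (hNV h'))
      fun ζ h' => s2 x h ζ (hNV h'))
  have h1 := (hasDerivAt_integral_of_dominated_loc_of_deriv_le (μ := volume.restrict N)
    (F := fun x ζ => ψ ζ * log ((x - ζ) / (z - ζ))) (F' := fun x ζ => ψ ζ / (x - ζ)) (x₀ := z)
    (bound := fun ζ => ‖ψ ζ‖ / (d / 2)) (ball_mem_nhds z (half_pos hd0))
    (by filter_upwards [ball_mem_nhds z hd0] with x hx using (cF x hx).aestronglyMeasurable mN)
    ((cF z (mem_ball_self hd0)).integrableOn_compact hN)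
    ((hψ.continuousOn.div (by fun_prop) fun ζ h' => ne z hz' ζ (hNV h')).aestronglyMeasurable mN)
    ((ae_restrict_mem mN).mono fun ζ h' x hx => by
      rw [norm_div]
      exact div_le_div_of_nonneg_left (norm_nonneg _) (half_pos hd0) (far x hx ζ h'))
    (iψ.norm.div_const _)
    ((ae_restrict_mem mN).mono fun ζ h' x hx => by
      have n1 := ne x (hb' (sub hx)) ζ (hNV h')
      have n2 := ne z hz' ζ (hNV h')
      refine (((((hasDerivAt_id' x).sub_const ζ).div_const (z - ζ)).clog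
        (s2 x (sub hx) ζ (hNV h'))).const_mul (ψ ζ)).congr_deriv ?_
      field_simp)).2
  refine (h1.const_add (∫ ζ in N, ψ ζ * l ζ z)).congr_of_eventuallyEq ?_
  filter_upwards [ball_mem_nhds z hd0] with x hx
  refine Eq.trans ?_ (integral_add
    ((hψ.continuousOn.mul ((c1 z hz').mono hNV)).integrableOn_compact hN)
    ((cF x hx).integrableOn_compact hN))
  exact setIntegral_congr_fun mN fun ζ h' => by
    simp only [e x hx ζ (hNV h'), mul_add]

end PrimK

theorem s_primK (hd : S_bdir) : S_primK := by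
  intro Ω A u hΩ hF hA hc hK hs hu
  rcases A.eq_empty_or_nonempty with rfl | ⟨z0, h0⟩
  · exact ⟨0, fun _ h => h.elim⟩
  obtain ⟨r, hr⟩ := hK.isBounded.subset_closedBall 0
  obtain ⟨v, hv⟩ := (isPathConnected_ext 0 r).nonempty
  have hext : {z : ℂ | r < ‖z - 0‖} ⊆ (closure A)ᶜ := fun z hz h =>
    (show r < ‖z - 0‖ from hz).not_ge (mem_closedBall_iff_norm.1 (hr h))
  set V := connectedComponentIn (closure A)ᶜ v with hV
  have hVo : IsOpen V := isClosed_closure.isOpen_compl.connectedComponentIn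
  have h1 : {z : ℂ | r < ‖z - 0‖} ⊆ V :=
    (isPathConnected_ext 0 r).isConnected.isPreconnected.subset_connectedComponentIn hv hext
  have hVs : V ⊆ (closure A)ᶜ := connectedComponentIn_subset _ _
  have hK' : IsCompact Vᶜ := (isCompact_closedBall (0 : ℂ) r).of_isClosed_subset
    hVo.isClosed_compl fun z hz => mem_closedBall_iff_norm.2 (not_lt.1 fun h => hz (h1 h))
  have h2 : Vᶜ ⊆ Ω := by
    intro w hw
    by_contra h
    obtain ⟨S, a1, a2, a3, a4⟩ := hF w h
    obtain ⟨x, b1, b2⟩ : ∃ x ∈ S, r < ‖x - 0‖ := by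
      by_contra hn
      push Not at hn
      exact a4 ((isBounded_closedBall (x := (0 : ℂ)) (r := r)).subset fun x hx =>
        mem_closedBall_iff_norm.2 (hn x hx))
    have b3 := a1.subset_connectedComponentIn b1 (F := (closure A)ᶜ)
      fun y hy h' => disjoint_left.1 a3 hy (hs h')
    rw [← connectedComponentIn_eq (h1 b2)] at b3
    exact hw (b3 a2)
  obtain ⟨χ, c1, c2, c3, c4, -⟩ := P116.bump_ex hK' (hΩ.mem_nhdsSet.2 h2)
  let W : ℂ → ℂ := fun z => u z * (χ z : ℂ)
  have hW : ContDiff ℝ (⊤ : ℕ∞) W := by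
    refine contDiff_iff_contDiffAt.2 fun z => ?_
    by_cases hz : z ∈ Ω
    · have h3 : ContDiffAt ℂ (⊤ : ℕ∞) u z := (hu.contDiffOn hΩ).contDiffAt (hΩ.mem_nhds hz)
      exact (h3.restrict_scalars ℝ).mul (P116.contDiff_ofReal c1).contDiffAt
    · have : W =ᶠ[𝓝 z] fun _ => 0 := by
        filter_upwards [notMem_tsupport_iff_eventuallyEq.1 fun h => hz (c4 h)] with w hw
        simp [W, hw]
      exact contDiffAt_const.congr_of_eventuallyEq this
  have hWc : HasCompactSupport W :=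
    (c2.comp_left (g := fun x : ℝ => (x : ℂ)) ofReal_zero).mul_left
  have hWu : ∀ z ∈ Vᶜ, W =ᶠ[𝓝 z] u := fun z hz => by
    filter_upwards [c3.filter_mono (nhds_le_nhdsSet hz)] with w hw
    simp [W, hw]
  have hN : tsupport (P128.db W) ⊆ V := by
    intro z hz
    by_contra h
    refine notMem_tsupport_iff_eventuallyEq.2 ?_ hz
    filter_upwards [(hWu z h).eventually_nhds, hΩ.mem_nhds (h2 h)] with w e1 e2
    exact (P116.db_congr e1).trans
      (P116.db_of_hasDerivAt (hu.differentiableAt (hΩ.mem_nhds e2)).hasDerivAt)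
  obtain ⟨k, hk⟩ := PrimK.prim hA hc.closure hVo (fun z hz h => hVs h hz)
    (P116.hasCompactSupport_db hWc) hN (P116.continuous_db (hW.of_le (by exact_mod_cast le_top)))
    (fun ζ h => hd.2 _ V ζ hK isPreconnected_connectedComponentIn
      (disjoint_left.2 fun _ h => hVs h) h fun hb => not_bounded_ext 0 r (hb.subset h1))
    (subset_closure h0)
  refine ⟨fun z => (1 / π : ℂ) * k z, fun z hz => ((hk z hz).const_mul _).congr_deriv ?_⟩
  rw [setIntegral_eq_integral_of_forall_compl_eq_zero fun ζ h => by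
    rw [image_eq_zero_of_notMem_tsupport h, zero_div]]
  exact (P128.Cau.pompeiu hW hWc z).trans
    (hWu z fun h => hVs h (subset_closure hz)).self_of_nhds

end Vale.Agent.P153.CA
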