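import Vale.Agent.P153.CA.Basic
import Vale.Agent.P116.KoLim

/-! The theorem of Rado on the convergence of Riemann maps of Jordan domains. -/

open Set Filter Topology Metric Complex MeasureTheory
open scoped ComplexConjugate ENNReal Real

noncomputable section
namespace Vale.Agent.P153.CA

namespace Rado

theorem ulim (l : Ultrafilter ℕ) {K : Set ℂ} (hK : IsCompact K) {F : ℕ → ℂ → ℂ} {R : ℝ}
    (hb : ∀ n, ∀ z ∈ K, ‖F n z‖ ≤ R)
    (he : ∀ ε > 0, ∃ ρ > 0, ∀ᶠ n in l, ∀ z ∈ K, ∀ z' ∈ K, ‖z - z'‖ ≤ ρ → ‖F n z - F n z'‖ ≤ ε) :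
    ∃ G : ℂ → ℂ, TendstoUniformlyOn F G l K := by
  have hex : ∀ z, ∃ a, z ∈ K → Tendsto (fun i => F i z) l (𝓝 a) := by
    intro z
    by_cases hz : z ∈ K
    · have hle : (l.map (fun i => F i z) : Filter ℂ) ≤ 𝓟 (closedBall (0 : ℂ) R) := by
        rw [le_principal_iff, Ultrafilter.coe_map, mem_map]
        exact Eventually.of_forall fun i => mem_closedBall_zero_iff.2 (hb i z hz)
      obtain ⟨a, -, ha⟩ := (isCompact_closedBall (0 : ℂ) R).ultrafilter_le_nhds _ hle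
      exact ⟨a, fun _ => ha⟩
    · exact ⟨0, fun h => absurd h hz⟩
  choose G hG using hex
  refine ⟨G, Metric.tendstoUniformlyOn_iff.2 fun ε hε => ?_⟩
  obtain ⟨ρ, hρ, h1⟩ := he (ε / 4) (by positivity)
  obtain ⟨t, htK, ht, hc⟩ := finite_cover_balls_of_compact hK hρ
  have h2 : ∀ᶠ n in l, ∀ x ∈ t, dist (F n x) (G x) < ε / 4 :=
    (eventually_all_finite ht).2 fun x hx =>
      Metric.tendsto_nhds.1 (hG x (htK hx)) (ε / 4) (by positivity)
  filter_upwards [h1, h2] with n h3 h4 z hz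
  obtain ⟨x, hx, hzx⟩ := mem_iUnion₂.1 (hc hz)
  have h5 : ‖z - x‖ ≤ ρ := by rw [← dist_eq_norm]; exact (mem_ball.1 hzx).le
  have h6 : ‖G z - G x‖ ≤ ε / 4 :=
    le_of_tendsto ((hG z hz).sub (hG x (htK hx))).norm (h1.mono fun m hm => hm z hz x (htK hx) h5)
  have h7 := h3 z hz x (htK hx) h5
  have h8 := h4 x hx
  rw [← dist_eq_norm] at h6 h7
  have h9 := dist_triangle4 (G z) (G x) (F n x) (F n z)
  rw [dist_comm (G x), dist_comm (F n x) (F n z)] at h9
  linarith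

theorem radial {f : ℂ → ℂ} (hf : ContinuousOn f (closedBall 0 1)) {z : ℂ}
    (hz : z ∈ closedBall (0 : ℂ) 1) : Tendsto (fun s : ℝ => f (s * z)) (𝓝[<] 1) (𝓝 (f z)) := by
  refine (hf z hz).tendsto.comp (tendsto_nhdsWithin_iff.2 ⟨?_, ?_⟩)
  · have : Tendsto (fun s : ℝ => (s : ℂ) * z) (𝓝 1) (𝓝 (((1 : ℝ) : ℂ) * z)) :=
      Continuous.tendsto (by fun_prop) 1
    simpa using this.mono_left nhdsWithin_le_nhds
  · filter_upwards [Ioo_mem_nhdsLT (show (0 : ℝ) < 1 by norm_num)] with s hs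
    rw [mem_closedBall_zero_iff] at hz ⊢
    rw [norm_mul, norm_real, Real.norm_of_nonneg hs.1.le]
    exact mul_le_one₀ hs.2.le (norm_nonneg _) hz

theorem ext_cl {f : ℂ → ℂ} (hf : ContinuousOn f (closedBall 0 1)) {ρ ε : ℝ}
    (h : ∀ z ∈ ball (0 : ℂ) 1, ∀ z' ∈ ball (0 : ℂ) 1, ‖z - z'‖ ≤ ρ → ‖f z - f z'‖ ≤ ε) :
    ∀ z ∈ closedBall (0 : ℂ) 1, ∀ z' ∈ closedBall (0 : ℂ) 1, ‖z - z'‖ ≤ ρ → ‖f z - f z'‖ ≤ ε := by
  intro z hz z' hz' hd
  refine le_of_tendsto ((radial hf hz).sub (radial hf hz')).norm ?_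
  filter_upwards [Ioo_mem_nhdsLT (show (0 : ℝ) < 1 by norm_num)] with s hs
  have a : ∀ w ∈ closedBall (0 : ℂ) 1, (s : ℂ) * w ∈ ball (0 : ℂ) 1 := fun w hw => by
    rw [mem_closedBall_zero_iff] at hw
    rw [mem_ball_zero_iff, norm_mul, norm_real, Real.norm_of_nonneg hs.1.le]
    exact (mul_le_of_le_one_right hs.1.le hw).trans_lt hs.2
  refine h _ (a z hz) _ (a z' hz') ?_
  rw [← mul_sub, norm_mul, norm_real, Real.norm_of_nonneg hs.1.le]
  exact (mul_le_of_le_one_left (norm_nonneg _) hs.2.le).trans hd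

theorem cl_sub {G : ℂ → ℂ} (hG : ContinuousOn G (closedBall 0 1)) {w : ℂ}
    (hw : w ∈ closure (G '' ball 0 1)) : w ∈ G '' ball 0 1 ∨ w ∈ G '' sphere 0 1 := by
  have := closure_minimal (image_mono ball_subset_closedBall)
    ((isCompact_closedBall (0 : ℂ) 1).image_of_continuousOn hG).isClosed hw
  rwa [← ball_union_sphere, image_union] at this

theorem disj {ψ : ℂ → ℂ} (hψ : IsJordanMap ψ) : Disjoint (ψ '' ball 0 1) (ψ '' sphere 0 1) :=
  Disjoint.image sphere_disjoint_ball.symm hψ.2.1 ball_subset_closedBall sphere_subset_closedBall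

theorem core (hv : S_inv) (hr : S_rot) {ψ G : ℂ → ℂ} (hψ : IsJordanMap ψ)
    (hG : ContinuousOn G (closedBall 0 1)) (hd : DifferentiableOn ℂ G (ball 0 1))
    (hi : InjOn G (ball 0 1)) (h0 : G 0 = ψ 0) (h1 : G 1 = ψ 1)
    (hs : G '' sphere 0 1 ⊆ ψ '' sphere 0 1) (hb : Disjoint (G '' ball 0 1) (ψ '' sphere 0 1)) :
    EqOn G ψ (closedBall 0 1) := by
  have c1 := hv _ ψ isOpen_ball hψ.2.2 (hψ.2.1.mono ball_subset_closedBall)
  have c2 := hv _ G isOpen_ball hd hi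
  have z0 : (0 : ℂ) ∈ ball (0 : ℂ) 1 := mem_ball_self one_pos
  have pc : IsPreconnected (ball (0 : ℂ) 1) := (convex_ball _ _).isPreconnected
  have e : G '' ball 0 1 = ψ '' ball 0 1 := by
    refine Subset.antisymm ?_ ?_
    · refine (pc.image G hd.continuousOn).subset_of_closure_inter_subset c1.oV
        ⟨G 0, ⟨0, z0, rfl⟩, 0, z0, h0.symm⟩ fun w hw => ?_
      exact (cl_sub hψ.1 hw.1).resolve_right (disjoint_left.1 hb hw.2)
    · refine (pc.image ψ hψ.2.2.continuousOn).subset_of_closure_inter_subset c2.oV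
        ⟨G 0, ⟨0, z0, h0.symm⟩, 0, z0, rfl⟩ fun w hw => ?_
      exact (cl_sub hG hw.1).resolve_right fun h => disjoint_left.1 (disj hψ) hw.2 (hs h)
  rw [e] at c2
  obtain ⟨c, hc, h2, -⟩ := hr _ _ _ _ _ c1 c2 h0.symm
  have mc : MapsTo (fun z => c * z) (closedBall (0 : ℂ) 1) (closedBall 0 1) := fun z hz => by
    rw [mem_closedBall_zero_iff] at hz ⊢
    rwa [norm_mul, hc, one_mul]
  have h3 : EqOn G (fun z => ψ (c * z)) (closedBall 0 1) :=
    EqOn.of_subset_closure (fun z hz => h2 z hz) hG (hψ.1.comp (by fun_prop) mc)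
      ball_subset_closedBall (closure_ball (0 : ℂ) one_ne_zero).ge
  have o1 : (1 : ℂ) ∈ closedBall (0 : ℂ) 1 := by simp
  have h4 : c * 1 = 1 := hψ.2.1 (mc o1) o1 ((h3 o1).symm.trans h1)
  rw [mul_one] at h4
  intro z hz
  rw [h3 hz, h4]
  simp only [one_mul]

end Rado

open Rado in
theorem s_rado (he : S_equi) (hv : S_inv) (hr : S_rot) (ht : S_jct) : S_rado := by
  intro ψ hψ ε hε
  by_contra hcon
  push Not at hcon
  choose j Ψ hj hc hΨ hb hs h0 h1 z hz hε' using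
    fun n : ℕ => hcon (1 / ((n : ℝ) + 1)) (by positivity)
  set l := hyperfilter ℕ
  have hl : ∀ ρ > 0, ∀ᶠ n : ℕ in l, 1 / ((n : ℝ) + 1) ≤ ρ := fun ρ hρ =>
    (tendsto_one_div_add_atTop_nhds_zero_nat.eventually (ge_mem_nhds hρ)).filter_mono
      Nat.hyperfilter_le_atTop
  obtain ⟨R, hR⟩ := (isCompact_closedBall (0 : ℂ) 1).exists_bound_of_continuousOn hψ.1
  have hrj : ∀ n, range (j n) ⊆ closedBall 0 (R + 1) := by
    rintro n _ ⟨t, rfl⟩
    have a1 := hc n t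
    have a2 := hR _ (sphere_subset_closedBall (circ_mem t))
    have a3 : 1 / ((n : ℝ) + 1) ≤ 1 := by
      rw [div_le_one (by positivity)]; linarith [(Nat.cast_nonneg n : (0 : ℝ) ≤ n)]
    rw [mem_closedBall_zero_iff]
    linarith [norm_le_insert' (j n t) (ψ (circ t))]
  have hbd : ∀ n, ∀ w ∈ closedBall (0 : ℂ) 1, ‖Ψ n w‖ ≤ R + 1 := fun n w hw => by
    rw [← ball_union_sphere] at hw
    rw [← mem_closedBall_zero_iff]
    rcases hw with hw | hw
    · exact inside_subset (hrj n) (hb n ▸ mem_image_of_mem _ hw)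
    · exact hrj n (hs n ▸ mem_image_of_mem _ hw)
  have z0 : (0 : ℂ) ∈ ball (0 : ℂ) 1 := mem_ball_self one_pos
  have o1 : (1 : ℂ) ∈ closedBall (0 : ℂ) 1 := by simp
  have ho : ψ 0 ∉ range fun t => ψ (circ t) := by
    rw [range_comp_circ]
    exact disjoint_left.1 (disj hψ) (mem_image_of_mem _ z0)
  obtain ⟨G, hG⟩ := ulim l (isCompact_closedBall (0 : ℂ) 1) hbd fun e he0 => by
    obtain ⟨ρ, hρ, h⟩ := he _ _ (jloop_comp hψ) ho e he0
    refine ⟨ρ, hρ, (hl ρ hρ).mono fun n hn => ext_cl (hΨ n).1 ?_⟩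
    have c1 := hv _ _ isOpen_ball (hΨ n).2.2 ((hΨ n).2.1.mono ball_subset_closedBall)
    rw [hb n] at c1
    exact h (j n) _ _ (hj n) (fun t => (hc n t).trans hn) c1 (h0 n)
  have hGc : ContinuousOn G (closedBall 0 1) :=
    hG.continuousOn (Frequently.of_forall fun n => (hΨ n).1)
  have hGl : TendstoLocallyUniformlyOn Ψ G l (ball 0 1) :=
    (hG.mono ball_subset_closedBall).tendstoLocallyUniformlyOn
  have hGd : DifferentiableOn ℂ G (ball 0 1) :=
    hGl.differentiableOn (Eventually.of_forall fun n => (hΨ n).2.2) isOpen_ball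
  have G0 : G 0 = ψ 0 := tendsto_nhds_unique (hG.tendsto_at (ball_subset_closedBall z0))
    (tendsto_const_nhds.congr fun n => (h0 n).symm)
  have G1 : G 1 = ψ 1 := tendsto_nhds_unique (hG.tendsto_at o1)
    (Metric.tendsto_nhds.2 fun e he0 => (hl (e / 2) (by positivity)).mono fun n hn => by
      rw [dist_eq_norm]; linarith [h1 n])
  have hn : ∀ a ∈ ball (0 : ℂ) 1, ∀ᶠ w in 𝓝[≠] a, G w ≠ G a := fun a ha => by
    have an := hGd.analyticOnNhd isOpen_ball
    refine ((an a ha).eventually_eq_or_eventually_ne analyticAt_const).resolve_left fun h => ?_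
    have e1 := an.eqOn_of_preconnected_of_eventuallyEq analyticOnNhd_const
      (convex_ball _ _).isPreconnected ha h
    have e2 := EqOn.of_subset_closure e1 hGc continuousOn_const
      ball_subset_closedBall (closure_ball (0 : ℂ) one_ne_zero).ge
    have e3 : ψ 0 = ψ 1 := by rw [← G0, ← G1, e1 z0, e2 o1]
    exact zero_ne_one (hψ.2.1 (ball_subset_closedBall z0) o1 e3)
  have key := fun a (ha : a ∈ ball (0 : ℂ) 1) V (hV : V ∈ 𝓝 a) =>
    P116.KoLim.key isOpen_ball hGl (fun n => (hΨ n).2.2)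
      (fun n => (hΨ n).2.1.mono ball_subset_closedBall) hGd.continuousOn ha (hn a ha) hV
  have hGi : InjOn G (ball 0 1) := fun a ha b hb' e => by
    by_contra hne
    obtain ⟨V, W, hV, hW, hVW⟩ := t2_separation_nhds hne
    obtain ⟨η, hη, k1⟩ := key a ha V hV
    obtain ⟨η', hη', k2⟩ := key b hb' W hW
    obtain ⟨n, k3, k4⟩ := (k1.and k2).exists
    obtain ⟨x, hx, ex⟩ := k3 (mem_ball_self hη)
    obtain ⟨y, hy, ey⟩ := k4 (mem_ball_self hη')
    have : x = y := (hΨ n).2.1 (ball_subset_closedBall hx.2) (ball_subset_closedBall hy.2)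
      (by rw [ex, ey, e])
    exact disjoint_left.1 hVW hx.1 (this ▸ hy.1)
  have hJ : IsClosed (ψ '' sphere 0 1) :=
    ((isCompact_sphere (0 : ℂ) 1).image_of_continuousOn (hψ.1.mono sphere_subset_closedBall)).isClosed
  have hGs : G '' sphere 0 1 ⊆ ψ '' sphere 0 1 := by
    rintro _ ⟨ζ, hζ, rfl⟩
    refine hJ.closure_subset (Metric.mem_closure_iff.2 fun e he0 => ?_)
    obtain ⟨n, k1, k2⟩ := ((hl (e / 2) (by positivity)).and (Metric.tendstoUniformlyOn_iff.1 hG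
      (e / 2) (by positivity))).exists
    obtain ⟨t, ht⟩ : Ψ n ζ ∈ range (j n) := hs n ▸ mem_image_of_mem _ hζ
    refine ⟨ψ (circ t), mem_image_of_mem _ (circ_mem t), ?_⟩
    have k3 := k2 ζ (sphere_subset_closedBall hζ)
    have k4 := hc n t
    rw [← dist_eq_norm, ht] at k4
    linarith [dist_triangle (G ζ) (Ψ n ζ) (ψ (circ t))]
  have hGb : Disjoint (G '' ball 0 1) (ψ '' sphere 0 1) := by
    rw [disjoint_left, ← range_comp_circ]
    rintro _ ⟨a, ha, rfl⟩ ⟨t, ht⟩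
    obtain ⟨η, hη, k1⟩ := key a ha univ univ_mem
    obtain ⟨n, k2, k3⟩ := (k1.and (hl (η / 2) (by positivity))).exists
    rw [univ_inter, hb n] at k2
    refine (k2 (a := j n t) ?_).1 ⟨t, rfl⟩
    have k4 := hc n t
    rw [mem_ball, dist_eq_norm, ← ht]
    simp only
    linarith
  have fin := core hv hr hψ hGc hGd hGi G0 G1 hGs hGb
  obtain ⟨n, k⟩ := (Metric.tendstoUniformlyOn_iff.1 hG ε hε).exists
  have k1 := k _ (hz n)
  rw [fin (hz n), dist_comm, dist_eq_norm] at k1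
  exact lt_asymm k1 (hε' n)

end Vale.Agent.P153.CA
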