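import Vale.Agent.P153.CA.Basic
import Vale.Agent.P071.Riemann

/-! The Riemann mapping theorem for domains with logarithms. -/

open Set Filter Topology Metric Complex MeasureTheory
open scoped ComplexConjugate ENNReal Real

noncomputable section
namespace Vale.Agent.P153.CA

namespace Rmt0

open Vale.Agent.P071 Vale.Agent.P071.Riemann

/-- Holomorphic functions without zeros have logarithms. -/
def Lg (Ω : Set ℂ) : Prop :=
  ∀ F : ℂ → ℂ, DifferentiableOn ℂ F Ω → (∀ z ∈ Ω, F z ≠ 0) → HasLog F Ω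

theorem root {Ω : Set ℂ} (h : Lg Ω) {g : ℂ → ℂ} (hg : DifferentiableOn ℂ g Ω)
    (h0 : ∀ z ∈ Ω, g z ≠ 0) : ∃ s : ℂ → ℂ, ContinuousOn s Ω ∧ ∀ x, s x ^ 2 = g x := by
  classical
  obtain ⟨l, h1, h2⟩ := h g hg h0
  choose r hr using fun x => IsAlgClosed.exists_pow_nat_eq (g x) two_pos
  refine ⟨fun x => if x ∈ Ω then exp (l x / 2) else r x, ?_, fun x => ?_⟩
  · exact (h1.div_const 2).cexp.congr fun x hx => if_pos hx
  · by_cases hx : x ∈ Ω
    · simp only [if_pos hx]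
      rw [← exp_nat_mul, ← h2 x hx]
      congr 1
      push_cast
      ring
    · simp only [if_neg hx, hr]

theorem fam_ex {Ω : Set ℂ} (ho : IsOpen Ω) (hl : Lg Ω) (hne : Ω ≠ univ) {x : ℂ} (hx : x ∈ Ω) :
    ∃ g, Fam Ω x g := by
  obtain ⟨a, ha⟩ := (ne_univ_iff_exists_notMem Ω).1 hne
  have h0 : ∀ z ∈ Ω, z - a ≠ 0 := fun z hz e => ha (sub_eq_zero.1 e ▸ hz)
  obtain ⟨s, hc, hsq⟩ := root hl (g := fun z => z - a) (by fun_prop) h0
  have hs0 : ∀ z ∈ Ω, s z ≠ 0 := fun z hz e => h0 z hz (by rw [← hsq z, e]; simp)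
  have hd : ∀ z ∈ Ω, HasDerivAt s (1 / (2 * s z)) z := fun z hz =>
    sqrt_deriv ((hasDerivAt_id z).sub_const a) (hc.continuousAt (ho.mem_nhds hz)) hsq (hs0 z hz)
  have hdd : DifferentiableOn ℂ s Ω := fun z hz => (hd z hz).differentiableAt.differentiableWithinAt
  have hinj : ∀ z w, s z ^ 2 = s w ^ 2 → z = w := fun z w e => by
    rw [hsq, hsq] at e
    exact sub_left_injective e
  have hmap : map s (𝓝 x) = 𝓝 (s x) :=
    (hdd.analyticAt (ho.mem_nhds hx)).hasStrictDerivAt.map_nhds_eq (by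
      rw [(hd x hx).deriv]
      exact one_div_ne_zero (mul_ne_zero two_ne_zero (hs0 x hx)))
  obtain ⟨r, hr, hb⟩ := Metric.mem_nhds_iff.1 (hmap ▸ image_mem_map (ho.mem_nhds hx))
  have hlow : ∀ z ∈ Ω, r ≤ ‖s z + s x‖ := by
    intro z hz
    by_contra hn
    obtain ⟨w, hw, e⟩ := hb (show -s z ∈ ball (s x) r by
      rw [mem_ball, dist_eq_norm, ← norm_neg]
      simpa [add_comm] using hn)
    obtain rfl : w = z := hinj _ _ (by rw [e]; ring)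
    exact hs0 w hw (by linear_combination e / 2)
  have hnz : ∀ z ∈ Ω, s z + s x ≠ 0 := fun z hz => norm_pos_iff.1 (hr.trans_le (hlow z hz))
  have hrc : ((r / 4 : ℝ) : ℂ) ≠ 0 := by exact_mod_cast (by positivity : r / 4 ≠ 0)
  have hg : ∀ z ∈ Ω, HasDerivAt (fun z => ((r / 4 : ℝ) : ℂ) * ((s z + s x)⁻¹ - (s x + s x)⁻¹))
      (((r / 4 : ℝ) : ℂ) * (-(1 / (2 * s z)) / (s z + s x) ^ 2)) z := fun z hz =>
    ((((hd z hz).add_const (s x)).inv (hnz z hz)).sub_const _).const_mul _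
  refine ⟨_, fun z hz => (hg z hz).differentiableAt.differentiableWithinAt, fun z hz => ?_,
    fun z hz w hw e => ?_, by simp, fun z hz => ?_⟩
  · rw [mem_ball_zero_iff, norm_mul, norm_real, Real.norm_of_nonneg (by positivity)]
    have h1 : ∀ y ∈ Ω, ‖(s y + s x)⁻¹‖ ≤ r⁻¹ := fun y hy => by
      rw [norm_inv]
      exact inv_anti₀ hr (hlow y hy)
    have h2 := (norm_sub_le _ _).trans (add_le_add (h1 z hz) (h1 x hx))
    calc r / 4 * ‖(s z + s x)⁻¹ - (s x + s x)⁻¹‖ ≤ r / 4 * (r⁻¹ + r⁻¹) := by gcongr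
      _ = 1 / 2 := by field_simp; norm_num
      _ < 1 := by norm_num
  · have h1 := add_right_cancel (inv_injective (sub_left_injective (mul_left_cancel₀ hrc e)))
    exact hinj _ _ (by rw [h1])
  · rw [(hg z hz).deriv]
    exact mul_ne_zero hrc (div_ne_zero (neg_ne_zero.2 (one_div_ne_zero
      (mul_ne_zero two_ne_zero (hs0 z hz)))) (pow_ne_zero _ (hnz z hz)))

theorem exists_max' {Ω : Set ℂ} (ho : IsOpen Ω) (hc : IsPreconnected Ω)
    {x₀ : ℂ} (hx : x₀ ∈ Ω) (hb : ∃ g, Fam Ω x₀ g) :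
    ∃ f, Fam Ω x₀ f ∧ ∀ g, Fam Ω x₀ g → ‖deriv g x₀‖ ≤ ‖deriv f x₀‖ := by
  set S : Set ℝ := {t | ∃ g, Fam Ω x₀ g ∧ t = ‖deriv g x₀‖} with hS
  obtain ⟨g₀, hg₀⟩ := hb
  have hne : S.Nonempty := ⟨_, g₀, hg₀, rfl⟩
  obtain ⟨R, hR, hRΩ⟩ := Metric.isOpen_iff.mp ho x₀ hx
  have hbdd : BddAbove S := by
    refine ⟨1 / R, ?_⟩
    rintro t ⟨g, hg, rfl⟩
    refine Complex.norm_deriv_le_div_of_mapsTo_ball (hg.hd.mono hRΩ) ?_ hR
    intro z hz
    rw [hg.zero]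
    exact ball_subset_closedBall (hg.hm (hRΩ hz))
  obtain ⟨u, -, hu, huS⟩ := exists_seq_tendsto_sSup hne hbdd
  choose F hF hFu using huS
  obtain ⟨f, hf⟩ := montel (hyperfilter ℕ) ho (fun i => (hF i).hd) (fun i => (hF i).hm)
  have h1 : Tendsto (fun i => ‖deriv (F i) x₀‖) (hyperfilter ℕ) (𝓝 ‖deriv f x₀‖) :=
    ((hf.deriv (Eventually.of_forall fun i => (hF i).hd) ho).tendsto_at hx).norm
  have h2 : Tendsto (fun i => ‖deriv (F i) x₀‖) (hyperfilter ℕ) (𝓝 (sSup S)) := by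
    have : (fun i => ‖deriv (F i) x₀‖) = u := funext fun i => (hFu i).symm
    rw [this]
    exact hu.mono_left Nat.hyperfilter_le_atTop
  have h3 : ‖deriv f x₀‖ = sSup S := tendsto_nhds_unique h1 h2
  have hle : ∀ g, Fam Ω x₀ g → ‖deriv g x₀‖ ≤ ‖deriv f x₀‖ := fun g hg =>
    h3 ▸ le_csSup hbdd ⟨g, hg, rfl⟩
  refine ⟨f, fam_limit ho hc hx hF hf ?_, hle⟩
  have h4 := norm_pos_iff.mpr (hg₀.dne x₀ hx)
  exact norm_pos_iff.mp (h4.trans_le (hle g₀ hg₀))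

theorem improve' {Ω : Set ℂ} (ho : IsOpen Ω) (hsc : Lg Ω) {x₀ : ℂ} (hx : x₀ ∈ Ω)
    {φ : ℂ → ℂ} (hφ : Fam Ω x₀ φ) {w : ℂ} (hw : ‖w‖ < 1) (hwn : w ∉ φ '' Ω) :
    ∃ ψ, Fam Ω x₀ ψ ∧ ‖deriv φ x₀‖ < ‖deriv ψ x₀‖ := by
  have hφ1 : ∀ z ∈ Ω, ‖φ z‖ < 1 := fun z hz => mem_ball_zero_iff.mp (hφ.hm hz)
  have hφd : ∀ z ∈ Ω, HasDerivAt φ (deriv φ z) z := fun z hz =>
    (hφ.hd.differentiableAt (ho.mem_nhds hz)).hasDerivAt
  have hgd : ∀ z ∈ Ω, HasDerivAt (fun z => mob w (φ z))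
      ((1 - conj w * w) / (1 - conj w * φ z) ^ 2 * deriv φ z) z := fun z hz =>
    (mob_deriv hw (hφ1 z hz)).comp z (hφd z hz)
  have hg0 : ∀ z ∈ Ω, mob w (φ z) ≠ 0 := by
    intro z hz h
    rw [mob, div_eq_zero_iff] at h
    rcases h with h | h
    · exact hwn ⟨z, hz, sub_eq_zero.mp h⟩
    · exact den_ne hw (hφ1 z hz) h
  obtain ⟨h, hhc, hsq⟩ := root hsc (g := fun z => mob w (φ z))
    (fun z hz => (hgd z hz).differentiableAt.differentiableWithinAt) hg0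
  have hh0 : ∀ z ∈ Ω, h z ≠ 0 := by
    intro z hz h0
    have := hsq z
    rw [h0] at this
    exact hg0 z hz (by rw [← this]; simp)
  have hh1 : ∀ z ∈ Ω, ‖h z‖ < 1 := by
    intro z hz
    have h1 := mob_norm hw (hφ1 z hz)
    rw [← hsq z, norm_pow] at h1
    exact (pow_lt_one_iff_of_nonneg (norm_nonneg _) two_ne_zero).mp h1
  have hhd := fun z (hz : z ∈ Ω) =>
    sqrt_deriv (hgd z hz) (hhc.continuousAt (ho.mem_nhds hz)) hsq (hh0 z hz)
  set c := h x₀ with hc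
  have hc1 : ‖c‖ < 1 := hh1 x₀ hx
  have hψd := fun z (hz : z ∈ Ω) => (mob_deriv hc1 (hh1 z hz)).comp z (hhd z hz)
  refine ⟨mob c ∘ h, ⟨fun z hz => (hψd z hz).differentiableAt.differentiableWithinAt,
    fun z hz => mem_ball_zero_iff.mpr (mob_norm hc1 (hh1 z hz)), ?_, by simp [mob, hc], ?_⟩, ?_⟩
  · intro a ha b hb hab
    have h1 : h a = h b := mob_inj hc1 (hh1 a ha) (hh1 b hb) hab
    have h2 : mob w (φ a) = mob w (φ b) := by rw [← hsq a, ← hsq b, h1]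
    exact hφ.inj ha hb (mob_inj hw (hφ1 a ha) (hφ1 b hb) h2)
  · intro z hz
    rw [(hψd z hz).deriv]
    have e1 := den_ne hc1 hc1
    have e2 := den_ne hc1 (hh1 z hz)
    have e3 := den_ne hw hw
    have e4 := den_ne hw (hφ1 z hz)
    have e5 := hφ.dne z hz
    have e6 := hh0 z hz
    exact mul_ne_zero (div_ne_zero e1 (pow_ne_zero _ e2)) (div_ne_zero
      (mul_ne_zero (div_ne_zero e3 (pow_ne_zero _ e4)) e5) (mul_ne_zero two_ne_zero e6))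
  · rw [(hψd x₀ hx).deriv]
    have hcw : ‖w‖ = ‖c‖ ^ 2 := by
      have := hsq x₀
      rw [hφ.zero, mob] at this
      rw [← norm_pow, hc, this]
      simp
    simp only [norm_mul, norm_div, norm_pow, ← hc, norm_den c hc1, norm_den w hw, hφ.zero,
      mul_zero, sub_zero, one_pow, div_one, hcw, Complex.norm_ofNat]
    exact improve_aux (norm_pos_iff.mpr (hh0 x₀ hx)) hc1 (norm_pos_iff.mpr (hφ.dne x₀ hx))

theorem rot {Ω : Set ℂ} (ho : IsOpen Ω) {x c : ℂ} {φ : ℂ → ℂ} (hφ : Fam Ω x φ) (hc : ‖c‖ = 1) :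
    Fam Ω x fun z => c * φ z := by
  have hc0 : c ≠ 0 := norm_pos_iff.1 (by rw [hc]; exact one_pos)
  refine ⟨hφ.hd.const_mul c, fun z hz => ?_, fun z hz w hw e => hφ.inj hz hw
    (mul_left_cancel₀ hc0 e), by simp [hφ.zero], fun z hz => ?_⟩
  · rw [mem_ball_zero_iff, norm_mul, hc, one_mul]
    exact mem_ball_zero_iff.1 (hφ.hm hz)
  · rw [deriv_const_mul _ (hφ.hd.differentiableAt (ho.mem_nhds hz))]
    exact mul_ne_zero hc0 (hφ.dne z hz)

end Rmt0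

open Rmt0 Vale.Agent.P071 Vale.Agent.P071.Riemann in
theorem s_rmt0 : S_rmt0 := by
  intro Ω x ho hc hne hx hl
  obtain ⟨φ₀, hφ₀, hmax₀⟩ := exists_max' ho hc hx (fam_ex ho hl hne hx)
  have hd0 : 0 < ‖deriv φ₀ x‖ := norm_pos_iff.2 (hφ₀.dne x hx)
  have hd1 : ((‖deriv φ₀ x‖ : ℝ) : ℂ) ≠ 0 := by exact_mod_cast hd0.ne'
  have hc1 : ‖conj (deriv φ₀ x) / (‖deriv φ₀ x‖ : ℝ)‖ = 1 := by
    rw [norm_div, norm_conj, norm_real, norm_norm, div_self hd0.ne']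
  have hφ := rot ho hφ₀ hc1
  set φ : ℂ → ℂ := fun z => conj (deriv φ₀ x) / (‖deriv φ₀ x‖ : ℝ) * φ₀ z with hφdef
  have hder : HasDerivAt φ ((‖deriv φ₀ x‖ : ℝ) : ℂ) x := by
    have h1 := (hφ₀.hd.differentiableAt (ho.mem_nhds hx)).hasDerivAt.const_mul
      (conj (deriv φ₀ x) / (‖deriv φ₀ x‖ : ℝ))
    have e : conj (deriv φ₀ x) / (‖deriv φ₀ x‖ : ℝ) * deriv φ₀ x = ((‖deriv φ₀ x‖ : ℝ) : ℂ) := by
      rw [div_mul_eq_mul_div, Complex.conj_mul', div_eq_iff hd1, sq]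
    rwa [e] at h1
  have hsurj : SurjOn φ Ω (ball 0 1) := by
    intro w hw
    by_contra hwn
    obtain ⟨ψ, hψ, hlt⟩ := improve' ho hl hx hφ (mem_ball_zero_iff.mp hw) hwn
    rw [hder.deriv, norm_real, norm_norm] at hlt
    exact absurd (hmax₀ ψ hψ) (not_le.mpr hlt)
  have hleft : LeftInvOn (Function.invFunOn φ Ω) φ Ω := hφ.inj.leftInvOn_invFunOn
  refine ⟨Function.invFunOn φ Ω, φ, _, ⟨isOpen_ball, ho, ?_, hφ.hd, hsurj.mapsTo_invFunOn, hφ.hm,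
    fun z hz => hsurj.rightInvOn_invFunOn hz, fun x hx => hleft hx⟩, ?_, hd0, hder⟩
  · intro w hw
    obtain ⟨y, hy, rfl⟩ := hsurj hw
    have h1 := (hφ.hd.analyticAt (ho.mem_nhds hy)).hasStrictDerivAt
    have h2 := h1.to_local_left_inverse (hφ.dne y hy) (g := Function.invFunOn φ Ω)
      (by filter_upwards [ho.mem_nhds hy] with y hy using hleft hy)
    exact h2.hasDerivAt.differentiableAt.differentiableWithinAt
  · have h0 : φ x = 0 := hφ.zero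
    rw [← h0]
    exact hleft hx

theorem s_rmt (h0 : S_rmt0) (hl : S_hlog) : S_rmt :=
  fun Ω x ho hc hne hx hF => h0 Ω x ho hc hne hx fun F h1 h2 => hl Ω F ho hc hF hne h1 h2

end Vale.Agent.P153.CA
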