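import Vale.Agent.P153.CA.Basic

/-! Uniqueness of the Riemann map up to rotation and the maximum principle. -/

open Set Filter Topology Metric Complex MeasureTheory
open scoped ComplexConjugate ENNReal Real

noncomputable section
namespace Vale.Agent.P153.CA

namespace Rot

theorem schwarz {Ω : Set ℂ} {f φ f' φ' : ℂ → ℂ} (h : Cf (ball 0 1) Ω f φ)
    (h' : Cf (ball 0 1) Ω f' φ') (e : f 0 = f' 0) {z : ℂ} (hz : z ∈ ball (0 : ℂ) 1) :
    ‖φ (f' z)‖ ≤ ‖z‖ :=
  norm_le_norm_of_mapsTo_ball (f := φ ∘ f') (h.hg.comp h'.hf h'.mf)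
    ((h.mg.comp h'.mf).mono_right ball_subset_closedBall)
    (by rw [Function.comp_apply, ← e, h.gf 0 (mem_ball_self one_pos)]) (mem_ball_zero_iff.1 hz)

theorem cpt {U : Set ℂ} {f : ℂ → ℂ} {M : ℝ} (hU : IsOpen U) (hf : DifferentiableOn ℂ f U)
    (h1 : ∀ ζ ∈ frontier U, ∀ ε > 0, ∀ᶠ z in 𝓝[U] ζ, ‖f z‖ ≤ M + ε)
    (h2 : ∀ ε > 0, ∀ᶠ z in cocompact ℂ ⊓ 𝓟 U, ‖f z‖ ≤ M + ε) {t : ℝ} (ht : M < t) :
    IsCompact {z | z ∈ U ∧ t ≤ ‖f z‖} := by
  have hε : 0 < (t - M) / 2 := by linarith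
  obtain ⟨C, hC, hC'⟩ := mem_cocompact.1 (eventually_inf_principal.1 (h2 _ hε))
  refine hC.of_isClosed_subset (isClosed_of_closure_subset fun z hz => ?_) fun z hz => ?_
  · have hfr := mem_closure_iff_frequently.1 hz
    by_cases h : z ∈ U
    · refine ⟨h, ?_⟩
      by_contra hn
      have hc := (hf.continuousOn.continuousAt (hU.mem_nhds h)).norm.eventually
        (gt_mem_nhds (not_le.1 hn))
      obtain ⟨w, hw, hw'⟩ := (hfr.and_eventually hc).exists
      exact hw'.not_ge hw.2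
    · have hb : z ∈ frontier U := by
        rw [hU.frontier_eq]
        exact ⟨closure_mono (fun _ hw => hw.1) hz, h⟩
      obtain ⟨w, hw, hw'⟩ := (hfr.and_eventually (eventually_nhdsWithin_iff.1 (h1 z hb _ hε))).exists
      linarith [hw' hw.1, hw.2]
  · by_contra hn
    linarith [hC' hn hz.1, hz.2]

end Rot

open Rot in
theorem s_rot : S_rot := by
  intro Ω f φ f' φ' h h' e
  have h0 : (φ ∘ f') 0 = 0 := by
    rw [Function.comp_apply, ← e, h.gf 0 (mem_ball_self one_pos)]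
  have hz : (1 / 2 : ℂ) ∈ ball (0 : ℂ) 1 := by
    rw [mem_ball_zero_iff]; norm_num
  have hn : ‖(φ ∘ f') (1 / 2)‖ = ‖(1 / 2 : ℂ)‖ := by
    refine le_antisymm (schwarz h h' e hz) ?_
    have := schwarz h' h e.symm (h.mg (h'.mf hz))
    rwa [h.fg _ (h'.mf hz), h'.gf _ hz] at this
  obtain ⟨c, hc, hm⟩ := affine_of_mapsTo_ball_of_exists_norm_dslope_eq_div' (f := φ ∘ f') (c := 0)
    (R₁ := 1) (R₂ := 1) (h.hg.comp h'.hf h'.mf)
    (by rw [h0]; exact (h.mg.comp h'.mf).mono_right ball_subset_closedBall)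
    ⟨1 / 2, hz, by
      rw [dslope_of_ne _ (by norm_num), slope_def_field, h0, sub_zero, sub_zero, norm_div, hn]
      norm_num⟩
  have key : ∀ z ∈ ball (0 : ℂ) 1, φ (f' z) = c * z := fun z hz => by
    have := hm hz
    simp only [h0, zero_add, sub_zero, smul_eq_mul, Function.comp_apply] at this
    rw [this, mul_comm]
  refine ⟨c, by rw [hc, div_one], fun z hz => ?_, fun w hw => ?_⟩
  · rw [← key z hz, h.fg _ (h'.mf hz)]
  · rw [← key _ (h'.mg hw), h'.fg w hw]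

open Rot in
theorem s_max : S_max := by
  intro U f M hU hf h1 h2 z₀ hz₀
  by_contra hn
  have hM := not_le.1 hn
  obtain ⟨z₁, hz₁, hmax⟩ := (cpt hU hf h1 h2 hM).exists_isMaxOn ⟨z₀, hz₀, le_rfl⟩
    (hf.continuousOn.norm.mono fun _ hw => hw.1)
  have hall : ∀ z ∈ U, ‖f z‖ ≤ ‖f z₁‖ := fun z hz => by
    rcases le_total ‖f z₀‖ ‖f z‖ with h | h
    · exact hmax ⟨hz, h⟩
    · exact h.trans hz₁.2
  have hK := cpt hU hf h1 h2 (hM.trans_le hz₁.2)
  have ho : IsOpen {z | z ∈ U ∧ ‖f z₁‖ ≤ ‖f z‖} := by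
    refine isOpen_iff_mem_nhds.2 fun z hz => ?_
    have hzU := hU.mem_nhds hz.1
    have := norm_eventually_eq_of_isLocalMax (f := f) (c := z)
      (by filter_upwards [hzU] with w hw using hf.differentiableAt (hU.mem_nhds hw))
      (by filter_upwards [hzU] with w hw using (hall w hw).trans hz.2)
    filter_upwards [hzU, this] with w hw hw'
    exact ⟨hw, hz.2.trans hw'.ge⟩
  rw [IsClopen.eq_univ ⟨hK.isClosed, ho⟩ ⟨z₁, hz₁.1, le_rfl⟩] at hK
  exact noncompact_univ ℂ hK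

end Vale.Agent.P153.CA
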