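import Vale.Agent.P153.CA.Basic

/-! The separation lemma for a homeomorphism between plane domains. -/

open Set Filter Topology Metric Complex MeasureTheory
open scoped ComplexConjugate ENNReal Real

noncomputable section
namespace Vale.Agent.P153.CA

open Vale.Agent.P164 (Pth HP Zf fi)

theorem s_sep (hj : S_jan) : S_sep := by
  intro U V C S f g p e h hV hC h1 hS h2 h3 h4 z hz z' hz' h5 h6
  have a1 : closure S ∪ closure (f '' C) ⊆ closedBall p e :=
    union_subset (closure_minimal h2 isClosed_closedBall) (closure_minimal h1 isClosed_closedBall)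
  have a2 : closure S ⊆ Vᶜ := closure_minimal h3.subset_compl_right h.oV.isClosed_compl
  have a3 : (closure S ∪ closure (f '' C)) ∩ Vᶜ = closure S :=
    Subset.antisymm (fun w hw => hw.1.elim id fun h7 => subset_closure (h4 ⟨h7, hw.2⟩))
      fun w hw => ⟨Or.inl hw, a2 hw⟩
  have a4 := hj (closure S ∪ closure (f '' C)) Vᶜ (f z) (f z')
    ((isCompact_closedBall p e).of_isClosed_subset (isClosed_closure.union isClosed_closure) a1)
    h.oV.isClosed_compl (a3.symm ▸ hS.closure)
    (((isPathConnected_ext p e).joinedIn _ h5 _ h6).mono fun w hw h7 =>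
      (not_le.2 (show e < ‖w - p‖ from hw)) (mem_closedBall_iff_norm.1 (a1 h7)))
    (by rw [compl_compl]; exact joinedIn_of_open h.oV hV (h.mf hz) (h.mf hz'))
  have a5 : ∀ w ∈ (closure S ∪ closure (f '' C) ∪ Vᶜ)ᶜ, w ∈ V := fun w hw => by
    by_contra hn
    exact hw (Or.inr hn)
  have a6 := a4.map_continuousOn (h.hg.continuousOn.mono a5)
  rw [h.gf z hz, h.gf z' hz'] at a6
  refine a6.mono ?_
  rintro _ ⟨w, hw, rfl⟩
  exact ⟨h.mg (a5 w hw), fun h7 =>
    hw (Or.inl (Or.inr (subset_closure ⟨_, h7, h.fg w (a5 w hw)⟩)))⟩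

end Vale.Agent.P153.CA
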