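import Vale.Agent.P153.CA.Basic

/-! Connected pieces of the image of a circle are short. -/

open Set Filter Topology Metric Complex MeasureTheory
open scoped ComplexConjugate ENNReal Real

noncomputable section
namespace Vale.Agent.P153.CA

open Vale.Agent.P164 (Pth HP Zf fi)

namespace Short

theorem one (hs : S_shadow) {Ω V : Set ℂ} {g f : ℂ → ℂ} {p : ℂ} {ρ l : ℝ} (h : Cf Ω V g f)
    (hρ : 0 < ρ) (hl : 0 ≤ l) (ha : alen g Ω p ρ ≤ ENNReal.ofReal l) {C : Set ℂ}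
    (hC : C ⊆ Ω ∩ sphere p ρ) (hc : IsPreconnected C) {z z' : ℂ} (hz : z ∈ C) (hz' : z' ∈ C) :
    ‖g z - g z'‖ ≤ l := by
  rcases eq_or_ne (g z - g z') 0 with h0 | h0
  · rwa [h0, norm_zero]
  obtain ⟨φ, hφ, e⟩ := exists_dual_vector ℝ (g z - g z') (norm_ne_zero_iff.2 h0)
  have h1 := hs Ω univ g φ p ρ 1 h.oU h.hf isOpen_univ hρ zero_le_one fun w _ =>
    ⟨φ.differentiableAt, by rw [φ.fderiv, hφ]⟩
  rw [ENNReal.ofReal_one, one_mul, inter_univ] at h1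
  have h2 : IsPreconnected (φ '' (g '' C)) :=
    (hc.image g (h.hf.continuousOn.mono (hC.trans inter_subset_left))).image φ
      φ.continuous.continuousOn
  have h3 : Icc (φ (g z')) (φ (g z)) ⊆ φ '' (g '' (Ω ∩ sphere p ρ)) :=
    (h2.Icc_subset ⟨_, ⟨_, hz', rfl⟩, rfl⟩ ⟨_, ⟨_, hz, rfl⟩, rfl⟩).trans
      (image_mono (image_mono hC))
  have h4 := ((measure_mono h3).trans h1).trans ha
  rw [Real.volume_Icc, ← map_sub, e] at h4
  exact (ENNReal.ofReal_le_ofReal_iff hl).1 h4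

end Short

theorem s_short (hs : S_shadow) : S_short := by
  intro Ω V g f p ρ l h hρ hl ha
  refine ⟨fun C hC hc z hz z' hz' => Short.one hs h hρ hl ha hC hc hz hz', fun hn z hz => ?_⟩
  have hr : range (circleMap p ρ) = sphere p ρ := by rw [range_circleMap, abs_of_pos hρ]
  obtain ⟨θ₀, rfl⟩ : z ∈ range (circleMap p ρ) := hr ▸ hz.2
  have hcont := continuous_circleMap p ρ
  set B : Set ℝ := Ici θ₀ ∩ circleMap p ρ ⁻¹' Ωᶜ with hB
  have hBc : IsClosed B := isClosed_Ici.inter (h.oU.isClosed_compl.preimage hcont)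
  have hBn : B.Nonempty := by
    obtain ⟨w, hw, hw'⟩ := not_subset.1 hn
    obtain ⟨θ, rfl⟩ : w ∈ range (circleMap p ρ) := hr ▸ hw
    obtain ⟨y, hy, e⟩ := (periodic_circleMap p ρ).exists_mem_Ico Real.two_pi_pos θ θ₀
    exact ⟨y, hy.1, show circleMap p ρ y ∉ Ω from e ▸ hw'⟩
  have hBb : BddBelow B := ⟨θ₀, fun x hx => hx.1⟩
  have h1 : sInf B ∈ B := hBc.csInf_mem hBn hBb
  have h2 : θ₀ < sInf B := lt_of_le_of_ne h1.1 fun e => h1.2 (e ▸ hz.1)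
  have h3 : ∀ θ ∈ Ico θ₀ (sInf B), circleMap p ρ θ ∈ Ω := fun θ hθ =>
    by_contra fun hc => absurd (csInf_le hBb ⟨hθ.1, hc⟩) (not_le.2 hθ.2)
  have h4 : ∀ θ ∈ Ico θ₀ (sInf B),
      g (circleMap p ρ θ) ∈ closedBall (g (circleMap p ρ θ₀)) l := fun θ hθ => by
    rw [mem_closedBall, dist_eq_norm]
    refine Short.one hs h hρ hl ha (C := circleMap p ρ '' Ico θ₀ (sInf B)) ?_
      (isPreconnected_Ico.image _ hcont.continuousOn) ⟨θ, hθ, rfl⟩ ⟨θ₀, ⟨le_rfl, h2⟩, rfl⟩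
    rintro _ ⟨t, ht, rfl⟩
    exact ⟨h3 t ht, hr ▸ mem_range_self t⟩
  set U := Ultrafilter.of (𝓝[<] (sInf B)) with hU
  have hle : (U : Filter ℝ) ≤ 𝓝[<] (sInf B) := Ultrafilter.of_le _
  have hI : ∀ᶠ θ in (U : Filter ℝ), θ ∈ Ico θ₀ (sInf B) := hle (Ico_mem_nhdsLT h2)
  obtain ⟨w, hw, hwl⟩ := (isCompact_closedBall (g (circleMap p ρ θ₀)) l).ultrafilter_le_nhds
    (U.map fun θ => g (circleMap p ρ θ)) (le_principal_iff.2 (hI.mono h4))
  have hwt : Tendsto (fun θ => g (circleMap p ρ θ)) U (𝓝 w) := hwl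
  refine ⟨w, ⟨mem_closure_of_tendsto hwt (hI.mono fun θ hθ => h.mf (h3 θ hθ)), ?_⟩, ?_⟩
  · rw [h.oV.interior_eq]
    have ht : Tendsto (circleMap p ρ) U (𝓝 (circleMap p ρ (sInf B))) :=
      (hcont.tendsto _).mono_left (hle.trans nhdsWithin_le_nhds)
    exact fun hV => h1.2 (h.proper (hI.mono h3) ht hwt hV).1
  · rw [norm_sub_rev, ← dist_eq_norm]
    exact hw

end Vale.Agent.P153.CA
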