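import Vale.Agent.P153.CA.Basic
import Vale.Agent.P164.FlowC

/-! The driving function of a simple curve. -/

open Set Filter Topology Metric Complex MeasureTheory
open scoped ComplexConjugate ENNReal Real

noncomputable section
namespace Vale.Agent.P153.CA

open Vale.Agent.P164 (Pth HP Zf fi)

namespace Slit

/-- Restriction of a solution to a shorter interval. -/
theorem solves_mono {W : ℝ → ℝ} {z : ℂ} {t t' : ℝ} {G : ℝ → ℂ} (h : P164.Solves W z t G)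
    (ht : t' ≤ t) : P164.Solves W z t' G :=
  ⟨h.1, fun s hs => ⟨(h.2 s ⟨hs.1, hs.2.trans ht⟩).1,
    (h.2 s ⟨hs.1, hs.2.trans ht⟩).2.mono (Icc_subset_Icc_right ht)⟩⟩

end Slit

theorem s_slit (h0 : S_ch0) (h1 : S_ch1) (h2 : S_ch2) (h3 : S_ch3) (h4 : S_ch4) : S_slit := by
  intro η L hη hL
  obtain ⟨g, f, a, hc⟩ := h0 η L hη
  obtain ⟨U, hG⟩ := h1 η L g f a hη hc
  obtain ⟨C, -, hC⟩ := h2
  have hI := hC η L g f a U hη hc hG
  obtain ⟨a0, U0, g0, ac, am, -, hS⟩ := h3 η L g f a U C hη hc hG hI hL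
  refine ⟨fun s => a s / 2, by simp [a0], ac.div_const 2,
    fun x hx y hy hxy => by have := am hx hy hxy; simp only; linarith, fun S hSL => ?_⟩
  obtain ⟨σ, W, σc, σm, σI, σa, aσ, hW⟩ := hS S hSL
  have hsub : ∀ s ∈ Icc 0 S, s ∈ Ico 0 L := fun s hs => ⟨hs.1, hs.2.trans_lt hSL.2⟩
  have σ0 : σ 0 = 0 := by
    have := σa 0 ⟨le_rfl, hSL.1⟩
    rwa [a0, zero_div] at this
  have σS : σ (a S / 2) = S := σa S ⟨hSL.1, le_rfl⟩
  have hmem : ∀ s ∈ Icc 0 S, a s / 2 ∈ Icc 0 (a S / 2) := fun s hs => by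
    have e1 := am.monotoneOn ⟨le_rfl, hL⟩ (hsub s hs) hs.1
    have e2 := am.monotoneOn (hsub s hs) hSL hs.2
    rw [a0] at e1
    constructor <;> linarith
  have hsol : ∀ s ∈ Icc 0 S, ∀ z ∈ HP \ η '' Ioc 0 s,
      P164.Solves W z (a s / 2) fun u => g (σ u) z := fun s hs z hz =>
    h4 η L g f a U C S σ W hη hc hG hI hSL σ0 g0 σc σm σI aσ hW (a s / 2) (hmem s hs) z
      (by rw [σa s hs]; exact hz)
  refine ⟨W, by rw [hW, σ0, U0], fun t ht => ?_, fun t ht => ?_, fun s hs => ?_⟩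
  · have e1 := σm ht
    simp only at e1
    rw [σS] at e1
    rw [hW, hW]
    simp only
    rw [σS, le_antisymm (σI t).2 e1]
  · have e1 := σm ht
    rw [σ0] at e1
    rw [hW, hW, σ0, le_antisymm e1 (σI t).1]
  · refine Subset.antisymm ?_ fun z hz => ⟨hz.1, _, hsol s hs z hz⟩
    rintro z ⟨hz, G, hG'⟩
    refine ⟨hz, ?_⟩
    rintro ⟨s0, hs0, rfl⟩
    obtain ⟨c, hc0, hlow⟩ := P164.flowC_low hG'
    obtain ⟨δ, hδ, hgr⟩ := hG S hSL.2 (c / 2) (half_pos hc0)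
    have s0S : s0 ∈ Icc 0 S := ⟨hs0.1.le, hs0.2.trans hs.2⟩
    have hlt : max (s0 / 2) (s0 - δ) < s0 := max_lt (half_lt_self hs0.1) (by linarith)
    have hge : s0 - δ ≤ max (s0 / 2) (s0 - δ) := le_max_right _ _
    have hpos : 0 ≤ max (s0 / 2) (s0 - δ) := le_max_of_le_left (half_pos hs0.1).le
    generalize max (s0 / 2) (s0 - δ) = s1 at hlt hge hpos
    have s1S : s1 ∈ Icc 0 S := ⟨hpos, hlt.le.trans s0S.2⟩
    have hout : η s0 ∈ HP \ η '' Ioc 0 s1 := by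
      refine ⟨hz, ?_⟩
      rintro ⟨v, hv, e⟩
      have := hη.inj (hsub v ⟨hv.1.le, hv.2.trans s1S.2⟩) (hsub s0 s0S) e
      exact absurd (this ▸ hv.2) (not_le.2 hlt)
    have hle : a s1 / 2 ≤ a s / 2 := by
      have := am.monotoneOn (hsub s1 s1S) (hsub s hs) (hlt.le.trans hs0.2)
      linarith
    have hm1 := (hmem s1 s1S).1
    have e := P164.flowC_uniq (Slit.solves_mono hG' hle) (hsol s1 s1S _ hout) ⟨hm1, le_rfl⟩
    have e1 := hlow (a s1 / 2) ⟨hm1, hle⟩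
    rw [e, hW] at e1
    simp only [σa s1 s1S] at e1
    have e2 := hgr s1 s1S s0 hlt (hsub s0 s0S).2 (by linarith)
    linarith

end Vale.Agent.P153.CA
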