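import Vale.Agent.P153.CA.Basic

/-! Small connected sets have small images in the disc. -/

open Set Filter Topology Metric Complex MeasureTheory
open scoped ComplexConjugate ENNReal Real

noncomputable section
namespace Vale.Agent.P153.CA

open Vale.Agent.P164 (Pth HP Zf fi)

namespace T2d

/-- The radial projection. -/
def u (w : ℂ) : ℂ := ‖w‖⁻¹ • w

theorem norm_u {w : ℂ} (h : 0 < ‖w‖) : ‖u w‖ = 1 := by
  rw [u, norm_smul, norm_inv, norm_norm, inv_mul_cancel₀ h.ne']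

theorem u_smul {s : ℝ} (hs : 0 < s) (w : ℂ) : u (s • w) = u w := by
  rw [u, u, norm_smul, Real.norm_of_nonneg hs.le, smul_smul, mul_inv, mul_right_comm,
    inv_mul_cancel₀ hs.ne', one_mul]

theorem smul_u {w : ℂ} (h : 0 < ‖w‖) : ‖w‖ • u w = w := by
  rw [u, smul_smul, mul_inv_cancel₀ h.ne', one_smul]

theorem sub_u {w : ℂ} (h : 0 < ‖w‖) (r : ℝ) : ‖w - r • u w‖ = |‖w‖ - r| := by
  nth_rewrite 1 [← smul_u h]
  rw [← sub_smul, norm_smul, norm_u h, mul_one, Real.norm_eq_abs]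

theorem lip {x y : ℂ} (hx : 0 < ‖x‖) (hy : 1 / 2 < ‖y‖) : ‖u x - u y‖ ≤ 4 * ‖x - y‖ := by
  have h0 : 0 < ‖y‖ := by linarith
  have e : ‖y‖ * ‖u x - u y‖ = ‖x - y - (x - ‖y‖ • u x)‖ := by
    rw [← norm_smul_of_nonneg h0.le, smul_sub, smul_u h0, sub_sub_sub_cancel_left]
  have := norm_sub_le (x - y) (x - ‖y‖ • u x)
  rw [sub_u hx, ← e] at this
  nlinarith [abs_norm_sub_norm_le x y, norm_nonneg (u x - u y)]

theorem diff {w : ℂ} (h : 0 < ‖w‖) : DifferentiableAt ℝ u w :=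
  ((differentiableAt_id.norm ℝ (norm_pos_iff.1 h)).fun_inv h.ne').smul differentiableAt_id

theorem grad (T : ℂ →L[ℝ] ℝ) (hT : ∀ w, |T w| ≤ ‖w‖) {w : ℂ} (h : 1 / 2 < ‖w‖) :
    DifferentiableAt ℝ (fun x => T (u x)) w ∧ ‖fderiv ℝ (fun x => T (u x)) w‖ ≤ 4 := by
  refine ⟨T.differentiableAt.comp w (diff (by linarith)), norm_fderiv_le_of_lip' ℝ (by norm_num) ?_⟩
  filter_upwards [(isOpen_lt continuous_const continuous_norm).mem_nhds h] with x hx
  rw [← map_sub]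
  exact (hT _).trans (lip (lt_trans (by norm_num) hx) h)

end T2d

open T2d in
theorem s_t2d (hl : S_la) (hs : S_shadow) (hh : S_short) : S_t2d := by
  intro Ω P g f p r1 r2 C h1 h12 hf hP hc hn z hz z' hz'
  have lg : 0 < √(Real.log (r2 / r1)) := Real.sqrt_pos.2 (Real.log_pos ((one_lt_div h1).2 h12))
  have lt1 : ∀ z ∈ P, ‖g z‖ < 1 := fun z hz => mem_ball_zero_iff.1 (C.mf (hP hz).1)
  obtain ⟨ρ, hρ, ha⟩ := hl Ω g p 0 r1 r2 1 C.oU C.hf C.inj h1 h12 one_pos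
    (image_subset_iff.2 fun z hz => ball_subset_closedBall (C.mf hz.1))
  obtain ⟨l, e⟩ : ∃ l, l = 5 * 1 / √(Real.log (r2 / r1)) := ⟨_, rfl⟩
  have l0 : 0 < l := e ▸ div_pos (by norm_num) lg
  rw [show 50 / √(Real.log (r2 / r1)) = 10 * l by rw [e]; ring]
  rw [← e] at ha
  rcases le_or_gt (1 / 2) l with hl2 | hl2
  · linarith [norm_sub_le (g z) (g z'), lt1 z hz, lt1 z' hz']
  have ρ0 := h1.trans hρ.1
  have key : ∀ z ∈ P, 1 - l ≤ ‖g z‖ ∧ ∃ w ∈ g '' (Ω ∩ sphere p ρ) ∩ {w : ℂ | 1 / 2 < ‖w‖},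
      u w = u (g z) := fun z hz => by
    have le : ∀ s ∈ Icc (0 : ℝ) 1, ‖s • g z‖ ≤ ‖g z‖ := fun s hs => by
      rw [norm_smul_of_nonneg hs.1]
      exact mul_le_of_le_one_left (norm_nonneg _) hs.2
    have m : ∀ s ∈ Icc (0 : ℝ) 1, s • g z ∈ ball (0 : ℂ) 1 := fun s hs =>
      mem_ball_zero_iff.2 ((le s hs).trans_lt (lt1 z hz))
    have c : ContinuousOn (fun s : ℝ => ‖f (s • g z) - p‖) (Icc 0 1) :=
      ((C.hg.continuousOn.comp (by fun_prop) m).sub continuousOn_const).norm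
    obtain ⟨s, h2, h3⟩ := intermediate_value_Icc' zero_le_one c (show ρ ∈ _ from ⟨by
      rw [one_smul, C.gf z (hP hz).1]
      exact (mem_closedBall_iff_norm.1 (hP hz).2).trans hρ.1.le, by
      rw [zero_smul]
      exact hρ.2.le.trans hf⟩)
    have q : f (s • g z) ∈ Ω ∩ sphere p ρ := ⟨C.mg (m s h2), mem_sphere_iff_norm.2 h3⟩
    obtain ⟨w, h4, h5⟩ := (hh Ω _ g f p ρ l C ρ0 l0.le ha).2 (hn ρ hρ) _ q
    rw [frontier_ball _ one_ne_zero, mem_sphere_zero_iff_norm] at h4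
    rw [C.fg _ (m s h2)] at h5
    have h6 : 1 - l ≤ ‖s • g z‖ := by linarith [norm_sub_norm_le w (s • g z), norm_sub_rev w (s • g z)]
    refine ⟨h6.trans (le s h2), s • g z, ⟨⟨_, q, C.fg _ (m s h2)⟩,
      show 1 / 2 < ‖s • g z‖ by linarith⟩, u_smul (h2.1.lt_of_ne ?_) _⟩
    rintro rfl
    rw [zero_smul, norm_zero] at h6
    linarith
  have sh : ∀ T : ℂ →L[ℝ] ℝ, (∀ w, |T w| ≤ ‖w‖) → ∀ z ∈ P, ∀ z' ∈ P,
      T (u (g z)) - T (u (g z')) ≤ 4 * l := fun T hT z hz z' hz' => by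
    have c : ContinuousOn (fun z => T (u (g z))) P := fun z hz =>
      ((grad T hT (show 1 / 2 < ‖g z‖ by linarith [(key z hz).1])).1.continuousAt.comp
        (C.cf (hP hz).1)).continuousWithinAt
    have i : Icc (T (u (g z'))) (T (u (g z))) ⊆
        (fun x => T (u x)) '' (g '' (Ω ∩ sphere p ρ) ∩ {w : ℂ | 1 / 2 < ‖w‖}) :=
      (hc.intermediate_value hz' hz c).trans (image_subset_iff.2 fun y hy =>
        let ⟨w, h2, h3⟩ := (key y hy).2
        ⟨w, h2, congrArg T h3⟩)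
    have v := (measure_mono i).trans ((hs Ω _ g _ p ρ 4 C.oU C.hf
      (isOpen_lt continuous_const continuous_norm) ρ0 (by norm_num) fun w hw =>
        grad T hT hw).trans (mul_le_mul_right ha _))
    rwa [Real.volume_Icc, ← ENNReal.ofReal_mul (by norm_num),
      ENNReal.ofReal_le_ofReal_iff (by linarith)] at v
  have nr : ∀ z ∈ P, ‖g z - u (g z)‖ ≤ l := fun z hz => by
    have := sub_u (show 0 < ‖g z‖ by linarith [(key z hz).1]) 1
    rw [one_smul] at this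
    rw [this, abs_le]
    constructor <;> linarith [(key z hz).1, lt1 z hz]
  have a1 := abs_sub_le_iff.2 ⟨sh reCLM abs_re_le_norm z hz z' hz',
    sh reCLM abs_re_le_norm z' hz' z hz⟩
  have a2 := abs_sub_le_iff.2 ⟨sh imCLM abs_im_le_norm z hz z' hz',
    sh imCLM abs_im_le_norm z' hz' z hz⟩
  have a3 := norm_le_abs_re_add_abs_im (u (g z) - u (g z'))
  rw [sub_re, sub_im] at a3
  rw [reCLM_apply, reCLM_apply] at a1
  rw [imCLM_apply, imCLM_apply] at a2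
  linarith [norm_sub_le_norm_sub_add_norm_sub (g z) (u (g z)) (g z'),
    norm_sub_le_norm_sub_add_norm_sub (u (g z)) (u (g z')) (g z'), nr z hz, nr z' hz',
    norm_sub_rev (g z') (u (g z'))]

end Vale.Agent.P153.CA
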