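import Vale.Agent.P153.CA.Basic

/-! Small connected sets have small images in the half-plane. -/

open Set Filter Topology Metric Complex MeasureTheory
open scoped ComplexConjugate ENNReal Real

noncomputable section
namespace Vale.Agent.P153.CA

open Vale.Agent.P164 (Pth HP Zf fi)

namespace T2h

theorem up {Ω : Set ℂ} {g f : ℂ → ℂ} {p c z : ℂ} {r1 r2 R ρ : ℝ} (h : Cf Ω HP g f)
    (hR : 0 < R) (hc : g '' (Ω ∩ ball p r2) ⊆ closedBall c R) (hz : z ∈ Ω ∩ closedBall p r1)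
    (hρ : ρ ∈ Ioo r1 r2) : ∃ z1 ∈ Ω ∩ sphere p ρ, ∃ s : ℝ, 0 ≤ s ∧ g z1 = g z + s * I := by
  have hw : 0 < (g z).im := h.mf hz.1
  have hm : ∀ s : ℝ, 0 ≤ s → g z + s * I ∈ HP := fun s hs => by
    show 0 < (g z + s * I).im
    simp only [add_im, mul_im, ofReal_re, I_im, mul_one, ofReal_im, I_re, mul_zero, add_zero]
    linarith
  set S : ℝ := R + ‖g z - c‖ + 1 with hS
  have hS0 : 0 ≤ S := by positivity
  have hcont : ContinuousOn (fun s : ℝ => ‖f (g z + s * I) - p‖) (Icc 0 S) :=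
    ((h.hg.continuousOn.comp (by fun_prop) fun s hs => hm s hs.1).sub continuousOn_const).norm
  have h0 : ‖f (g z + ((0 : ℝ) : ℂ) * I) - p‖ ≤ ρ := by
    rw [ofReal_zero, zero_mul, add_zero, h.gf z hz.1, ← dist_eq_norm]
    exact (mem_closedBall.1 hz.2).trans hρ.1.le
  have h1 : ρ ≤ ‖f (g z + (S : ℂ) * I) - p‖ := by
    by_contra hn
    have h2 := hc ⟨f (g z + (S : ℂ) * I), ⟨h.mg (hm S hS0), by
      rw [mem_ball, dist_eq_norm]; linarith [hρ.2]⟩, rfl⟩
    rw [h.fg _ (hm S hS0), mem_closedBall, dist_eq_norm] at h2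
    have h3 : ‖(S : ℂ) * I‖ ≤ ‖g z + (S : ℂ) * I - c‖ + ‖g z - c‖ := by
      have : (S : ℂ) * I = (g z + (S : ℂ) * I - c) - (g z - c) := by ring
      conv_lhs => rw [this]
      exact norm_sub_le _ _
    rw [norm_mul, norm_I, mul_one, norm_real, Real.norm_of_nonneg hS0] at h3
    linarith
  obtain ⟨s, hs, e⟩ := intermediate_value_Icc hS0 hcont ⟨h0, h1⟩
  exact ⟨f (g z + s * I), ⟨h.mg (hm s hs.1), by rw [mem_sphere, dist_eq_norm]; exact e⟩, s, hs.1,
    h.fg _ (hm s hs.1)⟩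

end T2h

theorem s_t2h (hl : S_la) (hs : S_shadow) (hh : S_short) : S_t2h := by
  intro Ω P g f p c r1 r2 R h h1 h12 hR hc hP hPc hsp
  obtain ⟨ρ, hρ, ha⟩ := hl Ω g p c r1 r2 R h.oU h.hf h.inj h1 h12 hR hc
  have e10 : 10 * R / √(Real.log (r2 / r1)) =
      5 * R / √(Real.log (r2 / r1)) + 5 * R / √(Real.log (r2 / r1)) := by ring
  rw [e10]
  have hl0 : 0 ≤ 5 * R / √(Real.log (r2 / r1)) := by positivity
  generalize 5 * R / √(Real.log (r2 / r1)) = l at ha hl0 ⊢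
  have hρ0 : 0 < ρ := h1.trans hρ.1
  have him : ∀ z ∈ P, (g z).im ≤ l := fun z hz => by
    obtain ⟨z1, hz1, s, hs0, e⟩ := T2h.up h hR hc (hP hz) hρ
    obtain ⟨w, hw, hw1⟩ := (hh Ω HP g f p ρ l h hρ0 hl0 ha).2 (hsp ρ hρ) z1 hz1
    rw [frontier_HP] at hw
    have h2 := (le_abs_self _).trans ((abs_im_le_norm (g z1 - w)).trans hw1)
    have h3 : w.im = 0 := hw
    rw [e] at h2
    simp only [sub_im, add_im, mul_im, ofReal_re, I_im, mul_one, ofReal_im, I_re, mul_zero,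
      add_zero, h3, sub_zero] at h2
    linarith
  refine ⟨him, fun z hz z' hz' => ?_⟩
  have hv := hs Ω univ g re p ρ 1 h.oU h.hf isOpen_univ hρ0 zero_le_one fun w _ =>
    ⟨reCLM.differentiableAt, by
      have : fderiv ℝ re w = reCLM := reCLM.fderiv
      rw [this, reCLM_norm]⟩
  rw [ENNReal.ofReal_one, one_mul, inter_univ] at hv
  have hT : IsPreconnected ((fun z => (g z).re) '' P) :=
    hPc.image _ (continuous_re.comp_continuousOn
      (h.hf.continuousOn.mono fun z hz => (hP hz).1))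
  have hsub : uIcc (g z).re (g z').re ⊆ re '' (g '' (Ω ∩ sphere p ρ)) := by
    refine (hT.ordConnected.uIcc_subset ⟨z, hz, rfl⟩ ⟨z', hz', rfl⟩).trans ?_
    rintro _ ⟨y, hy, rfl⟩
    obtain ⟨z1, hz1, s, -, e⟩ := T2h.up h hR hc (hP hy) hρ
    exact ⟨g z1, ⟨z1, hz1, rfl⟩, by simp [e]⟩
  have h2 := ((measure_mono (μ := volume) hsub).trans hv).trans ha
  rw [Real.volume_interval, ENNReal.ofReal_le_ofReal_iff hl0] at h2
  have h3 : 0 < (g z).im := h.mf (hP hz).1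
  have h4 : 0 < (g z').im := h.mf (hP hz').1
  refine (norm_le_abs_re_add_abs_im _).trans (add_le_add ?_ ?_)
  · rw [sub_re, abs_sub_comm]; exact h2
  · rw [sub_im, abs_le]
    constructor <;> linarith [him z hz, him z' hz']

end Vale.Agent.P153.CA
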