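import Vale.Agent.P153.CA.Basic

/-! Uniform local connectedness of loops close to a Jordan curve. -/

open Set Filter Topology Metric Complex MeasureTheory
open scoped ComplexConjugate ENNReal Real

noncomputable section
namespace Vale.Agent.P153.CA

theorem s_ulc : S_ulc := by
  intro j0 h0 ε hε
  obtain ⟨δ, hδ, hu⟩ := Metric.uniformContinuousOn_iff.1
    ((isCompact_Icc (a := (-1 : ℝ)) (b := 2)).uniformContinuousOn_of_continuous
      h0.cont.continuousOn) (ε / 3) (by positivity)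
  obtain ⟨h, h1, h2, h3⟩ : ∃ h : ℝ, 0 < h ∧ h < δ ∧ h ≤ 1 / 4 :=
    ⟨min (δ / 2) (1 / 4), by positivity, (min_le_left _ _).trans_lt (half_lt_self hδ),
      min_le_right _ _⟩
  have hc := h0.cont
  obtain ⟨m, hm, hm'⟩ := ((isCompact_Icc (a := (0 : ℝ)) (b := 0 + 1)).prod
    (isCompact_Icc (a := h) (b := 1 - h))).exists_forall_le'
      (f := fun q : ℝ × ℝ => ‖j0 (q.1 + q.2) - j0 q.1‖) (a := 0) (by fun_prop) (by
        rintro ⟨s, u⟩ ⟨-, hu1, hu2⟩
        refine norm_pos_iff.2 (sub_ne_zero.2 fun e => ?_)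
        obtain ⟨k, hk⟩ := h0.eq_iff e
        have k1 : (0 : ℝ) < k := by linarith
        have k2 : (k : ℝ) < 1 := by linarith
        have k3 : 0 < k := by exact_mod_cast k1
        have k4 : k < 1 := by exact_mod_cast k2
        omega)
  obtain ⟨ρ, r1, r2, r3⟩ : ∃ ρ : ℝ, 0 < ρ ∧ ρ ≤ ε / 10 ∧ ρ ≤ m / 5 :=
    ⟨min (ε / 10) (m / 5), by positivity, min_le_left _ _, min_le_right _ _⟩
  refine ⟨ρ, r1, fun j hj hjj p => ?_⟩
  by_cases hd : Disjoint (range j) (closedBall p ρ)
  · exact ⟨∅, range j, isCompact_empty, isPreconnected_empty, hj.isCompact, hj.isPreconnected,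
      empty_union _, empty_subset _, hd⟩
  rw [hj.range_Icc 0, not_disjoint_iff] at hd
  obtain ⟨_, ⟨t, ht, rfl⟩, hp⟩ := hd
  have d : ∀ s, dist (j s) (j0 s) ≤ ρ := fun s => by rw [dist_eq_norm]; exact hjj s
  rw [mem_closedBall] at hp
  refine ⟨j '' Icc (t - h) (t + h), j '' Icc (t + h) (t - h + 1), isCompact_Icc.image hj.cont,
    isPreconnected_Icc.image _ hj.cont.continuousOn, isCompact_Icc.image hj.cont,
    isPreconnected_Icc.image _ hj.cont.continuousOn, ?_, ?_, ?_⟩
  · rw [← image_union, Icc_union_Icc_eq_Icc (by linarith) (by linarith), hj.range_Icc (t - h)]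
  · rintro _ ⟨s, hs, rfl⟩
    have k1 := hu s ⟨by linarith [hs.1, ht.1], by linarith [hs.2, ht.2]⟩ t
      ⟨by linarith [ht.1], by linarith [ht.2]⟩ (by
        rw [Real.dist_eq, abs_lt]
        constructor <;> linarith [hs.1, hs.2])
    have k2 := dist_triangle4 (j s) (j0 s) (j0 t) (j t)
    have k3 := dist_triangle (j s) (j t) p
    rw [dist_comm (j0 t)] at k2
    rw [mem_ball]
    linarith [d s, d t]
  · rw [disjoint_left]
    rintro _ ⟨s, hs, rfl⟩ hp'
    rw [mem_closedBall] at hp'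
    have k1 := hm' (t, s - t) ⟨ht, by linarith [hs.1], by linarith [hs.2]⟩
    simp only [add_sub_cancel, ← dist_eq_norm] at k1
    have k2 := dist_triangle4 (j0 s) (j s) (j t) (j0 t)
    have k3 := dist_triangle_right (j s) (j t) p
    rw [dist_comm (j0 s) (j s)] at k2
    linarith [d s, d t]

end Vale.Agent.P153.CA
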