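import Vale.Agent.P153.CA.Basic

/-! Loops close to a Jordan curve surround the compact subsets of the domain. -/

open Set Filter Topology Metric Complex MeasureTheory
open scoped ComplexConjugate ENNReal Real

noncomputable section
namespace Vale.Agent.P153.CA

namespace Wind

theorem no_log (hc : S_bconv) {ψ : ℂ → ℂ} (hψ : IsJordanMap ψ) {a : ℂ} (ha : a ∈ ball (0 : ℂ) 1) :
    ¬ HasLog (fun z => ψ z - ψ a) (sphere 0 1) := by
  intro hl
  have hn := isOpen_ball.mem_nhds ha
  have hne : ∀ z ∈ closedBall (0 : ℂ) 1, z ≠ a → ψ z - ψ a ≠ 0 := fun z hz h e =>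
    h (hψ.2.1 hz (ball_subset_closedBall ha) (sub_eq_zero.1 e))
  have h1 : AnalyticAt ℂ (fun z => ψ z - ψ a) a := (hψ.2.2.analyticAt hn).sub analyticAt_const
  obtain ⟨m, g, h2, h3, h4⟩ := h1.exists_eventuallyEq_pow_smul_nonzero_iff.2 fun h => by
    have h5 : ∀ᶠ z in 𝓝[≠] a, False := by
      filter_upwards [nhdsWithin_le_nhds h, nhdsWithin_le_nhds hn, self_mem_nhdsWithin]
        with z e1 e2 e3
      exact hne z (ball_subset_closedBall e2) e3 e1
    exact h5.exists.choose_spec
  have hm : m ≠ 0 := by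
    rintro rfl
    exact h3 (by simpa using h4.self_of_nhds.symm)
  classical
  let G : ℂ → ℂ := fun z => if z = a then g a else (ψ z - ψ a) / (z - a) ^ m
  have hG0 : ∀ z ∈ closedBall (0 : ℂ) 1, G z ≠ 0 := fun z hz => by
    by_cases h : z = a
    · simpa [G, h] using h3
    · simp only [G, if_neg h]
      exact div_ne_zero (hne z hz h) (pow_ne_zero _ (sub_ne_zero.2 h))
  have hG : ContinuousOn G (closedBall 0 1) := fun z hz => by
    by_cases h : z = a
    · subst h
      refine (h2.continuousAt.congr (h4.mono fun y hy => ?_)).continuousWithinAt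
      by_cases e : y = z
      · simp [G, e]
      · simp only [G, if_neg e, hy, smul_eq_mul]
        rw [mul_div_cancel_left₀ _ (pow_ne_zero _ (sub_ne_zero.2 e))]
    · have h5 : ContinuousWithinAt (fun z => (ψ z - ψ a) / (z - a) ^ m) (closedBall 0 1) z :=
        ((hψ.1 z hz).sub continuousWithinAt_const).div (by fun_prop)
          (pow_ne_zero _ (sub_ne_zero.2 h))
      refine h5.congr_of_eventuallyEq ?_ (if_neg h)
      filter_upwards [nhdsWithin_le_nhds (isOpen_ne.mem_nhds h)] with y hy using if_neg hy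
  have e := closure_ball (0 : ℂ) one_ne_zero
  refine hm (Int.natCast_eq_zero.1 (hc (ball 0 1) a m (fun z => (G z)⁻¹) isOpen_ball isBounded_ball
    ha (e ▸ hG.inv₀ hG0) (fun z hz => inv_ne_zero (hG0 z (e ▸ hz))) ?_))
  rw [frontier_ball _ one_ne_zero]
  refine hl.congr fun z hz => ?_
  have h : z ≠ a := by
    rintro rfl
    exact (mem_ball.1 ha).ne (mem_sphere.1 hz)
  simp only [G, if_neg h, zpow_natCast, div_inv_eq_mul]
  rw [mul_div_cancel₀ _ (pow_ne_zero _ (sub_ne_zero.2 h))]

end Wind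

theorem s_wind (hd : S_bdir) (hc : S_bconv) : S_wind := by
  intro ψ K hψ hK hsub
  have hJ : IsCompact (ψ '' sphere 0 1) :=
    (isCompact_sphere 0 1).image_of_continuousOn (hψ.1.mono sphere_subset_closedBall)
  have hdis : Disjoint K (ψ '' sphere 0 1) := by
    refine disjoint_left.2 fun z hz ⟨w, hw, e⟩ => ?_
    obtain ⟨a, ha, rfl⟩ := hsub hz
    have := hψ.2.1 (sphere_subset_closedBall hw) (ball_subset_closedBall ha) e
    exact (mem_ball.1 ha).ne (this ▸ mem_sphere.1 hw)
  obtain ⟨d, hd0, h1⟩ := hdis.exists_thickenings hK hJ.isClosed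
  refine ⟨d / 3, by positivity, fun j hj hn z hz => ?_⟩
  have h2 : ∀ t, d ≤ ‖ψ (circ t) - z‖ := fun t => by
    by_contra h
    refine disjoint_left.1 h1 (mem_thickening_iff.2 ⟨z, hz, ?_⟩)
      (self_subset_thickening hd0 _ ⟨_, circ_mem t, rfl⟩)
    rw [dist_eq_norm]; exact not_le.1 h
  have h3 : ∀ t, 2 * d / 3 ≤ ‖j t - z‖ := fun t => by
    have := norm_sub_le_norm_sub_add_norm_sub (ψ (circ t)) (j t) z
    rw [norm_sub_rev (ψ _) (j t)] at this
    linarith [h2 t, hn t]
  have h4 : ∀ t, j t - z ≠ 0 := fun t e => by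
    have := h3 t
    rw [e, norm_zero] at this
    linarith
  have hz' : z ∉ range j := fun ⟨t, e⟩ => h4 t (sub_eq_zero.2 e)
  refine ⟨hz', ?_⟩
  by_contra hb
  obtain ⟨l, h5, h6⟩ := hd.2 (range j) _ z hj.isCompact isPreconnected_connectedComponentIn
    (disjoint_left.2 fun _ h => connectedComponentIn_subset _ _ h)
    (mem_connectedComponentIn hz') hb
  obtain ⟨a, ha, rfl⟩ := hsub hz
  have hp := jloop_comp hψ
  have h7 : ∀ t, (ψ (circ t) - ψ a) / (j t - ψ a) ∈ slitPlane := fun t => by
    have e : (ψ (circ t) - ψ a) / (j t - ψ a) = 1 + (ψ (circ t) - j t) / (j t - ψ a) := by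
      field_simp [h4 t]; ring
    rw [e]
    refine mem_slitPlane_of_norm_lt_one ?_
    rw [norm_div, div_lt_one (norm_pos_iff.2 (h4 t)), norm_sub_rev]
    linarith [hn t, h3 t]
  let L : ℝ → ℂ := fun t => l (j t) + log ((ψ (circ t) - ψ a) / (j t - ψ a))
  have hL : Continuous L :=
    (h5.comp_continuous hj.cont mem_range_self).add
      (((hp.cont.sub continuous_const).div (hj.cont.sub continuous_const) h4).clog h7)
  have hper : Function.Periodic L 1 := fun t => by
    simp only [L, hj.per t, jloop_circ.per t]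
  obtain ⟨l', h8, h9⟩ := descend (K := Icc 0 (0 + 1)) isCompact_Icc jloop_circ.cont.continuousOn
    hL.continuousOn fun s _ t _ e => by
      obtain ⟨k, rfl⟩ := jloop_circ.eq_iff e
      simpa using hper.int_mul k t
  refine Wind.no_log hc hψ ha ?_
  rw [← range_circ, jloop_circ.toLoop.range_Icc 0]
  refine ⟨l', h8, ?_⟩
  rintro _ ⟨t, ht, rfl⟩
  rw [h9 t ht, exp_add, h6 _ (mem_range_self t), exp_log (slitPlane_ne_zero (h7 t))]
  exact mul_div_cancel₀ _ (h4 t)

end Vale.Agent.P153.CA
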