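import Vale.Agent.P153.CA.Bdir
import Vale.Agent.P153.CA.Bconv
import Vale.Agent.P153.CA.Bc2
import Vale.Agent.P153.CA.Jan
import Vale.Agent.P153.CA.Arc
import Vale.Agent.P153.CA.Jct
import Vale.Agent.P153.CA.Wind
import Vale.Agent.P153.CA.Sep
import Vale.Agent.P153.CA.Ulc
import Vale.Agent.P153.CA.Loc
import Vale.Agent.P153.CA.PrimK
import Vale.Agent.P153.CA.Hlog
import Vale.Agent.P153.CA.Rmt0
import Vale.Agent.P153.CA.Rot
import Vale.Agent.P153.CA.Inv
import Vale.Agent.P153.CA.La
import Vale.Agent.P153.CA.Shadow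
import Vale.Agent.P153.CA.Short
import Vale.Agent.P153.CA.T2h
import Vale.Agent.P153.CA.T2d
import Vale.Agent.P153.CA.Equi
import Vale.Agent.P153.CA.Iequi
import Vale.Agent.P153.CA.Car
import Vale.Agent.P153.CA.Rado
import Vale.Agent.P153.CA.Ext
import Vale.Agent.P153.CA.Hull
import Vale.Agent.P153.CA.Imle
import Vale.Agent.P153.CA.Est
import Vale.Agent.P153.CA.Est2
import Vale.Agent.P153.CA.Ch0
import Vale.Agent.P153.CA.Ch1
import Vale.Agent.P153.CA.Ch2
import Vale.Agent.P153.CA.Ch3
import Vale.Agent.P153.CA.Ch4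
import Vale.Agent.P153.CA.Slit

/-! The unconditional statements of part one. -/

namespace Vale.Agent.P153.CA

theorem bc2_all : S_bc2 := s_bc2 s_bconv
theorem jan_all : S_jan := s_jan s_bdir bc2_all
theorem arc_all : S_arc := s_arc bc2_all jan_all
theorem jct_all : S_jct := s_jct s_bconv
theorem wind_all : S_wind := s_wind s_bdir s_bconv
theorem sep_all : S_sep := s_sep jan_all
theorem loc_all : S_loc := s_loc s_ulc jan_all jct_all
theorem hlog_all : S_hlog := s_hlog (s_primK s_bdir)
theorem rmt_all : S_rmt := s_rmt s_rmt0 hlog_all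
theorem short_all : S_short := s_short s_shadow
theorem t2h_all : S_t2h := s_t2h s_la s_shadow short_all
theorem t2d_all : S_t2d := s_t2d s_la s_shadow short_all
theorem equi_all : S_equi := s_equi s_ulc sep_all s_la short_all jct_all
theorem iequi_all : S_iequi := s_iequi loc_all t2d_all jct_all
theorem car_all : S_car := s_car rmt_all jct_all equi_all iequi_all
theorem rado_all : S_rado := s_rado equi_all s_inv s_rot jct_all
theorem hull_all : S_hull := s_hull (s_ext rmt_all s_rot) s_inv
theorem imle_all : S_imle := s_imle s_max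
theorem huniq_all : S_huniq := s_huniq imle_all s_hcomp
theorem est_all : S_est := s_est imle_all
theorem est2_all : S_est2 := s_est2 est_all
theorem ch0_all : S_ch0 := s_ch0 arc_all hull_all est2_all
theorem ch1_all : S_ch1 := s_ch1 t2h_all
theorem ch2_all : S_ch2 := s_ch2 hull_all est_all est2_all s_hcomp huniq_all
theorem ch3_all : S_ch3 := s_ch3 huniq_all
theorem slit_all : S_slit := s_slit ch0_all ch1_all ch2_all ch3_all s_ch4

end Vale.Agent.P153.CA
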