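import Vale.Agent.P153.CA.Basic

/-! Logarithms of ratios for points in the same component of the complement. -/

open Set Filter Topology Metric Complex MeasureTheory
open scoped ComplexConjugate ENNReal Real

noncomputable section
namespace Vale.Agent.P153.CA

namespace Bdir

theorem part1 (A S : Set ℂ) (p q : ℂ) (hA : IsClosed A) (hS : IsPreconnected S)
    (hd : Disjoint S A) (hp : p ∈ S) (hq : q ∈ S) : HasLog (fun z => (z - p) / (z - q)) A := by
  refine hS.induction₂' (fun p q => HasLog (fun z => (z - p) / (z - q)) A) (fun x hx => ?_)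
    (fun x y w _ hy _ h1 h2 => (h1.mul h2).congr fun z hz => ?_) hp hq
  · have hx' : x ∉ A := disjoint_left.1 hd hx
    obtain ⟨r, hr, h1⟩ := Metric.isOpen_iff.1 hA.isOpen_compl x hx'
    filter_upwards [mem_nhdsWithin_of_mem_nhds (ball_mem_nhds x hr)] with y hy
    have h2 : ∀ z ∈ A, z - x ≠ 0 := fun z hz e => hx' (sub_eq_zero.1 e ▸ hz)
    have h3 : HasLog (fun z => (z - y) / (z - x)) A := by
      refine (hasLog_slit (f := fun z => 1 + (x - y) / (z - x)) (continuousOn_const.add
        (continuousOn_const.div (by fun_prop) h2)) fun z hz => ?_).congr fun z hz => ?_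
      · refine mem_slitPlane_of_norm_lt_one ?_
        have h4 : r ≤ dist z x := not_lt.1 fun h => h1 h hz
        rw [norm_div, div_lt_one (norm_pos_iff.2 (h2 z hz)), ← dist_eq_norm, ← dist_eq_norm,
          dist_comm]
        exact lt_of_lt_of_le hy h4
      · have := h2 z hz
        field_simp
        ring
    exact ⟨h3.inv.congr fun z _ => inv_div _ _, h3⟩
  · have h3 : z - y ≠ 0 := fun e => disjoint_left.1 hd hy (sub_eq_zero.1 e ▸ hz)
    rw [div_mul_div_cancel₀ h3]

end Bdir

theorem s_bdir : S_bdir := by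
  refine ⟨Bdir.part1, fun A S p hA hS hd hp hu => ?_⟩
  obtain ⟨R, hR, h1⟩ := hA.isBounded.subset_ball_lt 0 0
  obtain ⟨q, hq, h2⟩ := not_subset.1 fun h : S ⊆ ball 0 R => hu (isBounded_ball.subset h)
  rw [mem_ball_zero_iff, not_lt] at h2
  have h3 : q ≠ 0 := norm_pos_iff.1 (hR.trans_le h2)
  have h4 : HasLog (fun z => 1 + -z / q) A :=
    hasLog_slit (by fun_prop) fun z hz => mem_slitPlane_of_norm_lt_one (by
      rw [norm_div, norm_neg, div_lt_one (hR.trans_le h2)]
      exact (mem_ball_zero_iff.1 (h1 hz)).trans_le h2)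
  refine (((Bdir.part1 A S p q hA.isClosed hS hd hp hq).mul h4).mul
    (hasLog_const (neg_ne_zero.2 h3) A)).congr fun z hz => ?_
  have h5 : z - q ≠ 0 := fun e => disjoint_left.1 hd hq (sub_eq_zero.1 e ▸ hz)
  field_simp
  ring

end Vale.Agent.P153.CA
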