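import Vale.Agent.P153.CA.Stm

/-! Elementary facts on logarithms, loops and conformal maps. -/

open Set Filter Topology Metric Complex MeasureTheory
open scoped ComplexConjugate ENNReal Real

noncomputable section
namespace Vale.Agent.P153.CA

open Vale.Agent.P164 (Pth HP Zf fi)

/-! ### Logarithms -/

theorem HasLog.mono {f : ℂ → ℂ} {A B : Set ℂ} (h : HasLog f A) (hB : B ⊆ A) : HasLog f B :=
  let ⟨l, h1, h2⟩ := h; ⟨l, h1.mono hB, fun z hz => h2 z (hB hz)⟩

theorem HasLog.congr {f g : ℂ → ℂ} {A : Set ℂ} (h : HasLog f A) (e : ∀ z ∈ A, f z = g z) :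
    HasLog g A :=
  let ⟨l, h1, h2⟩ := h; ⟨l, h1, fun z hz => (h2 z hz).trans (e z hz)⟩

theorem HasLog.mul {f g : ℂ → ℂ} {A : Set ℂ} (h : HasLog f A) (h' : HasLog g A) :
    HasLog (fun z => f z * g z) A :=
  let ⟨l, h1, h2⟩ := h; let ⟨l', h1', h2'⟩ := h'
  ⟨fun z => l z + l' z, h1.add h1', fun z hz => by rw [exp_add, h2 z hz, h2' z hz]⟩

theorem HasLog.inv {f : ℂ → ℂ} {A : Set ℂ} (h : HasLog f A) : HasLog (fun z => (f z)⁻¹) A :=
  let ⟨l, h1, h2⟩ := h
  ⟨fun z => -l z, h1.neg, fun z hz => by rw [exp_neg, h2 z hz]⟩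

theorem HasLog.div {f g : ℂ → ℂ} {A : Set ℂ} (h : HasLog f A) (h' : HasLog g A) :
    HasLog (fun z => f z / g z) A :=
  (h.mul h'.inv).congr fun _ _ => (div_eq_mul_inv _ _).symm

theorem HasLog.ne {f : ℂ → ℂ} {A : Set ℂ} (h : HasLog f A) {z : ℂ} (hz : z ∈ A) : f z ≠ 0 :=
  let ⟨_, _, h2⟩ := h; h2 z hz ▸ exp_ne_zero _

theorem hasLog_const {c : ℂ} (hc : c ≠ 0) (A : Set ℂ) : HasLog (fun _ => c) A :=
  ⟨fun _ => log c, continuousOn_const, fun _ _ => exp_log hc⟩

theorem hasLog_slit {f : ℂ → ℂ} {A : Set ℂ} (hf : ContinuousOn f A)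
    (h : ∀ z ∈ A, f z ∈ slitPlane) : HasLog f A :=
  ⟨fun z => log (f z), hf.clog h, fun z hz => exp_log (slitPlane_ne_zero (h z hz))⟩

/-- A continuous function without zeros on the plane has a logarithm. -/
theorem hasLog_univ {f : ℂ → ℂ} (hf : Continuous f) (h : ∀ z, f z ≠ 0) : HasLog f univ := by
  have hsc : IsSimplyConnected (univ : Set ℂ) := by
    have : ContractibleSpace (univ : Set ℂ) := (convex_univ (𝕜 := ℝ)).contractibleSpace ⟨0, trivial⟩
    exact SimplyConnectedSpace.ofContractible _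
  obtain ⟨l, h1, h2⟩ := Complex.exists_continuousOn_eqOn_exp_comp hsc isOpen_univ hf.continuousOn
    (by rintro ⟨z, -, hz⟩; exact h z hz)
  exact ⟨l, h1, fun z hz => h2 hz⟩

/-- Two logarithms differ by a constant on a connected set. -/
theorem log_const {X : Type*} [TopologicalSpace X] {S : Set X} (hS : IsPreconnected S)
    {l l' : X → ℂ} (h : ContinuousOn l S) (h' : ContinuousOn l' S)
    (e : ∀ x ∈ S, exp (l x) = exp (l' x)) {x y : X} (hx : x ∈ S) (hy : y ∈ S) :
    l x - l' x = l y - l' y := by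
  have e1 : ∀ x ∈ S, exp (l x - l' x) = 1 := fun x hx => by
    rw [exp_sub, e x hx, div_self (exp_ne_zero _)]
  exact Complex.isCoveringMap_exp.constOn_of_comp (g := fun x => l x - l' x) hS (h.sub h')
    (fun a ha b hb => Subtype.ext (by simp [e1 a ha, e1 b hb])) hx hy

/-- Lifting along an interval. -/
theorem lift_Icc {g : ℝ → ℂ} {a b : ℝ} (hab : a ≤ b) (hg : ContinuousOn g (Icc a b))
    (h : ∀ t ∈ Icc a b, g t ≠ 0) :
    ∃ L : ℝ → ℂ, Continuous L ∧ ∀ t ∈ Icc a b, exp (L t) = g t := by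
  have hc : Continuous fun z : ℂ => g (projIcc a b hab z.re) :=
    hg.comp_continuous (continuous_subtype_val.comp (continuous_projIcc.comp continuous_re))
      fun z => (projIcc a b hab z.re).2
  obtain ⟨l, h1, h2⟩ := hasLog_univ hc fun z => h _ (projIcc a b hab z.re).2
  refine ⟨fun t => l t, (continuousOn_univ.1 h1).comp continuous_ofReal, fun t ht => ?_⟩
  rw [h2 _ trivial]
  simp only [ofReal_re, projIcc_of_mem hab ht]

/-- Lifting along the line. -/
theorem lift_real {g : ℝ → ℂ} (hg : Continuous g) (h : ∀ t, g t ≠ 0) :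
    ∃ L : ℝ → ℂ, Continuous L ∧ ∀ t, exp (L t) = g t := by
  obtain ⟨l, h1, h2⟩ := hasLog_univ (hg.comp continuous_re) fun z => h z.re
  exact ⟨fun t => l t, (continuousOn_univ.1 h1).comp continuous_ofReal, fun t => by
    simpa using h2 t trivial⟩

/-- Descent of a function along a curve. -/
theorem descend {j L : ℝ → ℂ} {K : Set ℝ} (hK : IsCompact K) (hj : ContinuousOn j K)
    (hL : ContinuousOn L K) (h : ∀ s ∈ K, ∀ t ∈ K, j s = j t → L s = L t) :
    ∃ l : ℂ → ℂ, ContinuousOn l (j '' K) ∧ ∀ t ∈ K, l (j t) = L t := by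
  have e : ∀ t ∈ K, L (Function.invFunOn j K (j t)) = L t := fun t ht =>
    h _ (Function.invFunOn_mem ⟨t, ht, rfl⟩) t ht (Function.invFunOn_eq ⟨t, ht, rfl⟩)
  refine ⟨fun z => L (Function.invFunOn j K z), ?_, e⟩
  rw [continuousOn_iff_isClosed]
  intro F hF
  refine ⟨j '' (K ∩ L ⁻¹' F), ((hK.of_isClosed_subset
    (hL.preimage_isClosed_of_isClosed hK.isClosed hF) inter_subset_left).image_of_continuousOn
      (hj.mono inter_subset_left)).isClosed, ?_⟩
  ext z
  constructor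
  · rintro ⟨h1, t, ht, rfl⟩
    exact ⟨⟨t, ⟨ht, by simpa [e t ht] using h1⟩, rfl⟩, t, ht, rfl⟩
  · rintro ⟨⟨t, ⟨ht, h1⟩, rfl⟩, h2⟩
    exact ⟨by simpa [e t ht] using h1, h2⟩

/-! ### Components and exteriors -/

theorem isPathConnected_ext (p : ℂ) (r : ℝ) : IsPathConnected {z : ℂ | r < ‖z - p‖} := by
  rcases lt_or_ge r 0 with h | h
  · have : {z : ℂ | r < ‖z - p‖} = univ := eq_univ_of_forall fun z => h.trans_le (norm_nonneg _)
    rw [this]; exact isPathConnected_univ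
  have e : {z : ℂ | r < ‖z - p‖} =
      (fun q : ℝ × ℝ => p + (q.1 : ℂ) * exp (q.2 * I)) '' (Ioi r ×ˢ univ) := by
    ext z
    constructor
    · exact fun hz => ⟨(‖z - p‖, arg (z - p)), ⟨hz, trivial⟩, by
        simp only [norm_mul_exp_arg_mul_I]; ring⟩
    · rintro ⟨q, hq, rfl⟩
      have : 0 < q.1 := h.trans_lt hq.1
      simpa [abs_of_pos this] using hq.1
  rw [e]
  have hn : (Ioi r ×ˢ (univ : Set ℝ)).Nonempty := ⟨(r + 1, 0), by simp⟩
  exact (((convex_Ioi r).prod convex_univ).isPathConnected hn).image (by fun_prop)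

theorem not_bounded_ext (p : ℂ) (r : ℝ) : ¬ Bornology.IsBounded {z : ℂ | r < ‖z - p‖} := by
  intro h
  obtain ⟨R, hR⟩ := h.subset_closedBall p
  have := hR (show p + ((max r R + 1 + |r| + |R| : ℝ) : ℂ) ∈ {z : ℂ | r < ‖z - p‖} by
    simp only [mem_ofPred_eq, add_sub_cancel_left, norm_real, Real.norm_eq_abs]
    exact lt_of_lt_of_le (by linarith [le_max_left r R, abs_nonneg r, abs_nonneg R]) (le_abs_self _))
  rw [mem_closedBall, dist_eq_norm, add_sub_cancel_left, norm_real, Real.norm_eq_abs] at this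
  linarith [le_max_right r R, abs_nonneg r, abs_nonneg R, le_abs_self (max r R + 1 + |r| + |R|)]

theorem joinedIn_of_open {U : Set ℂ} (hU : IsOpen U) (hc : IsPreconnected U) {p q : ℂ}
    (hp : p ∈ U) (hq : q ∈ U) : JoinedIn U p q :=
  ((hU.isConnected_iff_isPathConnected).1 ⟨⟨p, hp⟩, hc⟩).joinedIn p hp q hq

theorem preconn_of_joined {U : Set ℂ} (h : ∀ p ∈ U, ∀ q ∈ U, JoinedIn U p q) :
    IsPreconnected U := by
  rcases U.eq_empty_or_nonempty with rfl | ⟨p, hp⟩
  · exact isPreconnected_empty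
  · exact (IsPathConnected.isConnected ⟨p, hp, fun q hq => h p hp q hq⟩).isPreconnected

theorem frontier_comp {A : Set ℂ} (hA : IsClosed A) (p : ℂ) :
    frontier (connectedComponentIn Aᶜ p) ⊆ A := by
  intro z hz
  by_contra hzA
  have ho := hA.isOpen_compl
  have h1 : IsOpen (connectedComponentIn Aᶜ z) := ho.connectedComponentIn
  obtain ⟨w, hw1, hw2⟩ := mem_closure_iff.1 hz.1 _ h1 (mem_connectedComponentIn hzA)
  have e : connectedComponentIn Aᶜ p = connectedComponentIn Aᶜ z :=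
    (connectedComponentIn_eq hw2).trans (connectedComponentIn_eq hw1).symm
  refine hz.2 ?_
  rw [ho.connectedComponentIn.interior_eq, e]
  exact mem_connectedComponentIn hzA

theorem inside_subset {J : Set ℂ} {p : ℂ} {r : ℝ} (h : J ⊆ closedBall p r) :
    inside J ⊆ closedBall p r := by
  intro z hz
  by_contra hn
  rw [mem_closedBall, dist_eq_norm, not_le] at hn
  refine not_bounded_ext p r (hz.2.subset ?_)
  refine (isPathConnected_ext p r).isConnected.isPreconnected.subset_connectedComponentIn hn ?_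
  intro w hw hwJ
  have := h hwJ
  rw [mem_closedBall, dist_eq_norm] at this
  exact absurd hw (not_lt.2 this)

theorem inside_of_preconn {J S : Set ℂ} (hS : IsPreconnected S) (hd : Disjoint S J) {z : ℂ}
    (hz : z ∈ S) (hi : z ∈ inside J) : S ⊆ inside J := by
  intro w hw
  have h1 : S ⊆ connectedComponentIn Jᶜ z :=
    hS.subset_connectedComponentIn hz hd.subset_compl_right
  exact ⟨fun h => disjoint_left.1 hd hw h, connectedComponentIn_eq (h1 hw) ▸ hi.2⟩

/-! ### Loops -/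

theorem Loop.range_Icc {j : ℝ → ℂ} (h : Loop j) (a : ℝ) : range j = j '' Icc a (a + 1) :=
  (h.per.image_Icc one_pos a).symm

theorem Loop.isCompact {j : ℝ → ℂ} (h : Loop j) : IsCompact (range j) :=
  h.range_Icc 0 ▸ isCompact_Icc.image h.cont

theorem Loop.isPreconnected {j : ℝ → ℂ} (h : Loop j) : IsPreconnected (range j) :=
  isPreconnected_range h.cont

theorem JLoop.eq_iff {j : ℝ → ℂ} (h : JLoop j) {s t : ℝ} (e : j s = j t) :
    ∃ k : ℤ, s = t + k := by
  have e1 : ∀ u, j (Int.fract u) = j u := fun u => by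
    have := h.per.sub_zsmul_eq (x := u) ⌊u⌋
    rwa [zsmul_eq_mul, mul_one] at this
  have := h.inj ⟨Int.fract_nonneg s, Int.fract_lt_one s⟩ ⟨Int.fract_nonneg t, Int.fract_lt_one t⟩
    (by rw [e1, e1, e])
  refine ⟨⌊s⌋ - ⌊t⌋, ?_⟩
  simp only [Int.fract] at this
  push_cast
  linarith

theorem norm_circ (t : ℝ) : ‖circ t‖ = 1 := by
  have : (π : ℂ) * I * (1 - 2 * (t : ℂ)) = ((π * (1 - 2 * t) : ℝ) : ℂ) * I := by push_cast; ring
  rw [circ, this, norm_exp_ofReal_mul_I]

theorem circ_mem (t : ℝ) : circ t ∈ sphere (0 : ℂ) 1 := by simp [norm_circ]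

theorem jloop_circ : JLoop circ := by
  refine ⟨⟨by unfold circ; fun_prop, fun t => ?_⟩, fun s hs t ht e => ?_⟩
  · have : (π : ℂ) * I * (1 - 2 * ((t + 1 : ℝ) : ℂ)) =
        π * I * (1 - 2 * (t : ℂ)) - 2 * π * I := by push_cast; ring
    rw [circ, circ, this, exp_sub, exp_two_pi_mul_I, div_one]
  · obtain ⟨k, hk⟩ := exp_eq_exp_iff_exists_int.1 e
    have h1 := congrArg im hk
    simp at h1
    have h2 : t - s = k := by
      have := Real.pi_pos
      nlinarith
    have h3 : (k : ℝ) < 1 := by linarith [hs.1, ht.2]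
    have h4 : (-1 : ℝ) < k := by linarith [hs.2, ht.1]
    have h5 : k = 0 := by
      have a : k < 1 := by exact_mod_cast h3
      have b : -1 < k := by exact_mod_cast h4
      omega
    rw [h5] at h2
    simp at h2
    linarith

theorem range_circ : range circ = sphere (0 : ℂ) 1 := by
  refine Subset.antisymm (range_subset_iff.2 circ_mem) fun z hz => ?_
  refine ⟨(1 - arg z / π) / 2, ?_⟩
  have h0 : (π : ℂ) ≠ 0 := by exact_mod_cast Real.pi_ne_zero
  have : (π : ℂ) * I * (1 - 2 * (((1 - arg z / π) / 2 : ℝ) : ℂ)) = arg z * I := by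
    push_cast; field_simp; ring
  have h1 := norm_mul_exp_arg_mul_I z
  rw [mem_sphere_zero_iff_norm.1 hz] at h1
  rw [circ, this]
  simpa using h1

theorem jloop_comp {ψ : ℂ → ℂ} (h : IsJordanMap ψ) : JLoop fun t => ψ (circ t) :=
  ⟨⟨h.1.comp_continuous jloop_circ.cont fun t => sphere_subset_closedBall (circ_mem t),
    fun t => by simp only [jloop_circ.per t]⟩, fun s hs t ht e => jloop_circ.inj hs ht
      (h.2.1 (sphere_subset_closedBall (circ_mem s)) (sphere_subset_closedBall (circ_mem t)) e)⟩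

theorem range_comp_circ (ψ : ℂ → ℂ) : (range fun t => ψ (circ t)) = ψ '' sphere 0 1 := by
  rw [← range_circ, ← Set.range_comp]; rfl

/-! ### Conformal maps -/

theorem Cf.symm {U V : Set ℂ} {f g : ℂ → ℂ} (h : Cf U V f g) : Cf V U g f :=
  ⟨h.oV, h.oU, h.hg, h.hf, h.mg, h.mf, h.fg, h.gf⟩

theorem Cf.inj {U V : Set ℂ} {f g : ℂ → ℂ} (h : Cf U V f g) : InjOn f U :=
  fun a ha b hb e => by rw [← h.gf a ha, e, h.gf b hb]

theorem Cf.image {U V : Set ℂ} {f g : ℂ → ℂ} (h : Cf U V f g) : f '' U = V :=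
  Subset.antisymm h.mf.image_subset fun w hw => ⟨g w, h.mg hw, h.fg w hw⟩

theorem Cf.cf {U V : Set ℂ} {f g : ℂ → ℂ} (h : Cf U V f g) {z : ℂ} (hz : z ∈ U) :
    ContinuousAt f z := h.hf.continuousOn.continuousAt (h.oU.mem_nhds hz)

theorem Cf.cg {U V : Set ℂ} {f g : ℂ → ℂ} (h : Cf U V f g) {w : ℂ} (hw : w ∈ V) :
    ContinuousAt g w := h.symm.cf hw

theorem Cf.trans {U V X : Set ℂ} {f g f' g' : ℂ → ℂ} (h : Cf U V f g) (h' : Cf V X f' g') :
    Cf U X (fun z => f' (f z)) (fun w => g (g' w)) :=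
  ⟨h.oU, h'.oV, h'.hf.comp h.hf h.mf, h.hg.comp h'.hg h'.mg, h'.mf.comp h.mf, h.mg.comp h'.mg,
    fun z hz => by rw [h'.gf _ (h.mf hz), h.gf z hz],
    fun w hw => by rw [h.fg _ (h'.mg hw), h'.fg w hw]⟩

theorem Cf.restrict {U V U' : Set ℂ} {f g : ℂ → ℂ} (h : Cf U V f g) (ho : IsOpen U')
    (hs : U' ⊆ U) : Cf U' (f '' U') f g := by
  have e : f '' U' = V ∩ g ⁻¹' U' := by
    ext w
    constructor
    · rintro ⟨z, hz, rfl⟩
      exact ⟨h.mf (hs hz), by simpa [h.gf z (hs hz)] using hz⟩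
    · exact fun hw => ⟨g w, hw.2, h.fg w hw.1⟩
  refine ⟨ho, e ▸ h.hg.continuousOn.isOpen_inter_preimage h.oV ho, h.hf.mono hs,
    h.hg.mono (e ▸ inter_subset_left), mapsTo_image _ _, fun w hw => (e ▸ hw).2,
    fun z hz => h.gf z (hs hz), fun w hw => h.fg w (e ▸ hw).1⟩

/-- Properness: boundary points are not sent inside. -/
theorem Cf.proper {U V : Set ℂ} {f g : ℂ → ℂ} (h : Cf U V f g) {ι : Type*} {l : Filter ι}
    [l.NeBot] {z : ι → ℂ} {a b : ℂ} (hz : ∀ᶠ i in l, z i ∈ U) (ha : Tendsto z l (𝓝 a))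
    (hb : Tendsto (fun i => f (z i)) l (𝓝 b)) (hV : b ∈ V) : a ∈ U ∧ f a = b := by
  have h1 : Tendsto z l (𝓝 (g b)) :=
    ((h.cg hV).tendsto.comp hb).congr' (hz.mono fun i hi => h.gf _ hi)
  rw [tendsto_nhds_unique ha h1]
  exact ⟨h.mg hV, h.fg b hV⟩

theorem isOpen_HP : IsOpen HP := isOpen_lt continuous_const continuous_im

theorem convex_HP : Convex ℝ HP := convex_halfSpace_im_gt 0

theorem frontier_HP : frontier HP = {z : ℂ | z.im = 0} := by
  exact frontier_setOfPred_lt_im 0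

theorem closure_HP : closure HP = {z : ℂ | 0 ≤ z.im} := closure_setOfPred_lt_im 0

end Vale.Agent.P153.CA
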