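import Vale.Agent.P153.CA.Basic

/-! The Loewner equation for the chain of a simple curve. -/

open Set Filter Topology Metric Complex MeasureTheory
open scoped ComplexConjugate ENNReal Real

noncomputable section
namespace Vale.Agent.P153.CA

open Vale.Agent.P164 (Pth HP Zf fi)

namespace Ch4

theorem deriv_of {G W : ℝ → ℂ} {σ : ℝ → ℝ} {J : Set ℝ} {C u₀ : ℝ} (hW : Continuous W)
    (hσ : Continuous σ)
    (key : ∀ ε > 0, ∃ δ > 0, ∀ u₁ ∈ J, ∀ u₂ ∈ J, u₁ < u₂ → σ u₂ ≤ σ u₁ + δ →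
      ‖G u₂ - G u₁‖ ≤ C * ε ∧ (4 * ε ≤ ‖G u₁ - W u₁‖ →
        ‖G u₂ - G u₁ - ((u₂ - u₁ : ℝ) : ℂ) * (2 / (G u₁ - W u₁))‖ ≤
          24 * (u₂ - u₁) * ε / ‖G u₁ - W u₁‖ ^ 2))
    (h0 : u₀ ∈ J) (hne : G u₀ ≠ W u₀) : HasDerivWithinAt G (2 / (G u₀ - W u₀)) J u₀ := by
  have ev : ∀ δ > 0, ∀ᶠ u in 𝓝[J] u₀, u ∈ J ∧ σ u ≤ σ u₀ + δ ∧ σ u₀ ≤ σ u + δ := by
    intro δ hδ
    filter_upwards [self_mem_nhdsWithin,
      mem_nhdsWithin_of_mem_nhds (Metric.tendsto_nhds.1 (hσ.tendsto u₀) δ hδ)] with u h1 h2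
    have h3 := abs_lt.1 (show |σ u - σ u₀| < δ from h2)
    exact ⟨h1, by linarith [h3.2], by linarith [h3.1]⟩
  have hc : ContinuousWithinAt G J u₀ := by
    refine Metric.tendsto_nhds.2 fun e he => ?_
    have h1 : 0 < |C| + 1 := by positivity
    obtain ⟨δ, hδ, hk⟩ := key (e / (|C| + 1)) (by positivity)
    have h2 : C * (e / (|C| + 1)) < e := by
      rw [← mul_div_assoc, div_lt_iff₀ h1]
      nlinarith [le_abs_self C]
    filter_upwards [ev δ hδ] with u ⟨k1, k2, k3⟩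
    rcases lt_trichotomy u u₀ with k | k | k
    · rw [dist_comm, dist_eq_norm]
      exact (hk u k1 u₀ h0 k k3).1.trans_lt h2
    · rw [k, dist_self]; exact he
    · rw [dist_eq_norm]
      exact (hk u₀ h0 u k1 k k2).1.trans_lt h2
  have hz : ContinuousWithinAt (fun u => G u - W u) J u₀ := hc.sub hW.continuousWithinAt
  obtain ⟨m, hm⟩ : ∃ m, m = ‖G u₀ - W u₀‖ := ⟨_, rfl⟩
  have hm0 : 0 < m := hm ▸ norm_pos_iff.2 (sub_ne_zero.2 hne)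
  have e1 : ∀ᶠ u in 𝓝[J] u₀, m / 2 < ‖G u - W u‖ :=
    hz.norm.eventually (lt_mem_nhds (show m / 2 < ‖G u₀ - W u₀‖ by linarith))
  have hq : ContinuousWithinAt (fun u => 2 / (G u - W u)) J u₀ :=
    continuousWithinAt_const.div hz (sub_ne_zero.2 hne)
  rw [hasDerivWithinAt_iff_isLittleO, Asymptotics.isLittleO_iff]
  intro c hc0
  obtain ⟨ε, hε, hε1, hε2⟩ : ∃ ε > 0, ε ≤ m / 8 ∧ ε ≤ c * m ^ 2 / 192 :=
    ⟨min (m / 8) (c * m ^ 2 / 192), by positivity, min_le_left _ _, min_le_right _ _⟩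
  obtain ⟨δ, hδ, hk⟩ := key ε hε
  have bd : ∀ x y : ℝ, 0 < x → m / 2 < y → 24 * x * ε / y ^ 2 ≤ c / 2 * x := by
    intro x y hx hy
    have h1 : (m / 2) ^ 2 ≤ y ^ 2 := pow_le_pow_left₀ (by positivity) hy.le 2
    rw [div_le_iff₀ (by nlinarith)]
    calc 24 * x * ε ≤ 24 * x * (c * m ^ 2 / 192) := by gcongr
      _ = c / 2 * x * (m / 2) ^ 2 := by ring
      _ ≤ c / 2 * x * y ^ 2 := by gcongr
  filter_upwards [ev δ hδ, e1, Metric.tendsto_nhds.1 hq (c / 2) (by positivity)]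
    with u ⟨k1, k2, k3⟩ k4 k5
  rw [real_smul, Real.norm_eq_abs]
  rcases lt_trichotomy u u₀ with k | k | k
  · have h1 := ((hk u k1 u₀ h0 k k3).2 (by linarith)).trans (bd _ _ (sub_pos.2 k) k4)
    rw [dist_comm, dist_eq_norm] at k5
    have h2 : G u - G u₀ - ((u - u₀ : ℝ) : ℂ) * (2 / (G u₀ - W u₀)) =
        ((u₀ - u : ℝ) : ℂ) * (2 / (G u₀ - W u₀) - 2 / (G u - W u)) -
          (G u₀ - G u - ((u₀ - u : ℝ) : ℂ) * (2 / (G u - W u))) := by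
      push_cast
      ring
    rw [h2, abs_sub_comm, abs_of_pos (sub_pos.2 k)]
    refine (norm_sub_le _ _).trans ?_
    rw [norm_mul, norm_real, Real.norm_eq_abs, abs_of_pos (sub_pos.2 k)]
    nlinarith [mul_le_mul_of_nonneg_left k5.le (sub_pos.2 k).le]
  · simp [k]
  · have h1 := ((hk u₀ h0 u k1 k k2).2 (by linarith)).trans
      (bd _ _ (sub_pos.2 k) (by rw [← hm]; linarith))
    rw [abs_of_pos (sub_pos.2 k)]
    nlinarith [mul_pos hc0 (sub_pos.2 k)]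

end Ch4

theorem s_ch4 : S_ch4 := by
  intro η L g f a U C S σ W _ hC hG hI hS h0 hg0 hσ hm hσS ha hW t ht z hz
  have hz' : ∀ u ∈ Icc 0 t, z ∈ HP \ η '' Ioc 0 (σ u) := fun u hu =>
    ⟨hz.1, fun k => hz.2 (image_mono (Ioc_subset_Ioc_right (hm hu.2)) k)⟩
  have hL : ∀ u, σ u < L := fun u => (hσS u).2.trans_lt hS.2
  have ha' : ∀ u ∈ Icc 0 t, a (σ u) = 2 * u := fun u hu => ha u ⟨hu.1, hu.2.trans ht.2⟩
  refine ⟨by simp only [h0, hg0 z hz.1], fun s hs => ?_⟩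
  have hne : g (σ s) z ≠ (W s : ℂ) := fun k => by
    have h1 : 0 < (g (σ s) z).im := (hC.hyd _ ⟨(hσS s).1, hL s⟩).cf.mf (hz' s hs)
    rw [k, ofReal_im] at h1
    exact lt_irrefl _ h1
  refine ⟨hne, Ch4.deriv_of (G := fun u => g (σ u) z) (W := fun u => (W u : ℂ)) (C := C)
    (continuous_ofReal.comp W.continuous) hσ (fun ε hε => ?_) hs hne⟩
  obtain ⟨δ, hδ, hk⟩ := hG S hS.2 ε hε
  refine ⟨δ, hδ, fun u₁ h1 u₂ h2 h12 h3 => ?_⟩
  have h4 : σ u₁ < σ u₂ := lt_of_le_of_ne (hm h12.le) fun k => by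
    have k1 := ha' u₁ h1
    rw [k, ha' u₂ h2] at k1
    linarith
  obtain ⟨-, -, -, h5⟩ := hI (σ u₁) (σ u₂) ε (hσS u₁).1 h4 (hL u₂) hε fun v hv =>
    hk _ (hσS u₁) v hv.1 (hv.2.trans_lt (hL u₂)) (hv.2.trans h3)
  obtain ⟨h6, h7⟩ := h5 z (hz' u₂ h2)
  rw [ha' u₁ h1, ha' u₂ h2, ← hW] at h7
  refine ⟨h6, fun k => ?_⟩
  have h8 := h7 k
  rwa [show ((2 * u₂ - 2 * u₁ : ℝ) : ℂ) / (g (σ u₁) z - W u₁) =
      ((u₂ - u₁ : ℝ) : ℂ) * (2 / (g (σ u₁) z - W u₁)) by push_cast; ring,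
    show 12 * (2 * u₂ - 2 * u₁) = 24 * (u₂ - u₁) by ring] at h8

end Vale.Agent.P153.CA
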