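import Vale.Agent.P153.CA.Basic

/-! The shadow of the image of a circle. -/

open Set Filter Topology Metric Complex MeasureTheory
open scoped ComplexConjugate ENNReal Real

noncomputable section
namespace Vale.Agent.P153.CA

theorem s_shadow : S_shadow := by
  intro Ω N g φ p ρ L hΩ hg hN hρ hL hφ
  set E : Set ℝ := Ioo (-π) π ∩ (circleMap p ρ ⁻¹' (Ω ∩ g ⁻¹' N)) with hE
  have hO : IsOpen (Ω ∩ g ⁻¹' N) := hg.continuousOn.isOpen_inter_preimage hΩ hN
  have hEo : IsOpen E := isOpen_Ioo.inter (hO.preimage (continuous_circleMap p ρ))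
  set h : ℝ → ℝ := fun t => φ (g (circleMap p ρ t)) with hh
  set h' : ℝ → ℝ := fun t =>
    fderiv ℝ φ (g (circleMap p ρ t)) (deriv g (circleMap p ρ t) * (circleMap 0 ρ t * I)) with hh'
  have hd : ∀ t ∈ E, HasDerivAt h (h' t) t := by
    intro t ht
    have h1 : HasDerivAt g (deriv g (circleMap p ρ t)) (circleMap p ρ t) :=
      (hg.differentiableAt (hΩ.mem_nhds ht.2.1)).hasDerivAt
    have h2 : HasDerivAt (fun t => g (circleMap p ρ t))
        (deriv g (circleMap p ρ t) * (circleMap 0 ρ t * I)) t := by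
      have := h1.scomp t (hasDerivAt_circleMap p ρ t)
      simpa [Function.comp_def, mul_comm] using this
    exact (hφ _ ht.2.2).1.hasFDerivAt.comp_hasDerivAt t h2
  have hsub : φ '' (g '' (Ω ∩ sphere p ρ) ∩ N) ⊆ h '' E ∪ {φ (g (circleMap p ρ π))} := by
    rintro _ ⟨_, ⟨⟨z, ⟨hz, hs⟩, rfl⟩, hn⟩, rfl⟩
    have hz1 : ‖z - p‖ = ρ := mem_sphere_iff_norm.mp hs
    have e : circleMap p ρ (arg (z - p)) = z := by
      have := Complex.norm_mul_exp_arg_mul_I (z - p)
      rw [hz1] at this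
      simp [circleMap, this]
    rcases (Complex.arg_le_pi (z - p)).lt_or_eq with ha | ha
    · refine Or.inl ⟨arg (z - p), ⟨⟨Complex.neg_pi_lt_arg _, ha⟩, ?_⟩, by simp [hh, e]⟩
      show circleMap p ρ (arg (z - p)) ∈ Ω ∩ g ⁻¹' N
      rw [e]; exact ⟨hz, hn⟩
    · right
      rw [← ha, e]; rfl
  have h1 : volume (h '' E) ≤ ∫⁻ t in E, ENNReal.ofReal |h' t| := by
    have := addHaar_image_le_lintegral_abs_det_fderiv volume hEo.measurableSet
      (f := h) (f' := fun t => ContinuousLinearMap.toSpanSingleton ℝ (h' t))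
      (fun t ht => (hd t ht).hasDerivWithinAt.hasFDerivWithinAt)
    simpa only [ContinuousLinearMap.det_toSpanSingleton] using this
  have h2 : volume (φ '' (g '' (Ω ∩ sphere p ρ) ∩ N)) ≤ volume (h '' E) := by
    refine (measure_mono hsub).trans ((measure_union_le _ _).trans ?_)
    simp
  refine h2.trans (h1.trans ?_)
  rw [alen, ← lintegral_const_mul' _ _ ENNReal.ofReal_ne_top]
  refine le_trans (setLIntegral_mono' hEo.measurableSet fun t ht => ?_)
    (lintegral_mono_set (inter_subset_left : E ⊆ Ioo (-π) π))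
  rw [indicator_of_mem ht.2.1, ← ofReal_norm_eq_enorm, ← ENNReal.ofReal_mul (norm_nonneg _),
    ← ENNReal.ofReal_mul hL]
  refine ENNReal.ofReal_le_ofReal ?_
  have h3 := (fderiv ℝ φ (g (circleMap p ρ t))).le_opNorm
    (deriv g (circleMap p ρ t) * (circleMap 0 ρ t * I))
  rw [norm_mul, norm_mul, norm_I, norm_circleMap_zero, abs_of_pos hρ, mul_one] at h3
  exact h3.trans (mul_le_mul_of_nonneg_right (hφ _ ht.2.2).2 (by positivity))

end Vale.Agent.P153.CA
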