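import Vale.Agent.P153.DefsSLE
import Vale.Agent.P164.Stm

/-! Complex analysis for the interface: definitions and statements, part one. -/

open Set Filter Topology Metric Complex MeasureTheory
open scoped ComplexConjugate ENNReal Real

noncomputable section
namespace Vale.Agent.P153.CA

open Vale.Agent.P164 (Pth HP Zf fi)

/-- `f` has a continuous logarithm on `A`. -/
def HasLog (f : ℂ → ℂ) (A : Set ℂ) : Prop :=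
  ∃ l : ℂ → ℂ, ContinuousOn l A ∧ ∀ z ∈ A, exp (l z) = f z

/-- `f` maps `U` conformally onto `V`, with inverse `g`. -/
structure Cf (U V : Set ℂ) (f g : ℂ → ℂ) : Prop where
  oU : IsOpen U
  oV : IsOpen V
  hf : DifferentiableOn ℂ f U
  hg : DifferentiableOn ℂ g V
  mf : MapsTo f U V
  mg : MapsTo g V U
  gf : ∀ z ∈ U, g (f z) = z
  fg : ∀ w ∈ V, f (g w) = w

/-- Every point outside `Ω` is joined to infinity outside `Ω`. -/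
def Full (Ω : Set ℂ) : Prop :=
  ∀ w, w ∉ Ω → ∃ S, IsPreconnected S ∧ w ∈ S ∧ Disjoint S Ω ∧ ¬ Bornology.IsBounded S

/-- A closed curve of period one. -/
structure Loop (j : ℝ → ℂ) : Prop where
  cont : Continuous j
  per : Function.Periodic j 1

/-- A simple closed curve of period one. -/
structure JLoop (j : ℝ → ℂ) : Prop extends Loop j where
  inj : InjOn j (Ico 0 1)

/-- The points of the bounded components of the complement of `J`. -/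
def inside (J : Set ℂ) : Set ℂ := {z | z ∉ J ∧ Bornology.IsBounded (connectedComponentIn Jᶜ z)}

/-- The parametrization of the unit circle used in `Approx`. -/
def circ (t : ℝ) : ℂ := exp (π * I * (1 - 2 * (t : ℂ)))

/-- The Cayley map of the half-plane onto the disc. -/
def cay (z : ℂ) : ℂ := (z - I) / (z + I)

/-- The inverse of the Cayley map. -/
def icay (w : ℂ) : ℂ := I * (1 + w) / (1 - w)

/-- Length of the image under `g` of the part in `Ω` of a circle. -/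
def alen (g : ℂ → ℂ) (Ω : Set ℂ) (p : ℂ) (ρ : ℝ) : ℝ≥0∞ :=
  ∫⁻ θ in Ioo (-π) π, Ω.indicator (fun w => ‖deriv g w‖ₑ) (circleMap p ρ θ) * ENNReal.ofReal ρ

/-! ### Plane topology -/

def S_bdir : Prop :=
  (∀ (A S : Set ℂ) (p q : ℂ), IsClosed A → IsPreconnected S → Disjoint S A → p ∈ S → q ∈ S →
    HasLog (fun z => (z - p) / (z - q)) A) ∧
  ∀ (A S : Set ℂ) (p : ℂ), IsCompact A → IsPreconnected S → Disjoint S A → p ∈ S →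
    ¬ Bornology.IsBounded S → HasLog (fun z => z - p) A

def S_bconv : Prop :=
  ∀ (U : Set ℂ) (a : ℂ) (m : ℤ) (f : ℂ → ℂ), IsOpen U → Bornology.IsBounded U → a ∈ U →
    ContinuousOn f (closure U) → (∀ z ∈ closure U, f z ≠ 0) →
    HasLog (fun z => (z - a) ^ m / f z) (frontier U) → m = 0

def S_bc2 : Prop :=
  ∀ (A : Set ℂ) (p q : ℂ), IsClosed A → (Bornology.IsBounded A ∨ Bornology.IsBounded Aᶜ) →
    p ∉ A → q ∉ A → HasLog (fun z => (z - p) / (z - q)) A → JoinedIn Aᶜ p q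

def S_jan : Prop :=
  ∀ (A B : Set ℂ) (p q : ℂ), IsCompact A → IsClosed B → IsPreconnected (A ∩ B) →
    JoinedIn Aᶜ p q → JoinedIn Bᶜ p q → JoinedIn (A ∪ B)ᶜ p q

def S_arc : Prop :=
  ∀ (Ω : Set ℂ) (γ : ℝ → ℂ) (a b : ℝ), IsOpen Ω → IsPreconnected Ω → a ≤ b →
    ContinuousOn γ (Icc a b) → InjOn γ (Icc a b) → (∀ s ∈ Ioc a b, γ s ∈ Ω) →
    IsPreconnected (Ω \ γ '' Icc a b)

def S_jct : Prop :=
  ∀ j : ℝ → ℂ, JLoop j → IsOpen (inside (range j)) ∧ Bornology.IsBounded (inside (range j)) ∧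
    IsPreconnected (inside (range j)) ∧ Full (inside (range j)) ∧
    ((inside (range j)).Nonempty → frontier (inside (range j)) = range j)

def S_wind : Prop :=
  ∀ (ψ : ℂ → ℂ) (K : Set ℂ), IsJordanMap ψ → IsCompact K → K ⊆ ψ '' ball 0 1 →
    ∃ e > 0, ∀ j : ℝ → ℂ, Loop j → (∀ t, ‖j t - ψ (circ t)‖ ≤ e) → K ⊆ inside (range j)

/-- The separation lemma for a homeomorphism between plane domains. -/
def S_sep : Prop :=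
  ∀ (U V C S : Set ℂ) (f g : ℂ → ℂ) (p : ℂ) (e : ℝ), Cf U V f g → IsPreconnected V → C ⊆ U →
    f '' C ⊆ closedBall p e → IsPreconnected S → S ⊆ closedBall p e → Disjoint S V →
    closure (f '' C) \ V ⊆ S → ∀ z ∈ U, ∀ z' ∈ U, e < ‖f z - p‖ → e < ‖f z' - p‖ →
      JoinedIn (U \ C) z z'

/-- Uniform local connectedness of loops close to a Jordan curve. -/
def S_ulc : Prop :=
  ∀ j0 : ℝ → ℂ, JLoop j0 → ∀ ε > 0, ∃ ρ > 0, ∀ j : ℝ → ℂ, Loop j → (∀ t, ‖j t - j0 t‖ ≤ ρ) →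
    ∀ p : ℂ, ∃ S T : Set ℂ, IsCompact S ∧ IsPreconnected S ∧ IsCompact T ∧ IsPreconnected T ∧
      S ∪ T = range j ∧ S ⊆ ball p ε ∧ Disjoint T (closedBall p ρ)

/-- Points of a Jordan domain that are close are joined by a small path. -/
def S_loc : Prop :=
  ∀ j : ℝ → ℂ, JLoop j → ∀ ε > 0, ∃ ρ > 0, ∀ z ∈ inside (range j), ∀ z' ∈ inside (range j),
    ‖z - z'‖ ≤ ρ → JoinedIn (inside (range j) ∩ ball z ε) z z'

/-! ### The Riemann mapping theorem -/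

def S_primK : Prop :=
  ∀ (Ω A : Set ℂ) (u : ℂ → ℂ), IsOpen Ω → Full Ω → IsOpen A → IsPreconnected A →
    IsCompact (closure A) → closure A ⊆ Ω → DifferentiableOn ℂ u Ω →
    ∃ k : ℂ → ℂ, ∀ z ∈ A, HasDerivAt k (u z) z

def S_hlog : Prop :=
  ∀ (Ω : Set ℂ) (F : ℂ → ℂ), IsOpen Ω → IsPreconnected Ω → Full Ω → Ω ≠ univ →
    DifferentiableOn ℂ F Ω → (∀ z ∈ Ω, F z ≠ 0) → HasLog F Ω

def S_rmt0 : Prop :=
  ∀ (Ω : Set ℂ) (x : ℂ), IsOpen Ω → IsPreconnected Ω → Ω ≠ univ → x ∈ Ω →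
    (∀ F : ℂ → ℂ, DifferentiableOn ℂ F Ω → (∀ z ∈ Ω, F z ≠ 0) → HasLog F Ω) →
    ∃ (f φ : ℂ → ℂ) (d : ℝ), Cf (ball 0 1) Ω f φ ∧ f 0 = x ∧ 0 < d ∧ HasDerivAt φ d x

def S_rmt : Prop :=
  ∀ (Ω : Set ℂ) (x : ℂ), IsOpen Ω → IsPreconnected Ω → Ω ≠ univ → x ∈ Ω → Full Ω →
    ∃ (f φ : ℂ → ℂ) (d : ℝ), Cf (ball 0 1) Ω f φ ∧ f 0 = x ∧ 0 < d ∧ HasDerivAt φ d x

def S_rot : Prop :=
  ∀ (Ω : Set ℂ) (f φ f' φ' : ℂ → ℂ), Cf (ball 0 1) Ω f φ → Cf (ball 0 1) Ω f' φ' → f 0 = f' 0 →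
    ∃ c : ℂ, ‖c‖ = 1 ∧ (∀ z ∈ ball (0 : ℂ) 1, f' z = f (c * z)) ∧ ∀ w ∈ Ω, φ w = c * φ' w

/-- An injective holomorphic map is conformal onto its image. -/
def S_inv : Prop :=
  ∀ (U : Set ℂ) (f : ℂ → ℂ), IsOpen U → DifferentiableOn ℂ f U → InjOn f U →
    Cf U (f '' U) f (Function.invFunOn f U)

/-- The maximum principle with boundary limits. -/
def S_max : Prop :=
  ∀ (U : Set ℂ) (f : ℂ → ℂ) (M : ℝ), IsOpen U → DifferentiableOn ℂ f U →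
    (∀ ζ ∈ frontier U, ∀ ε > 0, ∀ᶠ z in 𝓝[U] ζ, ‖f z‖ ≤ M + ε) →
    (∀ ε > 0, ∀ᶠ z in cocompact ℂ ⊓ 𝓟 U, ‖f z‖ ≤ M + ε) → ∀ z ∈ U, ‖f z‖ ≤ M

/-! ### Length and area -/

def S_la : Prop :=
  ∀ (Ω : Set ℂ) (g : ℂ → ℂ) (p c : ℂ) (r1 r2 R : ℝ), IsOpen Ω → DifferentiableOn ℂ g Ω →
    InjOn g Ω → 0 < r1 → r1 < r2 → 0 < R → g '' (Ω ∩ ball p r2) ⊆ closedBall c R →
    ∃ ρ ∈ Ioo r1 r2, alen g Ω p ρ ≤ ENNReal.ofReal (5 * R / √(Real.log (r2 / r1)))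

/-- The shadow of the image of a circle under a differentiable function with bounded gradient. -/
def S_shadow : Prop :=
  ∀ (Ω N : Set ℂ) (g : ℂ → ℂ) (φ : ℂ → ℝ) (p : ℂ) (ρ L : ℝ), IsOpen Ω → DifferentiableOn ℂ g Ω →
    IsOpen N → 0 < ρ → 0 ≤ L → (∀ w ∈ N, DifferentiableAt ℝ φ w ∧ ‖fderiv ℝ φ w‖ ≤ L) →
    volume (φ '' (g '' (Ω ∩ sphere p ρ) ∩ N)) ≤ ENNReal.ofReal L * alen g Ω p ρ

/-- Connected pieces of the image of a circle have small diameter, and reach the frontier. -/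
def S_short : Prop :=
  ∀ (Ω V : Set ℂ) (g f : ℂ → ℂ) (p : ℂ) (ρ l : ℝ), Cf Ω V g f → 0 < ρ → 0 ≤ l →
    alen g Ω p ρ ≤ ENNReal.ofReal l →
    (∀ C, C ⊆ Ω ∩ sphere p ρ → IsPreconnected C → ∀ z ∈ C, ∀ z' ∈ C, ‖g z - g z'‖ ≤ l) ∧
    (¬ sphere p ρ ⊆ Ω → ∀ z ∈ Ω ∩ sphere p ρ, ∃ w ∈ frontier V, ‖g z - w‖ ≤ l)

/-- Small connected sets have small images in the half-plane. -/
def S_t2h : Prop :=
  ∀ (Ω P : Set ℂ) (g f : ℂ → ℂ) (p c : ℂ) (r1 r2 R : ℝ), Cf Ω HP g f → 0 < r1 → r1 < r2 →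
    0 < R → g '' (Ω ∩ ball p r2) ⊆ closedBall c R → P ⊆ Ω ∩ closedBall p r1 → IsPreconnected P →
    (∀ ρ ∈ Ioo r1 r2, ¬ sphere p ρ ⊆ Ω) →
    (∀ z ∈ P, (g z).im ≤ 5 * R / √(Real.log (r2 / r1))) ∧
    ∀ z ∈ P, ∀ z' ∈ P, ‖g z - g z'‖ ≤ 10 * R / √(Real.log (r2 / r1))

/-- Small connected sets have small images in the disc. -/
def S_t2d : Prop :=
  ∀ (Ω P : Set ℂ) (g f : ℂ → ℂ) (p : ℂ) (r1 r2 : ℝ), Cf Ω (ball 0 1) g f → 0 < r1 → r1 < r2 →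
    r2 ≤ ‖f 0 - p‖ → P ⊆ Ω ∩ closedBall p r1 → IsPreconnected P →
    (∀ ρ ∈ Ioo r1 r2, ¬ sphere p ρ ⊆ Ω) →
    ∀ z ∈ P, ∀ z' ∈ P, ‖g z - g z'‖ ≤ 50 / √(Real.log (r2 / r1))

/-! ### Jordan domains -/

/-- Equicontinuity of the Riemann maps. -/
def S_equi : Prop :=
  ∀ (j0 : ℝ → ℂ) (o : ℂ), JLoop j0 → o ∉ range j0 → ∀ ε > 0, ∃ ρ > 0, ∀ (j : ℝ → ℂ) (f φ : ℂ → ℂ),
    JLoop j → (∀ t, ‖j t - j0 t‖ ≤ ρ) → Cf (ball 0 1) (inside (range j)) f φ → f 0 = o →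
    ∀ z ∈ ball (0 : ℂ) 1, ∀ z' ∈ ball (0 : ℂ) 1, ‖z - z'‖ ≤ ρ → ‖f z - f z'‖ ≤ ε

/-- Uniform continuity of the inverse of the Riemann map. -/
def S_iequi : Prop :=
  ∀ (j : ℝ → ℂ) (f φ : ℂ → ℂ), JLoop j → Cf (ball 0 1) (inside (range j)) f φ →
    UniformContinuousOn φ (inside (range j))

/-- The theorem of Caratheodory. -/
def S_car : Prop :=
  ∀ (j : ℝ → ℂ) (o : ℂ) (t : ℝ), JLoop j → o ∈ inside (range j) →
    ∃ Ψ : ℂ → ℂ, IsJordanMap Ψ ∧ Ψ '' ball 0 1 = inside (range j) ∧ Ψ '' sphere 0 1 = range j ∧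
      Ψ 0 = o ∧ Ψ 1 = j t

/-- The theorem of Rado. -/
def S_rado : Prop :=
  ∀ ψ : ℂ → ℂ, IsJordanMap ψ → ∀ ε > 0, ∃ ρ > 0, ∀ (j : ℝ → ℂ) (Ψ : ℂ → ℂ), JLoop j →
    (∀ t, ‖j t - ψ (circ t)‖ ≤ ρ) → IsJordanMap Ψ → Ψ '' ball 0 1 = inside (range j) →
    Ψ '' sphere 0 1 = range j → Ψ 0 = ψ 0 → ‖Ψ 1 - ψ 1‖ ≤ ρ →
    ∀ z ∈ closedBall (0 : ℂ) 1, ‖Ψ z - ψ z‖ ≤ ε

/-! ### Hulls in the half-plane -/

/-- `A` is a slit attached to the real point `p`. -/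
structure Slit (A : Set ℂ) (p : ℝ) : Prop where
  sub : A ⊆ HP
  con : IsPreconnected A
  ne : A.Nonempty
  cpt : IsCompact (insert (p : ℂ) A)
  clo : (p : ℂ) ∈ closure A
  com : IsPreconnected (HP \ A)

/-- The slit together with its mirror image. -/
def dbl (A : Set ℂ) (p : ℝ) : Set ℂ := {z | z = p ∨ z ∈ A ∨ conj z ∈ A}

/-- The normalised conformal map of the complement of the hull `A`, of capacity `a`. -/
structure Hyd (A : Set ℂ) (g f : ℂ → ℂ) (a : ℝ) : Prop where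
  sub : A ⊆ HP
  bA : Bornology.IsBounded A
  cf : Cf (HP \ A) HP g f
  bd : ∃ C, ∀ z ∈ HP \ A, ‖g z - z‖ ≤ C
  cap : Tendsto (fun z => z * (g z - z)) (cocompact ℂ ⊓ 𝓟 HP) (𝓝 (a : ℂ))

/-- The map extends across the real line off the closed disc of centre `x` and radius `r`. -/
structure Refl (g : ℂ → ℂ) (x r : ℝ) : Prop where
  hol : DifferentiableOn ℂ g {z | r < ‖z - x‖}
  sym : ∀ z : ℂ, r < ‖z - x‖ → g (conj z) = conj (g z)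
  inf : Tendsto (fun z => g z - z) (cocompact ℂ) (𝓝 0)

/-- The exterior map of the doubled slit. -/
def S_ext : Prop :=
  ∀ (A : Set ℂ) (p : ℝ), Slit A p → ∃ (Φ Ψ : ℂ → ℂ) (c d : ℝ) (e : ℂ), 0 < c ∧
    Cf (dbl A p)ᶜ (ball 0 1 \ {0}) Φ Ψ ∧ (∀ z, z ∉ dbl A p → Φ (conj z) = conj (Φ z)) ∧
    (∀ R : ℝ, ∃ ε > 0, ∀ z, z ∉ dbl A p → ‖z‖ ≤ R → ε ≤ ‖Φ z‖) ∧
    Tendsto (fun z => z * Φ z) (cocompact ℂ) (𝓝 (c : ℂ)) ∧
    Tendsto (fun z => z * (c / Φ z - z - d)) (cocompact ℂ) (𝓝 e)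

def S_hull : Prop :=
  ∀ (A : Set ℂ) (p : ℝ), Slit A p → ∃ g f a, Hyd A g f a ∧
    ∀ x r : ℝ, 0 < r → A ⊆ closedBall (x : ℂ) r → Refl g x r

def S_imle : Prop := ∀ A g f a, Hyd A g f a → ∀ z ∈ HP \ A, (g z).im ≤ z.im

def S_hcomp : Prop :=
  ∀ A A' g f g' f' a a', Hyd A g f a → Hyd A' g' f' a' → A ⊆ A' →
    Hyd (g '' (A' \ A)) (fun w => g' (f w)) (fun w => g (f' w)) (a' - a)

def S_huniq : Prop :=
  ∀ A g f g' f' a a', Hyd A g f a → Hyd A g' f' a' →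
    a = a' ∧ EqOn g g' (HP \ A) ∧ EqOn f f' HP

def S_est : Prop :=
  ∀ A g f (a x r : ℝ), Hyd A g f a → 0 < r → A ⊆ closedBall (x : ℂ) r → Refl g x r →
    0 ≤ a ∧ ∀ z : ℂ, 4 * r ≤ ‖z - x‖ → ‖g z - z - a / (z - x)‖ ≤ 12 * a * r / ‖z - x‖ ^ 2

def S_est2 : Prop :=
  ∃ C : ℝ, 0 < C ∧ ∀ A g f (a x r : ℝ), Hyd A g f a → 0 < r → A ⊆ closedBall (x : ℂ) r →
    Refl g x r → a ≤ C * r ^ 2 ∧ (∀ z ∈ HP \ A, ‖g z - z‖ ≤ C * r) ∧ (A.Nonempty → 0 < a)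

/-! ### The Loewner chain of a simple curve -/

/-- A simple curve in the half-plane on `[0, L)`. -/
structure Crv (η : ℝ → ℂ) (L : ℝ) : Prop where
  cont : ContinuousOn η (Ico 0 L)
  inj : InjOn η (Ico 0 L)
  im0 : (η 0).im = 0
  pos : ∀ s ∈ Ioo 0 L, 0 < (η s).im

/-- The normalised maps along the curve. -/
structure Chain (η : ℝ → ℂ) (L : ℝ) (g f : ℝ → ℂ → ℂ) (a : ℝ → ℝ) : Prop where
  hyd : ∀ s ∈ Ico 0 L, Hyd (η '' Ioc 0 s) (g s) (f s) (a s)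
  bd : ∀ S < L, ∃ M, ∀ s ∈ Icc 0 S, ∀ z ∈ HP \ η '' Ioc 0 s, ‖g s z - z‖ ≤ M

/-- Local growth. -/
def Grow (η : ℝ → ℂ) (L : ℝ) (g : ℝ → ℂ → ℂ) (U : ℝ → ℝ) : Prop :=
  ∀ S < L, ∀ ε > 0, ∃ δ > 0, ∀ s ∈ Icc 0 S, ∀ u, s < u → u < L → u ≤ s + δ →
    ‖g s (η u) - U s‖ ≤ ε

/-- The increments of the chain. -/
def Incr (η : ℝ → ℂ) (L : ℝ) (g : ℝ → ℂ → ℂ) (a U : ℝ → ℝ) (C : ℝ) : Prop :=
  ∀ s u r : ℝ, 0 ≤ s → s < u → u < L → 0 < r → (∀ v ∈ Ioc s u, ‖g s (η v) - U s‖ ≤ r) →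
    a s < a u ∧ a u - a s ≤ C * r ^ 2 ∧ |U u - U s| ≤ C * r ∧
    ∀ z ∈ HP \ η '' Ioc 0 u, ‖g u z - g s z‖ ≤ C * r ∧ (4 * r ≤ ‖g s z - U s‖ →
      ‖g u z - g s z - ((a u - a s : ℝ) : ℂ) / (g s z - U s)‖ ≤
        12 * (a u - a s) * r / ‖g s z - U s‖ ^ 2)

def S_ch0 : Prop := ∀ η L, Crv η L → ∃ g f a, Chain η L g f a

def S_ch1 : Prop := ∀ η L g f a, Crv η L → Chain η L g f a → ∃ U, Grow η L g U

def S_ch2 : Prop :=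
  ∃ C, 0 < C ∧ ∀ η L g f a U, Crv η L → Chain η L g f a → Grow η L g U → Incr η L g a U C

/-- The time change. -/
def S_ch3 : Prop :=
  ∀ η L g f a U C, Crv η L → Chain η L g f a → Grow η L g U → Incr η L g a U C → 0 < L →
    a 0 = 0 ∧ (U 0 : ℂ) = η 0 ∧ (∀ z ∈ HP, g 0 z = z) ∧ ContinuousOn a (Ico 0 L) ∧
    StrictMonoOn a (Ico 0 L) ∧ ContinuousOn U (Ico 0 L) ∧
    ∀ S ∈ Ico 0 L, ∃ (σ : ℝ → ℝ) (W : Pth), Continuous σ ∧ Monotone σ ∧ (∀ t, σ t ∈ Icc 0 S) ∧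
      (∀ s ∈ Icc 0 S, σ (a s / 2) = s) ∧ (∀ t ∈ Icc 0 (a S / 2), a (σ t) = 2 * t) ∧
      ∀ t, W t = U (σ t)

/-- The Loewner equation. -/
def S_ch4 : Prop :=
  ∀ η L g f a U C S (σ : ℝ → ℝ) (W : Pth), Crv η L → Chain η L g f a → Grow η L g U →
    Incr η L g a U C → S ∈ Ico 0 L → σ 0 = 0 → (∀ z ∈ HP, g 0 z = z) → Continuous σ →
    Monotone σ → (∀ t, σ t ∈ Icc 0 S) → (∀ t ∈ Icc 0 (a S / 2), a (σ t) = 2 * t) →
    (∀ t, W t = U (σ t)) → ∀ t ∈ Icc 0 (a S / 2), ∀ z ∈ HP \ η '' Ioc 0 (σ t),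
      P164.Solves W z t fun u => g (σ u) z

/-- The driving function of a simple curve. -/
def S_slit : Prop :=
  ∀ η L, Crv η L → 0 < L → ∃ τ : ℝ → ℝ, τ 0 = 0 ∧ ContinuousOn τ (Ico 0 L) ∧
    StrictMonoOn τ (Ico 0 L) ∧ ∀ S ∈ Ico 0 L, ∃ W : Pth, (W 0 : ℂ) = η 0 ∧
      (∀ t, τ S ≤ t → W t = W (τ S)) ∧ (∀ t, t ≤ 0 → W t = W 0) ∧
      ∀ s ∈ Icc 0 S, P164.dom W (τ s) = HP \ η '' Ioc 0 s

end Vale.Agent.P153.CA
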